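import Mathlib

/-!
Standard Gaussian vectors: moments, integration by parts for polynomials, orthogonal invariance.
-/

set_option autoImplicit false

open Finset MeasureTheory ProbabilityTheory MvPolynomial WithLp

namespace Crest.Agent.R350

/-- Moments of the standard Gaussian. -/
noncomputable def gm (n : ℕ) : ℝ := ∫ x, x ^ n ∂(gaussianReal 0 1)

lemma integrable_pow_gauss (n : ℕ) : Integrable (fun x : ℝ => x ^ n) (gaussianReal 0 1) :=
  integrable_pow_of_mem_interior_integrableExpSet (X := fun x => x) (by simp) n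

lemma gm_eq (n : ℕ) : gm n = iteratedDeriv n (fun t : ℝ => Real.exp (t ^ 2 / 2)) 0 := by
  have h := iteratedDeriv_mgf_zero (X := id) (μ := gaussianReal 0 1) (by simp) n
  rw [mgf_id_gaussianReal] at h
  simp only [zero_mul, NNReal.coe_one, one_mul, zero_add] at h
  rw [h]
  rfl

lemma gm_zero : gm 0 = 1 := by simp [gm]

lemma gm_succ (n : ℕ) : gm (n + 1) = n * gm (n - 1) := by
  set g : ℝ → ℝ := fun t => Real.exp (t ^ 2 / 2) with hg
  have hs : ContDiff ℝ ⊤ g := by rw [hg]; fun_prop
  have hd : ∀ m : ℕ, Differentiable ℝ (iteratedDeriv m g) := fun m =>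
    hs.differentiable_iteratedDeriv m (by simp)
  have h1 : iteratedDeriv 1 g = fun t => t * g t := by
    ext t
    rw [iteratedDeriv_one]
    have : HasDerivAt g (Real.exp (t ^ 2 / 2) * (2 * t / 2)) t := by
      have h2 : HasDerivAt (fun t : ℝ => t ^ 2 / 2) (2 * t / 2) t := by
        simpa using (hasDerivAt_pow 2 t).div_const 2
      exact h2.exp
    rw [this.deriv, hg]; ring
  have key : ∀ m : ℕ, iteratedDeriv (m + 1) g =
      fun t => t * iteratedDeriv m g t + m * iteratedDeriv (m - 1) g t := by
    intro m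
    induction m with
    | zero => simpa using h1
    | succ m ih =>
      ext t
      rw [iteratedDeriv_succ, ih]
      have h2 : HasDerivAt (fun t => t * iteratedDeriv m g t + m * iteratedDeriv (m - 1) g t)
          (1 * iteratedDeriv m g t + t * deriv (iteratedDeriv m g) t +
            m * deriv (iteratedDeriv (m - 1) g) t) t :=
        ((hasDerivAt_id t).mul (hd m t).hasDerivAt).add ((hd (m - 1) t).hasDerivAt.const_mul _)
      rw [h2.deriv, ← iteratedDeriv_succ, ← iteratedDeriv_succ, ← ih]
      rcases m with _ | m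
      · simp; ring
      · simp only [Nat.add_sub_cancel]
        push_cast
        ring
  rw [gm_eq, gm_eq, key]
  simp only [zero_mul, zero_add]
  rfl

lemma gm_even_le (j : ℕ) : gm (2 * j) ≤ (2 * j) ^ j := by
  induction j with
  | zero => simp [gm_zero]
  | succ j ih =>
    rw [show 2 * (j + 1) = (2 * j + 1) + 1 by ring, gm_succ, Nat.add_sub_cancel, pow_succ]
    push_cast
    calc ((2 * j + 1 : ℝ)) * gm (2 * j) ≤ (2 * j + 1) * (2 * j) ^ j := by gcongr
      _ ≤ (2 * (j + 1)) * (2 * (j + 1)) ^ j := by gcongr <;> linarith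
      _ = _ := by ring

variable {σ : Type} [Fintype σ]

/-- The standard Gaussian measure on `σ → ℝ`. -/
noncomputable abbrev gauss (σ : Type) [Fintype σ] : Measure (σ → ℝ) :=
  Measure.pi fun _ : σ => gaussianReal 0 1

lemma eval_monomial' (X : σ → ℝ) (s : σ →₀ ℕ) (a : ℝ) :
    eval X (monomial s a) = a * ∏ i, X i ^ s i := by
  rw [eval_monomial, Finsupp.prod_fintype _ _ (by simp)]

lemma integrable_poly (P : MvPolynomial σ ℝ) : Integrable (fun X => eval X P) (gauss σ) := by
  induction P using MvPolynomial.induction_on' with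
  | monomial s a =>
    simp only [eval_monomial']
    exact (Integrable.fintype_prod (f := fun i x => x ^ s i)
      fun i => integrable_pow_gauss _).const_mul a
  | add p q hp hq => simp only [map_add]; exact hp.add hq

/-- Gaussian expectation of a polynomial. -/
noncomputable def EP (P : MvPolynomial σ ℝ) : ℝ := ∫ X, eval X P ∂(gauss σ)

lemma EP_add (P Q : MvPolynomial σ ℝ) : EP (P + Q) = EP P + EP Q := by
  simp only [EP, map_add]
  exact integral_add (integrable_poly P) (integrable_poly Q)

lemma EP_sub (P Q : MvPolynomial σ ℝ) : EP (P - Q) = EP P - EP Q := by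
  simp only [EP, map_sub]
  exact integral_sub (integrable_poly P) (integrable_poly Q)

lemma EP_C_mul (a : ℝ) (P : MvPolynomial σ ℝ) : EP (C a * P) = a * EP P := by
  simp only [EP, map_mul, eval_C]
  exact integral_const_mul _ _

lemma EP_sum {J : Type*} (s : Finset J) (P : J → MvPolynomial σ ℝ) :
    EP (∑ j ∈ s, P j) = ∑ j ∈ s, EP (P j) := by
  simp only [EP, map_sum]
  exact integral_finsetSum _ fun j _ => integrable_poly _

lemma EP_monomial (s : σ →₀ ℕ) (a : ℝ) : EP (monomial s a) = a * ∏ i, gm (s i) := by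
  simp only [EP, eval_monomial']
  rw [integral_const_mul, integral_fintype_prod_eq_prod (f := fun i (x : ℝ) => x ^ s i)]
  rfl

/-- Gaussian integration by parts. -/
lemma EP_stein (a : σ) (P : MvPolynomial σ ℝ) : EP (X a * P) = EP (pderiv a P) := by
  classical
  induction P using MvPolynomial.induction_on' with
  | monomial s c =>
    rw [pderiv_monomial, X, monomial_mul, EP_monomial, EP_monomial,
      ← Finset.mul_prod_erase _ _ (Finset.mem_univ a),
      ← Finset.mul_prod_erase _ _ (Finset.mem_univ a)]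
    have h1 : ∏ i ∈ Finset.univ.erase a, gm ((Finsupp.single a 1 + s : σ →₀ ℕ) i) =
        ∏ i ∈ Finset.univ.erase a, gm ((s - Finsupp.single a 1 : σ →₀ ℕ) i) :=
      Finset.prod_congr rfl fun i hi => by
        simp [Finsupp.single_eq_of_ne (Finset.ne_of_mem_erase hi)]
    rw [h1]
    simp only [Finsupp.coe_add, Pi.add_apply, Finsupp.single_eq_same, Finsupp.coe_tsub,
      Pi.sub_apply]
    rw [add_comm 1, gm_succ]
    ring
  | add p q hp hq => rw [mul_add, map_add, EP_add, EP_add, hp, hq]

lemma gauss_invariant [DecidableEq σ] (U : σ → σ → ℝ)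
    (hU : ∀ v : σ → ℝ, ∑ c, (∑ d, U c d * v d) ^ 2 = ∑ d, v d ^ 2)
    (g : (σ → ℝ) → ℝ) (hg : Continuous g) :
    ∫ X, g (fun c => ∑ d, U c d * X d) ∂(gauss σ) = ∫ X, g X ∂(gauss σ) := by
  let li : EuclideanSpace ℝ σ →ₗᵢ[ℝ] EuclideanSpace ℝ σ :=
    { toLinearMap := Matrix.toEuclideanLin (Matrix.of U)
      norm_map' := fun x => by
        rw [EuclideanSpace.norm_eq, EuclideanSpace.norm_eq]
        congr 1
        simp only [Real.norm_eq_abs, sq_abs]
        exact hU x.ofLp }
  let f := li.toLinearIsometryEquiv rfl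
  have h1 := stdGaussian_map f
  have h2 : ∀ G : EuclideanSpace ℝ σ → ℝ, Continuous G →
      ∫ X, G (toLp 2 X) ∂(gauss σ) = ∫ e, G e ∂(stdGaussian (EuclideanSpace ℝ σ)) := by
    intro G hG
    rw [← map_pi_eq_stdGaussian, integral_map (by fun_prop) hG.aestronglyMeasurable]
  have h3 := h2 (fun e => g (f e).ofLp) (by fun_prop)
  have h4 := h2 (fun e => g e.ofLp) (by fun_prop)
  rw [← h1, integral_map (by fun_prop) (by fun_prop)] at h4
  exact h3.trans h4.symm

end Crest.Agent.R350
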