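import Crest.Agent.R350.State
import Crest.Prelude.Def_QueryComplexity

/-!
From the cost calculus to quantum query algorithms (the transducer argument).
-/

set_option autoImplicit false

open Finset Matrix WithLp

namespace Crest.Agent.R350

open Crest.MathPhysics.Query

/-- Two families of real vectors with the same Gram matrix differ by an orthogonal matrix. -/
lemma exists_orth_of_gram {X E : Type} [Fintype X] [Fintype E] [DecidableEq E]
    (a b : X → E → ℝ) (h : ∀ x y, ∑ e, a x e * a y e = ∑ e, b x e * b y e) :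
    ∃ U : Matrix E E ℝ, Uᵀ * U = 1 ∧ ∀ x, U *ᵥ a x = b x := by
  classical
  let A : (X → ℝ) →ₗ[ℝ] EuclideanSpace ℝ E := Fintype.linearCombination ℝ fun x => toLp 2 (a x)
  let B : (X → ℝ) →ₗ[ℝ] EuclideanSpace ℝ E := Fintype.linearCombination ℝ fun x => toLp 2 (b x)
  have hAB : ∀ c, ‖B c‖ = ‖A c‖ := by
    intro c
    have : inner ℝ (B c) (B c) = inner ℝ (A c) (A c) := by
      simp only [A, B, Fintype.linearCombination_apply, sum_inner, inner_sum, inner_smul_left,
        inner_smul_right]
      refine Finset.sum_congr rfl fun x _ => ?_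
      congr 1
      refine Finset.sum_congr rfl fun y _ => ?_
      simp only [PiLp.inner_apply, RCLike.inner_apply, conj_trivial]
      rw [h]
    rw [real_inner_self_eq_norm_sq, real_inner_self_eq_norm_sq] at this
    exact (sq_eq_sq₀ (norm_nonneg _) (norm_nonneg _)).1 this
  obtain ⟨g, hg⟩ := LinearMap.exists_rightInverse_of_surjective A.rangeRestrict
    A.range_rangeRestrict
  have hg' : ∀ s : LinearMap.range A, A (g s) = s := fun s =>
    congrArg Subtype.val (LinearMap.congr_fun hg s)
  let L : LinearMap.range A →ₗᵢ[ℝ] EuclideanSpace ℝ E :=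
    { toLinearMap := B ∘ₗ g
      norm_map' := fun s => by
        simp only [LinearMap.comp_apply, hAB, hg']
        rfl }
  have hL : ∀ c, L.extend (A c) = B c := by
    intro c
    have h1 : L.extend (A c) = L ⟨A c, LinearMap.mem_range_self A c⟩ :=
      L.extend_apply ⟨A c, LinearMap.mem_range_self A c⟩
    rw [h1]
    change B (g _) = B c
    rw [← sub_eq_zero, ← map_sub, ← norm_eq_zero, hAB, map_sub, hg', sub_self, norm_zero]
  let U : Matrix E E ℝ := Matrix.toEuclideanLin.symm L.extend.toLinearMap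
  have hU : ∀ v : E → ℝ, toLp 2 (U *ᵥ v) = L.extend (toLp 2 v) := by
    intro v
    have : toLp 2 (U *ᵥ v) = Matrix.toEuclideanLin U (toLp 2 v) := rfl
    rw [this]
    simp [U]
  refine ⟨U, ?_, fun x => ?_⟩
  · ext e e'
    have h1 := L.extend.inner_map_map (toLp 2 (Pi.single e 1)) (toLp 2 (Pi.single e' 1))
    rw [← hU, ← hU] at h1
    simp only [PiLp.inner_apply, RCLike.inner_apply, conj_trivial, Matrix.mulVec_single_one,
      Matrix.col_apply] at h1
    rw [Matrix.mul_apply, Matrix.one_apply]
    simp only [Matrix.transpose_apply]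
    rw [Finset.sum_congr rfl fun j _ => mul_comm (U j e) (U j e'), h1]
    by_cases he : e = e'
    · subst he; simp [Pi.single_apply]
    · simp [Pi.single_apply, he]
  · have h1 := hL (Pi.single x 1)
    simp only [A, B, Fintype.linearCombination_apply_single, one_smul] at h1
    rw [← hU] at h1
    exact toLp_injective 2 h1

lemma orth_sq_sum {E : Type} [Fintype E] [DecidableEq E] {U : Matrix E E ℝ} (hU : Uᵀ * U = 1)
    (v : E → ℝ) : ∑ e, (U *ᵥ v) e ^ 2 = ∑ e, v e ^ 2 := by
  have : (U *ᵥ v) ⬝ᵥ (U *ᵥ v) = v ⬝ᵥ v := by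
    rw [Matrix.dotProduct_mulVec, Matrix.vecMul_mulVec, hU, Matrix.vecMul_one]
  simpa [dotProduct, sq] using this

/-- Real version of the oracle. -/
def oracleR {n w : ℕ} (x : Fin n → Bool) (ψ : QIdx n w → ℝ) : QIdx n w → ℝ :=
  fun e => ψ (e.1, xor e.2.1 (x e.1), e.2.2)

/-- Real version of the run. -/
def stateR {n w : ℕ} (U : ℕ → Matrix (QIdx n w) (QIdx n w) ℝ) (x : Fin n → Bool)
    (ψ₀ : QIdx n w → ℝ) : ℕ → QIdx n w → ℝ
  | 0 => (U 0).mulVec ψ₀
  | t + 1 => (U (t + 1)).mulVec (oracleR x (stateR U x ψ₀ t))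

lemma stateAfter_ofReal {n w : ℕ} (U : ℕ → Matrix (QIdx n w) (QIdx n w) ℝ) (x : Fin n → Bool)
    (ψ₀ : QIdx n w → ℝ) (t : ℕ) :
    stateAfter (fun t => (U t).map Complex.ofReal) x (fun e => (ψ₀ e : ℂ)) t =
      fun e => (stateR U x ψ₀ t e : ℂ) := by
  induction t with
  | zero =>
    ext e
    simp [stateAfter, stateR, Matrix.mulVec, dotProduct]
  | succ t ih =>
    ext e
    simp [stateAfter, stateR, ih, Matrix.mulVec, dotProduct, oracle, oracleR]

lemma quantumComputes_of_real {n w : ℕ} (f : (Fin n → Bool) → Bool) (q : ℕ)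
    (U : ℕ → Matrix (QIdx n w) (QIdx n w) ℝ) (ψ₀ : QIdx n w → ℝ) (out : QIdx n w → Bool)
    (hU : ∀ t, (U t)ᵀ * U t = 1) (h0 : ∑ e, ψ₀ e ^ 2 = 1)
    (h : ∀ x, 2 / 3 ≤ ∑ e, if out e = f x then stateR U x ψ₀ q e ^ 2 else 0) :
    QuantumComputes f q := by
  refine ⟨w, fun t => (U t).map Complex.ofReal, fun e => (ψ₀ e : ℂ), out, fun t => ?_, ?_,
    fun x => ?_⟩
  · rw [Matrix.mem_unitaryGroup_iff']
    ext i j
    have := congrFun (congrFun (hU t) i) j
    simp only [Matrix.mul_apply, Matrix.transpose_apply, Matrix.one_apply] at this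
    simp only [Matrix.mul_apply, Matrix.star_apply, Matrix.map_apply, Matrix.one_apply,
      Complex.star_def, Complex.conj_ofReal]
    rw [show (if i = j then (1 : ℂ) else 0) = ((if i = j then (1 : ℝ) else 0 : ℝ) : ℂ) by
      split_ifs <;> simp, ← this]
    push_cast
    rfl
  · simpa using h0
  · rw [stateAfter_ofReal]
    simpa using h x

lemma oracleR_sq_sum {n w : ℕ} (x : Fin n → Bool) (ψ : QIdx n w → ℝ) :
    ∑ e, oracleR x ψ e ^ 2 = ∑ e, ψ e ^ 2 := by
  simp only [Fintype.sum_prod_type, oracleR, Fintype.sum_bool]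
  refine Finset.sum_congr rfl fun i _ => ?_
  cases x i <;> simp [add_comm]

lemma cost_symm_form {ι : Type} [Fintype ι] {M : (ι → Bool) → (ι → Bool) → ℝ} {W : ℝ}
    (h : Cost M (fun _ => W) (fun _ => W)) (hM : ∀ x y, M x y = M y x) :
    ∃ (κ : Type) (_ : Fintype κ) (z : (ι → Bool) → ι → κ → ℝ),
      (∀ x y, M x y = 4 * ∑ i, neq (x i) (y i) * ∑ k, z x i k * z y i k) ∧
      ∀ x, ∑ i, ∑ k, z x i k ^ 2 ≤ W / 4 := by
  obtain ⟨κ, _, u, v, h1, hu, hv⟩ := h
  refine ⟨κ ⊕ κ, inferInstance, fun x i => Sum.elim (fun k => (u x i k + v x i k) / 4)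
    (fun k => (sg (x i) : ℝ) * (u x i k - v x i k) / 4), fun x y => ?_, fun x => ?_⟩
  · have : M x y = (M x y + M y x) / 2 := by rw [← hM x y]; ring
    rw [this, h1 x y, h1 y x, ← Finset.sum_add_distrib, Finset.sum_div, Finset.mul_sum]
    refine Finset.sum_congr rfl fun i _ => ?_
    simp only [Fintype.sum_sum_type, Sum.elim_inl, Sum.elim_inr, ← Finset.sum_add_distrib]
    rw [neq_comm (y i), ← mul_add, ← Finset.sum_add_distrib, mul_div_assoc, mul_left_comm,
      Finset.sum_div, Finset.mul_sum (s := Finset.univ) (a := (4 : ℝ))]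
    cases hx : x i <;> cases hy : y i
    · simp [neq]
    · congr 1
      exact Finset.sum_congr rfl fun k _ => by simp [sg]; ring
    · congr 1
      exact Finset.sum_congr rfl fun k _ => by simp [sg]; ring
    · simp [neq]
  · have : ∀ i k, ((u x i k + v x i k) / 4) ^ 2 + ((sg (x i) : ℝ) * (u x i k - v x i k) / 4) ^ 2
        = (u x i k ^ 2 + v x i k ^ 2) / 8 := by
      intro i k
      rw [div_pow, div_pow, mul_pow, sg_sq]; ring
    simp only [Fintype.sum_sum_type, Sum.elim_inl, Sum.elim_inr, ← Finset.sum_add_distrib, this,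
      ← Finset.sum_div]
    simp only [Finset.sum_add_distrib]
    linarith [hu x, hv x]

theorem quantumComputes_of_acc {n : ℕ} (hn : 0 < n) (F : (Fin n → Bool) → Bool)
    (q : (Fin n → Bool) → ℝ) (W : ℝ) (h : Acc q W)
    (h1 : ∀ x, F x = true → 9 / 10 ≤ q x) (h0 : ∀ x, F x = false → q x ≤ 1 / 10)
    (K : ℕ) (hK0 : 0 < K) (hK : 160 * W ≤ K) : QuantumComputes F K := by
  classical
  obtain ⟨Ω, _, τ, out, hτ, hc, hq⟩ := h
  obtain ⟨κ, _, z, hz, hzn⟩ := cost_symm_form hc fun x y => by
    simp only [mul_comm]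
  have hKr : (0 : ℝ) < K := by exact_mod_cast hK0
  let Z := Option Ω ⊕ κ
  let w := Fintype.card Z
  let e : Fin w ≃ Z := (Fintype.equivFin Z).symm
  let i₀ : Fin n := ⟨0, hn⟩
  -- generic vectors
  let vec : (Option Ω → ℝ) → (Fin n → κ → ℝ) → QIdx n w → ℝ := fun p v r =>
    Sum.elim (fun o => if r.1 = i₀ then p o / Real.sqrt 2 else 0)
      (fun k => (sg r.2.1 : ℝ) * v r.1 k) (e r.2.2)
  have hinner : ∀ p v p' v', ∑ r, vec p v r * vec p' v' r =
      ∑ o, p o * p' o + 2 * ∑ i, ∑ k, v i k * v' i k := by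
    intro p v p' v'
    have h2 : Real.sqrt 2 * Real.sqrt 2 = 2 := Real.mul_self_sqrt (by norm_num)
    simp only [Fintype.sum_prod_type, Fintype.sum_bool, vec]
    have : ∀ (i : Fin n) (b : Bool), ∑ t : Fin w,
        Sum.elim (fun o => if i = i₀ then p o / Real.sqrt 2 else 0)
          (fun k => (sg b : ℝ) * v i k) (e t) *
        Sum.elim (fun o => if i = i₀ then p' o / Real.sqrt 2 else 0)
          (fun k => (sg b : ℝ) * v' i k) (e t) =
        (if i = i₀ then (∑ o, p o * p' o) / 2 else 0) + ∑ k, v i k * v' i k := by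
      intro i b
      rw [e.sum_comp (fun t => Sum.elim (fun o => if i = i₀ then p o / Real.sqrt 2 else 0)
          (fun k => (sg b : ℝ) * v i k) t *
        Sum.elim (fun o => if i = i₀ then p' o / Real.sqrt 2 else 0)
          (fun k => (sg b : ℝ) * v' i k) t), Fintype.sum_sum_type]
      simp only [Sum.elim_inl, Sum.elim_inr]
      congr 1
      · split_ifs
        · rw [Finset.sum_div]
          refine Finset.sum_congr rfl fun o _ => ?_
          rw [div_mul_div_comm, h2]
        · simp
      · refine Finset.sum_congr rfl fun k _ => ?_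
        have := sg_sq b
        calc _ = (sg b : ℝ) ^ 2 * (v i k * v' i k) := by ring
          _ = _ := by rw [this, one_mul]
    simp only [this, Finset.sum_add_distrib, Finset.sum_ite_eq', Finset.mem_univ, if_true]
    ring
  have horacle : ∀ x p v, oracleR x (vec p v) = vec p fun i k => (sg (x i) : ℝ) * v i k := by
    intro x p v
    ext ⟨i, b, t⟩
    simp only [oracleR, vec]
    rcases e t with o | k
    · rfl
    · cases b <;> cases x i <;> simp [sg]
  have hvec_sub : ∀ p v p' v', vec p v - vec p' v' = vec (p - p') (v - v') := by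
    intro p v p' v'
    ext ⟨i, b, t⟩
    simp only [vec, Pi.sub_apply]
    rcases e t with o | k
    · simp only [Sum.elim_inl]; split_ifs <;> ring
    · simp only [Sum.elim_inr]; ring
  -- ideal states
  let pub : ℕ → (Fin n → Bool) → Option Ω → ℝ := fun t x o =>
    o.elim (Real.sqrt (((K : ℝ) - t) / K)) fun ω => Real.sqrt ((t : ℝ) / K) * τ x ω
  let cat : (Fin n → Bool) → Fin n → κ → ℝ := fun x i k => z x i k / Real.sqrt K
  let Ψ : ℕ → (Fin n → Bool) → QIdx n w → ℝ := fun t x => vec (pub t x) (cat x)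
  have hpub : ∀ t : ℕ, t ≤ K → ∀ x y, ∑ o, pub t x o * pub t y o =
      ((K : ℝ) - t) / K + t / K * ∑ ω, τ x ω * τ y ω := by
    intro t ht x y
    have ht' : (0 : ℝ) ≤ (K : ℝ) - t := by
      have : (t : ℝ) ≤ K := by exact_mod_cast ht
      linarith
    rw [Fintype.sum_option]
    simp only [pub, Option.elim]
    rw [Real.mul_self_sqrt (by positivity), Finset.mul_sum]
    congr 1
    refine Finset.sum_congr rfl fun ω _ => ?_
    have : Real.sqrt ((t : ℝ) / K) * Real.sqrt ((t : ℝ) / K) = t / K :=
      Real.mul_self_sqrt (by positivity)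
    calc _ = (Real.sqrt ((t : ℝ) / K) * Real.sqrt ((t : ℝ) / K)) * (τ x ω * τ y ω) := by ring
      _ = _ := by rw [this]
  have hsK : Real.sqrt K * Real.sqrt K = K := Real.mul_self_sqrt hKr.le
  have hstep : ∀ t : ℕ, ∃ U : Matrix (QIdx n w) (QIdx n w) ℝ, Uᵀ * U = 1 ∧
      (t < K → ∀ x, U *ᵥ oracleR x (Ψ t x) = Ψ (t + 1) x) := by
    intro t
    by_cases ht : t < K
    · obtain ⟨U, hU1, hU2⟩ := exists_orth_of_gram (fun x => oracleR x (Ψ t x)) (Ψ (t + 1))
        fun x y => by
          simp only [Ψ, horacle, hinner]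
          rw [hpub t ht.le, hpub (t + 1) ht]
          have h3 := hz x y
          have h4 : ∑ i, ∑ k, cat x i k * cat y i k -
              ∑ i, ∑ k, (sg (x i) : ℝ) * cat x i k * ((sg (y i) : ℝ) * cat y i k) =
              2 / K * ∑ i, neq (x i) (y i) * ∑ k, z x i k * z y i k := by
            rw [← Finset.sum_sub_distrib, Finset.mul_sum]
            refine Finset.sum_congr rfl fun i _ => ?_
            rw [← Finset.sum_sub_distrib, Finset.mul_sum, Finset.mul_sum]
            refine Finset.sum_congr rfl fun k _ => ?_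
            have h5 : cat x i k * cat y i k = z x i k * z y i k / K := by
              simp only [cat]; rw [div_mul_div_comm, hsK]
            have h6 : (sg (x i) : ℝ) * cat x i k * ((sg (y i) : ℝ) * cat y i k) =
              (sg (x i) : ℝ) * (sg (y i) : ℝ) * (cat x i k * cat y i k) := by ring
            rw [h6, h5]
            cases x i <;> cases y i <;> simp [sg, neq] <;> ring
          push_cast
          have h7 : ∑ i, neq (x i) (y i) * ∑ k, z x i k * z y i k =
            (1 - ∑ ω, τ x ω * τ y ω) / 4 := by linarith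
          rw [h7] at h4
          have h8 := sub_eq_iff_eq_add.1 h4
          rw [h8]
          field_simp
          ring
      exact ⟨U, hU1, fun _ => hU2⟩
    · exact ⟨1, by simp, fun h => absurd h ht⟩
  choose U' hU'1 hU'2 using hstep
  let U : ℕ → Matrix (QIdx n w) (QIdx n w) ℝ := fun t => Nat.casesOn t 1 U'
  let ψ₀ : QIdx n w → ℝ := vec (fun o => o.elim 1 fun _ => 0) 0
  have hcat : ∀ x, ∑ r, vec 0 (cat x) r ^ 2 ≤ W / (2 * K) := by
    intro x
    simp only [sq, hinner]
    have : ∑ i, ∑ k, cat x i k * cat x i k = (∑ i, ∑ k, z x i k ^ 2) / K := by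
      simp only [Finset.sum_div]
      refine Finset.sum_congr rfl fun i _ => Finset.sum_congr rfl fun k _ => ?_
      simp only [cat]; rw [div_mul_div_comm, hsK, sq]
    rw [this]
    have h3 := hzn x
    have h4 : (∑ i, ∑ k, z x i k ^ 2) / K ≤ W / 4 / K := div_le_div_of_nonneg_right h3 hKr.le
    have h5 : W / (2 * K) = 2 * (W / 4 / K) := by field_simp; ring
    simp only [Pi.zero_apply, mul_zero, Finset.sum_const_zero, zero_add]
    linarith
  have herr : ∀ x (t : ℕ), t ≤ K → ∑ r, (Ψ t x - stateR U x ψ₀ t) r ^ 2 ≤ W / (2 * K) := by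
    intro x t
    induction t with
    | zero =>
      intro _
      have : Ψ 0 x - stateR U x ψ₀ 0 = vec 0 (cat x) := by
        simp only [stateR, U, Nat.rec_zero, Matrix.one_mulVec, Ψ, ψ₀, hvec_sub, sub_zero]
        congr 1
        ext o
        cases o <;> simp [pub, hKr.ne']
      rw [this]
      exact hcat x
    | succ t ih =>
      intro ht
      have : Ψ (t + 1) x - stateR U x ψ₀ (t + 1) = U' t *ᵥ oracleR x (Ψ t x - stateR U x ψ₀ t) := by
        rw [← hU'2 t ht x]
        simp only [stateR, U]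
        rw [← Matrix.mulVec_sub]
        rfl
      rw [this, orth_sq_sum (hU'1 t), oracleR_sq_sum]
      exact ih (by omega)
  let out' : QIdx n w → Bool := fun r => Sum.elim (fun o => o.elim false out) (fun _ => false) (e r.2.2)
  refine quantumComputes_of_real F K U ψ₀ out' (fun t => ?_) ?_ fun x => ?_
  · cases t with
    | zero => simp [U]
    | succ t => exact hU'1 t
  · simp only [sq, ψ₀, hinner, Fintype.sum_option]
    simp
  · -- final analysis
    let T : QIdx n w → ℝ := vec (pub K x) 0
    have hT : Ψ K x - T = vec 0 (cat x) := by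
      simp only [Ψ, T, hvec_sub, sub_self, sub_zero]
    have hgood : 9 / 10 ≤ ∑ r, if out' r = F x then T r ^ 2 else 0 := by
      let p : Option Ω → ℝ := fun o => o.elim 0 fun ω => if out ω = F x then τ x ω else 0
      have h3 : ∀ r, (if out' r = F x then T r ^ 2 else 0) = vec p 0 r * vec p 0 r := by
        rintro ⟨i, b, t⟩
        simp only [out', T, vec]
        rcases e t with (_ | ω) | k
        · simp [pub, p]
        · simp only [Sum.elim_inl, Option.elim, pub, p, div_self hKr.ne', Real.sqrt_one, one_mul]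
          split_ifs <;> simp [sq]
        · simp
      simp only [h3, hinner, Fintype.sum_option, p, Option.elim]
      simp only [mul_zero, zero_add, Pi.zero_apply, Finset.sum_const_zero, add_zero]
      cases hF : F x
      · have h4 := h0 x hF
        rw [hq] at h4
        have h5 : ∑ ω, (if out ω = false then τ x ω else 0) * (if out ω = false then τ x ω else 0)
            = ∑ ω, τ x ω ^ 2 - ∑ ω, if out ω then τ x ω ^ 2 else 0 := by
          rw [← Finset.sum_sub_distrib]
          refine Finset.sum_congr rfl fun ω _ => ?_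
          cases out ω <;> simp [sq]
        rw [h5, hτ]
        linarith
      · have h4 := h1 x hF
        rw [hq] at h4
        refine h4.trans (le_of_eq (Finset.sum_congr rfl fun ω _ => ?_))
        cases out ω <;> simp [sq]
    have h3 := herr x K le_rfl
    have h4 := hcat x
    rw [← hT] at h4
    have h5 : ∀ r, 4 / 5 * (if out' r = F x then T r ^ 2 else 0) -
        8 * ((Ψ K x - stateR U x ψ₀ K) r ^ 2 + (Ψ K x - T) r ^ 2) ≤
        if out' r = F x then stateR U x ψ₀ K r ^ 2 else 0 := by
      intro r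
      simp only [Pi.sub_apply]
      split_ifs
      · nlinarith [sq_nonneg (T r - 5 * (T r - stateR U x ψ₀ K r)),
          sq_nonneg ((Ψ K x r - stateR U x ψ₀ K r) + (Ψ K x r - T r))]
      · nlinarith [sq_nonneg (Ψ K x r - stateR U x ψ₀ K r), sq_nonneg (Ψ K x r - T r)]
    have h6 := Finset.sum_le_sum fun r (_ : r ∈ Finset.univ) => h5 r
    rw [Finset.sum_sub_distrib, ← Finset.mul_sum, ← Finset.mul_sum, Finset.sum_add_distrib] at h6
    have h7 : W / (2 * K) ≤ 1 / 320 := by
      rw [div_le_div_iff₀ (by positivity) (by norm_num)]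
      linarith
    linarith

end Crest.Agent.R350
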