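import Crest.Agent.R350.State

/-!
Functions computed by shallow decision trees and a bound on their high-order derivatives.
-/

set_option autoImplicit false

open Finset

namespace Crest.Agent.R350

/-- Real functions, bounded by one, computed by a decision tree of depth at most `L`. -/
inductive DT {ι : Type} : ℕ → ((ι → Bool) → ℝ) → Prop
  | const (L : ℕ) (c : ℝ) (hc : |c| ≤ 1) : DT L (fun _ => c)
  | node (L : ℕ) (q : ι) (f0 f1 : (ι → Bool) → ℝ) (h0 : DT L f0) (h1 : DT L f1) :
      DT (L + 1) (fun x => if x q then f1 x else f0 x)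

namespace DT

variable {ι ι' : Type} {L : ℕ} {f : (ι → Bool) → ℝ}

lemma abs_le (h : DT L f) (x : ι → Bool) : |f x| ≤ 1 := by
  induction h with
  | const L c hc => exact hc
  | node L q f0 f1 h0 h1 ih0 ih1 =>
    beta_reduce
    split_ifs
    · exact ih1
    · exact ih0

lemma succ (h : DT L f) : DT (L + 1) f := by
  induction h with
  | const L c hc => exact const _ c hc
  | node L q f0 f1 h0 h1 ih0 ih1 => exact node _ q f0 f1 ih0 ih1

lemma comp (h : DT L f) (g : (ι' → Bool) → ι → Bool)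
    (hg : ∀ i, (∃ b, ∀ y, g y i = b) ∨ ∃ i', ∀ y, g y i = y i') : DT L fun y => f (g y) := by
  induction h with
  | const L c hc => exact const _ c hc
  | node L q f0 f1 h0 h1 ih0 ih1 =>
    rcases hg q with ⟨b, hb⟩ | ⟨i', hi⟩
    · cases b
      · simpa [hb] using ih0.succ
      · simpa [hb] using ih1.succ
    · simpa [hi] using node _ i' _ _ ih0 ih1

lemma update [DecidableEq ι] (h : DT L f) (q : ι) (v : Bool) :
    DT L fun x => f (Function.update x q v) := by
  refine h.comp _ fun i => ?_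
  by_cases hi : i = q
  · exact Or.inl ⟨v, fun y => by simp [hi]⟩
  · exact Or.inr ⟨i, fun y => by simp [hi]⟩

end DT

lemma sum_update {ι β : Type} [Fintype ι] [DecidableEq ι] [Fintype β] (q : ι) (ρ : β → ℝ)
    (hρ : ∑ b, ρ b = 1) (G : (ι → β) → ℝ) :
    ∑ x, G x = ∑ v, ∑ x : ι → β, ρ (x q) * G (Function.update x q v) := by
  let e : β × (ι → β) ≃ β × (ι → β) :=
    { toFun := fun p => (p.2 q, Function.update p.2 q p.1)
      invFun := fun p => (p.2 q, Function.update p.2 q p.1)
      left_inv := fun p => by simp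
      right_inv := fun p => by simp }
  have h := e.sum_comp fun p => ρ p.1 * G p.2
  rw [Fintype.sum_prod_type, Fintype.sum_prod_type] at h
  simp only [← Finset.mul_sum, ← Finset.sum_mul, hρ, one_mul] at h
  exact h.symm

section FG

variable {ι : Type} [Fintype ι] [DecidableEq ι]

/-- The derivative of the multilinear extension of `f` along the set `T`, at the point `z`. -/
noncomputable def Dz (z : ι → ℝ) (T : Finset ι) (f : (ι → Bool) → ℝ) : ℝ :=
  ∑ x : ι → Bool, f x * ∏ i, (if i ∈ T then (sg (x i) : ℝ) / 2 else (1 + sg (x i) * z i) / 2)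

lemma Dz_const (z : ι → ℝ) (T : Finset ι) (c : ℝ) :
    Dz z T (fun _ => c) = if T = ∅ then c else 0 := by
  rw [Dz, ← Finset.mul_sum, ← Fintype.piFinset_univ, ← Finset.prod_univ_sum (fun _ => Finset.univ)
    (fun i b => if i ∈ T then (sg b : ℝ) / 2 else (1 + sg b * z i) / 2)]
  split_ifs with h
  · subst h
    have : ∀ i, ∑ b : Bool, (1 + (sg b : ℝ) * z i) / 2 = 1 := fun i => by simp [sg]; ring
    simp only [Finset.notMem_empty, if_false, this, Finset.prod_const_one, mul_one]
  · obtain ⟨i, hi⟩ := Finset.nonempty_iff_ne_empty.2 h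
    rw [Finset.prod_eq_zero (Finset.mem_univ i), mul_zero]
    simp [hi, sg]; ring

lemma Dz_split (z : ι → ℝ) (T : Finset ι) (q : ι) (hq : q ∉ T) (f : (ι → Bool) → ℝ) :
    Dz z T f = ∑ v, (1 + (sg v : ℝ) * z q) / 2 * Dz z T (fun x => f (Function.update x q v)) ∧
    Dz z (insert q T) f = ∑ v, (sg v : ℝ) / 2 * Dz z T (fun x => f (Function.update x q v)) := by
  have hρ : ∑ b : Bool, (1 + (sg b : ℝ) * z q) / 2 = 1 := by simp [sg]; ring
  constructor
  · rw [Dz, sum_update q _ hρ]
    refine Finset.sum_congr rfl fun v _ => ?_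
    rw [Dz, Finset.mul_sum]
    refine Finset.sum_congr rfl fun x _ => ?_
    rw [← Finset.mul_prod_erase _ _ (Finset.mem_univ q),
      ← Finset.mul_prod_erase _ _ (Finset.mem_univ q)]
    have : ∏ i ∈ Finset.univ.erase q, (if i ∈ T then (sg (Function.update x q v i) : ℝ) / 2
        else (1 + sg (Function.update x q v i) * z i) / 2) =
        ∏ i ∈ Finset.univ.erase q, (if i ∈ T then (sg (x i) : ℝ) / 2
        else (1 + sg (x i) * z i) / 2) :=
      Finset.prod_congr rfl fun i hi => by rw [Function.update_of_ne (Finset.ne_of_mem_erase hi)]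
    rw [this]
    simp only [hq, if_false, Function.update_self]
    ring
  · rw [Dz, sum_update q _ hρ]
    refine Finset.sum_congr rfl fun v _ => ?_
    rw [Dz, Finset.mul_sum]
    refine Finset.sum_congr rfl fun x _ => ?_
    rw [← Finset.mul_prod_erase _ _ (Finset.mem_univ q),
      ← Finset.mul_prod_erase _ _ (Finset.mem_univ q)]
    have : ∏ i ∈ Finset.univ.erase q, (if i ∈ insert q T then (sg (Function.update x q v i) : ℝ) / 2
        else (1 + sg (Function.update x q v i) * z i) / 2) =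
        ∏ i ∈ Finset.univ.erase q, (if i ∈ T then (sg (x i) : ℝ) / 2
        else (1 + sg (x i) * z i) / 2) :=
      Finset.prod_congr rfl fun i hi => by
        rw [Function.update_of_ne (Finset.ne_of_mem_erase hi)]
        simp [Finset.ne_of_mem_erase hi]
    rw [this]
    simp only [hq, if_false, Function.update_self, Finset.mem_insert_self, if_true]
    ring

lemma sum_finset_split (q : ι) (g : Finset ι → ℝ) :
    ∑ T, g T = ∑ T, if q ∈ T then 0 else g T + g (insert q T) := by
  have h1 : (Finset.univ : Finset (Finset ι)) = (insert q (Finset.univ.erase q)).powerset := by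
    rw [Finset.insert_erase (Finset.mem_univ q), Finset.powerset_univ]
  have h2 : ∑ T, (if q ∈ T then 0 else g T + g (insert q T)) =
      ∑ T ∈ (Finset.univ.erase q).powerset, (g T + g (insert q T)) := by
    rw [← Finset.sum_filter_add_sum_filter_not Finset.univ (fun T => q ∈ T)]
    rw [Finset.sum_congr rfl (g := fun _ => 0) fun T hT => if_pos (Finset.mem_filter.1 hT).2]
    rw [Finset.sum_const_zero, zero_add]
    refine Finset.sum_congr ?_ fun T hT => if_neg ?_
    · ext T
      simp [Finset.subset_erase]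
    · simpa [Finset.subset_erase] using hT
  rw [h2, h1, Finset.sum_powerset_insert (Finset.notMem_erase q _), Finset.sum_add_distrib]

lemma fg_aux (r : ℕ) (hr : 0 < r) (γ lam : ℝ) (hγ : 0 ≤ γ) (hlam : 0 ≤ lam) (z : ι → ℝ)
    (hz : ∀ i, |z i| ≤ 1 / 2)
    (h2 : ∀ a b t : ℝ, |t| ≤ 1 / 2 → ∑ v : Bool, (1 + (sg v : ℝ) * t) / 2 *
      (a + (sg v : ℝ) / (1 + sg v * t) * b) ^ (2 * r) ≤ (1 + γ) * (a ^ (2 * r) + lam * b ^ (2 * r)))
    (L : ℕ) (f : (ι → Bool) → ℝ) (hf : DT L f) (c : Finset ι → ℝ) :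
    (∑ T, c T * Dz z T f) ^ (2 * r) ≤ (1 + γ) ^ L * ∑ T, lam ^ T.card * c T ^ (2 * r) := by
  have hev : ∀ a : ℝ, 0 ≤ a ^ (2 * r) := fun a => by rw [pow_mul]; positivity
  have hconst : ∀ (L : ℕ) (a : ℝ), |a| ≤ 1 → ∀ c : Finset ι → ℝ,
      (∑ T, c T * Dz z T (fun _ => a)) ^ (2 * r) ≤
        (1 + γ) ^ L * ∑ T, lam ^ T.card * c T ^ (2 * r) := by
    intro L a ha c
    simp only [Dz_const, mul_ite, mul_zero, Finset.sum_ite_eq', Finset.mem_univ, if_true]
    have h1 := Finset.single_le_sum (f := fun T : Finset ι => lam ^ T.card * c T ^ (2 * r))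
      (fun T _ => mul_nonneg (by positivity) (hev _)) (Finset.mem_univ ∅)
    simp only [Finset.card_empty, pow_zero, one_mul] at h1
    have h3 : a ^ (2 * r) ≤ 1 := by
      rw [pow_mul]; exact pow_le_one₀ (sq_nonneg _) ((sq_le_one_iff_abs_le_one _).2 ha)
    have h4 : 1 ≤ (1 + γ) ^ L := one_le_pow₀ (by linarith)
    rw [mul_pow]
    calc c ∅ ^ (2 * r) * a ^ (2 * r) ≤ c ∅ ^ (2 * r) := mul_le_of_le_one_right (hev _) h3
      _ ≤ _ := h1
      _ ≤ _ := le_mul_of_one_le_left ((hev _).trans h1) h4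
  induction L generalizing f c with
  | zero =>
    cases hf with
    | const _ a ha => exact hconst 0 a ha c
  | succ L ih =>
    cases hf with
    | const _ a ha => exact hconst _ a ha c
    | node _ q f0 f1 h0 h1 =>
      set f : (ι → Bool) → ℝ := fun x => if x q then f1 x else f0 x with hf
      have hfv : ∀ v, DT L fun x => f (Function.update x q v) := by
        intro v
        cases v
        · simpa [hf] using h0.update q false
        · simpa [hf] using h1.update q true
      have hπ : ∀ v : Bool, 0 < 1 + (sg v : ℝ) * z q := by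
        intro v
        have := abs_le.1 (hz q)
        cases v <;> simp [sg] <;> linarith
      let c' : Bool → Finset ι → ℝ := fun v T =>
        if q ∈ T then 0 else c T + (sg v : ℝ) / (1 + sg v * z q) * c (insert q T)
      have h3 : ∑ T, c T * Dz z T f = ∑ v, (1 + (sg v : ℝ) * z q) / 2 *
          ∑ T, c' v T * Dz z T (fun x => f (Function.update x q v)) := by
        rw [sum_finset_split q]
        simp only [Finset.mul_sum]
        rw [Finset.sum_comm]
        refine Finset.sum_congr rfl fun T _ => ?_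
        by_cases hT : q ∈ T
        · simp [c', hT]
        · obtain ⟨h4, h5⟩ := Dz_split z T q hT f
          rw [if_neg hT, h4, h5, Finset.mul_sum, Finset.mul_sum, ← Finset.sum_add_distrib]
          refine Finset.sum_congr rfl fun v _ => ?_
          simp only [c', if_neg hT]
          have := hπ v
          field_simp
      have hρ : ∑ b : Bool, (1 + (sg b : ℝ) * z q) / 2 = 1 := by simp [sg]; ring
      have h4 := Real.pow_arith_mean_le_arith_mean_pow_of_even Finset.univ
        (fun v : Bool => (1 + (sg v : ℝ) * z q) / 2)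
        (fun v => ∑ T, c' v T * Dz z T (fun x => f (Function.update x q v)))
        (fun v _ => by have := hπ v; positivity) hρ (n := 2 * r) (even_two_mul r)
      rw [h3]
      refine h4.trans ?_
      have h5 : ∑ v : Bool, (1 + (sg v : ℝ) * z q) / 2 *
          (∑ T, c' v T * Dz z T (fun x => f (Function.update x q v))) ^ (2 * r) ≤
          ∑ v : Bool, (1 + (sg v : ℝ) * z q) / 2 *
            ((1 + γ) ^ L * ∑ T, lam ^ T.card * c' v T ^ (2 * r)) :=
        Finset.sum_le_sum fun v _ => mul_le_mul_of_nonneg_left (ih _ (hfv v) _)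
          (by have := hπ v; positivity)
      refine h5.trans ?_
      rw [pow_succ, mul_assoc, sum_finset_split q (fun T => lam ^ T.card * c T ^ (2 * r))]
      simp only [Finset.mul_sum]
      rw [Finset.sum_comm]
      refine Finset.sum_le_sum fun T _ => ?_
      by_cases hT : q ∈ T
      · simp [c', hT, hr.ne']
      · have h6 := h2 (c T) (c (insert q T)) (z q) (hz q)
        simp only [c', if_neg hT, Finset.card_insert_of_notMem hT]
        have h7 := mul_le_mul_of_nonneg_left h6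
          (show 0 ≤ (1 + γ) ^ L * lam ^ T.card by positivity)
        rw [Finset.mul_sum] at h7
        convert h7 using 1
        · exact Finset.sum_congr rfl fun v _ => by ring
        · ring

lemma taylor_pow (m : ℕ) (a u : ℝ) : (a + u) ^ (m + 2) ≤
    a ^ (m + 2) + (m + 2) * a ^ (m + 1) * u + 2 ^ (m + 2) * (|a| ^ m * u ^ 2 + |u| ^ (m + 2)) := by
  rw [add_comm a u, add_pow, Finset.sum_range_succ', Finset.sum_range_succ']
  have h1 : ∑ j ∈ Finset.range (m + 1), u ^ (j + 1 + 1) * a ^ (m + 2 - (j + 1 + 1)) *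
      ((m + 2).choose (j + 1 + 1) : ℝ) ≤ 2 ^ (m + 2) * (|a| ^ m * u ^ 2 + |u| ^ (m + 2)) := by
    have h2 : ∀ j ∈ Finset.range (m + 1), u ^ (j + 1 + 1) * a ^ (m + 2 - (j + 1 + 1)) *
        ((m + 2).choose (j + 1 + 1) : ℝ) ≤
        ((m + 2).choose (j + 1 + 1) : ℝ) * (|a| ^ m * u ^ 2 + |u| ^ (m + 2)) := by
      intro j hj
      have hj' : j ≤ m := by simpa [Nat.lt_succ_iff] using hj
      rw [mul_comm]
      refine mul_le_mul_of_nonneg_left ((le_abs_self _).trans ?_) (by positivity)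
      rw [abs_mul, abs_pow, abs_pow, show m + 2 - (j + 1 + 1) = m - j by omega]
      have h3 : |u| ^ j * |a| ^ (m - j) ≤ |a| ^ m + |u| ^ m := by
        rcases le_total |u| |a| with h | h
        · calc |u| ^ j * |a| ^ (m - j) ≤ |a| ^ j * |a| ^ (m - j) := by gcongr
            _ = |a| ^ m := by rw [← pow_add]; congr 1; omega
            _ ≤ _ := le_add_of_nonneg_right (by positivity)
        · calc |u| ^ j * |a| ^ (m - j) ≤ |u| ^ j * |u| ^ (m - j) := by gcongr
            _ = |u| ^ m := by rw [← pow_add]; congr 1; omega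
            _ ≤ _ := le_add_of_nonneg_left (by positivity)
      calc |u| ^ (j + 1 + 1) * |a| ^ (m - j) = (|u| ^ j * |a| ^ (m - j)) * |u| ^ 2 := by ring
        _ ≤ (|a| ^ m + |u| ^ m) * |u| ^ 2 := by gcongr
        _ = _ := by rw [← sq_abs u]; ring
    refine (Finset.sum_le_sum h2).trans ?_
    rw [← Finset.sum_mul]
    refine mul_le_mul_of_nonneg_right ?_ (by positivity)
    have h4 := Nat.sum_range_choose (m + 2)
    rw [Finset.sum_range_succ', Finset.sum_range_succ'] at h4
    have h5 : ∑ j ∈ Finset.range (m + 1), (m + 2).choose (j + 1 + 1) ≤ 2 ^ (m + 2) := by omega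
    exact_mod_cast h5
  refine (add_le_add (add_le_add h1 le_rfl) le_rfl).trans (le_of_eq ?_)
  simp only [zero_add, pow_one, Nat.choose_one_right, pow_zero, Nat.sub_zero, Nat.choose_zero_right,
    one_mul, Nat.cast_one, mul_one, show m + 2 - 1 = m + 1 by omega]
  push_cast
  ring

lemma two_point (r : ℕ) (hr : 0 < r) : ∃ C : ℝ, 0 < C ∧ ∀ L : ℝ, 1 ≤ L → ∀ a b t : ℝ,
    |t| ≤ 1 / 2 → ∑ v : Bool, (1 + (sg v : ℝ) * t) / 2 *
      (a + (sg v : ℝ) / (1 + sg v * t) * b) ^ (2 * r) ≤
      (1 + 1 / L) * (a ^ (2 * r) + C * L ^ r * b ^ (2 * r)) := by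
  obtain ⟨s, rfl⟩ : ∃ s, r = s + 1 := ⟨r - 1, by omega⟩
  set D : ℝ := 2 ^ (2 * s + 2) with hD
  have hD1 : 1 ≤ D := one_le_pow₀ (by norm_num)
  refine ⟨4 * D * (4 * D) ^ s + D * D, by positivity, fun L hL a b t ht => ?_⟩
  have ht' := abs_le.1 ht
  have h1 : ∀ v : Bool, 0 < 1 + (sg v : ℝ) * t := by
    intro v; cases v <;> simp [sg] <;> linarith
  have h2 : ∀ v : Bool, |(sg v : ℝ) / (1 + sg v * t)| ≤ 2 := by
    intro v
    rw [abs_div, abs_sg_real, abs_of_pos (h1 v), div_le_iff₀ (h1 v)]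
    cases v <;> simp [sg] <;> linarith
  have hA : |a| ^ (2 * s) = (a ^ 2) ^ s := by rw [pow_mul, sq_abs]
  have h3 : ∀ v : Bool, (a + (sg v : ℝ) / (1 + sg v * t) * b) ^ (2 * (s + 1)) ≤
      a ^ (2 * (s + 1)) + (2 * s + 2) * a ^ (2 * s + 1) * ((sg v : ℝ) / (1 + sg v * t) * b) +
        D * (4 * ((a ^ 2) ^ s * b ^ 2) + D * b ^ (2 * (s + 1))) := by
    intro v
    have h4 := taylor_pow (2 * s) a ((sg v : ℝ) / (1 + sg v * t) * b)
    rw [show 2 * (s + 1) = 2 * s + 2 by ring]
    push_cast at h4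
    refine h4.trans ?_
    rw [hA, ← hD]
    have h5 : ((sg v : ℝ) / (1 + sg v * t) * b) ^ 2 ≤ 4 * b ^ 2 := by
      rw [mul_pow, ← sq_abs ((sg v : ℝ) / _)]
      refine mul_le_mul_of_nonneg_right ?_ (sq_nonneg _)
      nlinarith [h2 v, abs_nonneg ((sg v : ℝ) / (1 + sg v * t))]
    have h6 : |(sg v : ℝ) / (1 + sg v * t) * b| ^ (2 * s + 2) ≤ D * b ^ (2 * s + 2) := by
      rw [abs_mul, mul_pow, hD, (show Even (2 * s + 2) from ⟨s + 1, by ring⟩).pow_abs b]
      refine mul_le_mul_of_nonneg_right (pow_le_pow_left₀ (abs_nonneg _) (h2 v) _) ?_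
      exact (show Even (2 * s + 2) from ⟨s + 1, by ring⟩).pow_nonneg b
    have h7 : (a ^ 2) ^ s * ((sg v : ℝ) / (1 + sg v * t) * b) ^ 2 ≤ (a ^ 2) ^ s * (4 * b ^ 2) :=
      mul_le_mul_of_nonneg_left h5 (by positivity)
    refine add_le_add le_rfl (mul_le_mul_of_nonneg_left (add_le_add ?_ h6) (by positivity))
    linarith
  have h4 : ∑ v : Bool, (1 + (sg v : ℝ) * t) / 2 *
      (a + (sg v : ℝ) / (1 + sg v * t) * b) ^ (2 * (s + 1)) ≤
      a ^ (2 * (s + 1)) + D * (4 * ((a ^ 2) ^ s * b ^ 2) + D * b ^ (2 * (s + 1))) := by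
    refine (Finset.sum_le_sum fun v _ => mul_le_mul_of_nonneg_left (h3 v)
      (by have := h1 v; positivity)).trans (le_of_eq ?_)
    have h5 : ∀ v : Bool, ∀ X Y Z : ℝ, (1 + (sg v : ℝ) * t) / 2 *
        (X + Y * ((sg v : ℝ) / (1 + sg v * t) * b) + Z) =
        (1 + (sg v : ℝ) * t) / 2 * (X + Z) + (sg v : ℝ) * Y * b / 2 := by
      intro v X Y Z
      have := h1 v
      field_simp
      ring
    simp only [h5]
    simp only [Fintype.sum_bool, sg, if_true, Bool.false_eq_true, if_false, Int.cast_neg,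
      Int.cast_one]
    ring
  refine h4.trans ?_
  have hL0 : 0 < L := by linarith
  have h5 : (a ^ 2) ^ s * b ^ 2 ≤ a ^ (2 * (s + 1)) / (4 * D * L) +
      (4 * D * L) ^ s * b ^ (2 * (s + 1)) := by
    rw [pow_mul, pow_mul, pow_succ (a ^ 2), pow_succ (b ^ 2)]
    rcases le_total (b ^ 2) (a ^ 2 / (4 * D * L)) with h | h
    · calc (a ^ 2) ^ s * b ^ 2 ≤ (a ^ 2) ^ s * (a ^ 2 / (4 * D * L)) := by gcongr
        _ = (a ^ 2) ^ s * a ^ 2 / (4 * D * L) := by ring
        _ ≤ _ := le_add_of_nonneg_right (by positivity)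
    · rw [div_le_iff₀ (by positivity)] at h
      calc (a ^ 2) ^ s * b ^ 2 ≤ (b ^ 2 * (4 * D * L)) ^ s * b ^ 2 := by gcongr
        _ = (4 * D * L) ^ s * ((b ^ 2) ^ s * b ^ 2) := by rw [mul_pow]; ring
        _ ≤ _ := le_add_of_nonneg_left (by positivity)
  have hb : 0 ≤ b ^ (2 * (s + 1)) := by rw [pow_mul]; positivity
  have h6 : L ^ s ≤ L ^ (s + 1) := pow_le_pow_right₀ hL (by omega)
  have h7 : 1 ≤ L ^ (s + 1) := one_le_pow₀ hL
  have h8 : D * (4 * (a ^ (2 * (s + 1)) / (4 * D * L))) = 1 / L * a ^ (2 * (s + 1)) := by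
    field_simp
  have h9 : D * (4 * ((4 * D * L) ^ s * b ^ (2 * (s + 1))) + D * b ^ (2 * (s + 1))) ≤
      (4 * D * (4 * D) ^ s + D * D) * L ^ (s + 1) * b ^ (2 * (s + 1)) := by
    rw [mul_pow (4 * D) L]
    have : D * (4 * ((4 * D) ^ s * L ^ s * b ^ (2 * (s + 1))) + D * b ^ (2 * (s + 1))) =
      (4 * D * (4 * D) ^ s * L ^ s + D * D * 1) * b ^ (2 * (s + 1)) := by ring
    rw [this, add_mul (4 * D * (4 * D) ^ s)]
    gcongr
  have h10 : 0 ≤ 1 / L * ((4 * D * (4 * D) ^ s + D * D) * L ^ (s + 1) * b ^ (2 * (s + 1))) := by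
    positivity
  nlinarith

/-- Derivative growth of decision trees. -/
theorem fourier_growth (r : ℕ) (hr : 0 < r) : ∃ C : ℝ, 0 < C ∧
    ∀ (ι : Type) [Fintype ι] [DecidableEq ι] (z : ι → ℝ), (∀ i, |z i| ≤ 1 / 2) →
    ∀ (L : ℕ), 1 ≤ L → ∀ f : (ι → Bool) → ℝ, DT L f →
    ∀ (A : Type) [Fintype A] (S : A → Finset ι) (w : A → ℝ) (k : ℕ), Function.Injective S →
      (∀ a, (S a).card = k) →
      (∑ a, w a * Dz z (S a) f) ^ (2 * r) ≤ 3 * (C * L ^ r) ^ k * ∑ a, w a ^ (2 * r) := by
  obtain ⟨C, hC, h2⟩ := two_point r hr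
  refine ⟨C, hC, fun ι _ _ z hz L hL f hf A _ S w k hS hk => ?_⟩
  classical
  have hL' : (1 : ℝ) ≤ L := by exact_mod_cast hL
  have h := fg_aux r hr (1 / L) (C * L ^ r) (by positivity) (by positivity) z hz (h2 L hL') L f hf
    (Function.extend S w 0)
  have hsum : ∀ g : Finset ι → ℝ → ℝ, (∀ T, g T 0 = 0) →
      ∑ T, g T (Function.extend S w 0 T) = ∑ a, g (S a) (w a) := by
    intro g hg
    symm
    refine Finset.sum_of_injOn S hS.injOn (fun _ _ => Finset.mem_univ _) (fun T _ hT => ?_)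
      fun a _ => by rw [hS.extend_apply]
    rw [Function.extend_apply' _ _ _ (by simpa using hT)]
    exact hg T
  rw [hsum (fun T c => c * Dz z T f) (by simp),
    hsum (fun T c => (C * L ^ r) ^ T.card * c ^ (2 * r)) (by simp [hr.ne'])] at h
  refine h.trans ?_
  simp only [hk, ← Finset.mul_sum]
  rw [← mul_assoc]
  have h3 : (1 + 1 / (L : ℝ)) ^ L ≤ 3 := by
    have h4 : 1 + 1 / (L : ℝ) ≤ Real.exp (1 / L) := by linarith [Real.add_one_le_exp (1 / (L : ℝ))]
    refine (pow_le_pow_left₀ (by positivity) h4 _).trans ?_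
    rw [← Real.exp_nat_mul, mul_one_div_cancel (by positivity)]
    exact Real.exp_one_lt_three.le
  have h5 : 0 ≤ ∑ a, w a ^ (2 * r) := Finset.sum_nonneg fun a _ => by rw [pow_mul]; positivity
  gcongr

end FG

end Crest.Agent.R350
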