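import Crest.Agent.R350.State

/-!
The `k`-fold Forrelation value, its quantum state, its butterfly certificate, its path expansion.
-/

set_option autoImplicit false

open Finset

namespace Crest.Agent.R350

/-- The Boolean cube. -/
abbrev Cube (n : ℕ) : Type := Fin n → Bool

variable {n k : ℕ}

/-- The origin of the cube. -/
def orig (n : ℕ) : Cube n := fun _ => false

/-- Unnormalised Hadamard matrix. -/
def had (c d : Cube n) : ℤ := ∏ s, sg (c s && d s)

lemma had_comm (c d : Cube n) : had c d = had d c := by simp [had, Bool.and_comm]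

lemma had_orig (d : Cube n) : had (orig n) d = 1 := by simp [had, orig, sg]

lemma had_mul_self (c d : Cube n) : had c d * had c d = 1 := by
  rw [had, ← Finset.prod_mul_distrib]; simp [sg_mul_self]

lemma abs_had (c d : Cube n) : |had c d| = 1 := by
  rw [had, Finset.abs_prod]; simp [abs_sg]

lemma had_sq_real (c d : Cube n) : ((had c d : ℤ) : ℝ) ^ 2 = 1 := by
  rw [sq]; exact_mod_cast had_mul_self c d

lemma abs_had_real (c d : Cube n) : |((had c d : ℤ) : ℝ)| = 1 := by
  exact_mod_cast abs_had c d

lemma had_orth (c c' : Cube n) :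
    ∑ d, had c d * had c' d = if c = c' then 2 ^ n else 0 := by
  simp only [had, ← Finset.prod_mul_distrib]
  rw [← Fintype.piFinset_univ,
    ← Finset.prod_univ_sum (fun _ => Finset.univ) (fun s b => sg (c s && b) * sg (c' s && b))]
  split_ifs with h
  · subst h
    simp [sg_mul_self]
  · obtain ⟨s, hs⟩ := Function.ne_iff.1 h
    refine Finset.prod_eq_zero (Finset.mem_univ s) ?_
    revert hs
    cases c s <;> cases c' s <;> simp [sg]

lemma card_cube : Fintype.card (Cube n) = 2 ^ n := by simp

/-- Square root of the size of the cube. -/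
noncomputable def rN (n : ℕ) : ℝ := Real.sqrt (2 ^ n)

lemma rN_pos (n : ℕ) : 0 < rN n := Real.sqrt_pos.2 (by positivity)
lemma rN_sq (n : ℕ) : rN n ^ 2 = 2 ^ n := Real.sq_sqrt (by positivity)

/-- Normalised Hadamard matrix. -/
noncomputable def hadR (c d : Cube n) : ℝ := had c d / rN n

lemma hadR_comm (c d : Cube n) : hadR c d = hadR d c := by rw [hadR, hadR, had_comm]

lemma hadR_orth (c c' : Cube n) : ∑ d, hadR c d * hadR c' d = if c = c' then 1 else 0 := by
  have h := had_orth c c'
  have h2 : ∑ d, hadR c d * hadR c' d = ((∑ d, had c d * had c' d : ℤ) : ℝ) / 2 ^ n := by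
    push_cast
    rw [Finset.sum_div]
    refine Finset.sum_congr rfl fun d _ => ?_
    rw [hadR, hadR, div_mul_div_comm, ← sq, rN_sq]
  rw [h2, h]
  split_ifs <;> simp

lemma hadR_sq_sum (v : Cube n → ℝ) : ∑ c, (∑ d, hadR c d * v d) ^ 2 = ∑ d, v d ^ 2 := by
  have : ∀ c, (∑ d, hadR c d * v d) ^ 2 = ∑ d, ∑ d', v d * v d' * (hadR d c * hadR d' c) := by
    intro c
    rw [sq, Finset.sum_mul_sum]
    refine Finset.sum_congr rfl fun d _ => Finset.sum_congr rfl fun d' _ => ?_
    rw [hadR_comm c d, hadR_comm c d']; ring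
  simp only [this]
  rw [Finset.sum_comm]
  refine Finset.sum_congr rfl fun d _ => ?_
  rw [Finset.sum_comm]
  simp only [← Finset.mul_sum, hadR_orth]
  simp [sq]

/-- An instance read at a natural-number block index. -/
def yb (y : Fin k × Cube n → Bool) (j : ℕ) (d : Cube n) : Bool :=
  if h : j < k then y (⟨j, h⟩, d) else false

lemma yb_fin (y : Fin k × Cube n → Bool) (j : Fin k) (d : Cube n) : yb y j d = y (j, d) := by
  simp [yb]

/-- Unnormalised amplitudes after `j` blocks. -/
def Vv (y : Fin k × Cube n → Bool) : ℕ → Cube n → ℤ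
  | 0, _ => 1
  | j + 1, c => ∑ d, had c d * (sg (yb y j d) * Vv y j d)

/-- Normalised amplitudes. -/
noncomputable def fst (y : Fin k × Cube n → Bool) (j : ℕ) (c : Cube n) : ℝ :=
  Vv y j c / rN n ^ (j + 1)

/-- The Forrelation value. -/
noncomputable def Phi (y : Fin k × Cube n → Bool) : ℝ := fst y k (orig n)

lemma fst_succ (y : Fin k × Cube n → Bool) (j : ℕ) (c : Cube n) :
    fst y (j + 1) c = ∑ d, hadR c d * ((sg (yb y j d) : ℝ) * fst y j d) := by
  simp only [fst, Vv, hadR]
  push_cast
  rw [Finset.sum_div]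
  refine Finset.sum_congr rfl fun d _ => ?_
  have := rN_pos n
  field_simp
  ring

lemma fst_norm (y : Fin k × Cube n → Bool) (j : ℕ) : ∑ c, fst y j c ^ 2 = 1 := by
  induction j with
  | zero => simp [fst, Vv, rN_sq]
  | succ j ih => simp only [fst_succ, hadR_sq_sum, mul_pow, sg_sq, one_mul, ih]

lemma abs_Phi_le (y : Fin k × Cube n → Bool) : |Phi y| ≤ 1 := by
  have h := Finset.single_le_sum (f := fun c => fst y k c ^ 2) (fun c _ => sq_nonneg _)
    (Finset.mem_univ (orig n))
  rw [fst_norm] at h
  exact (sq_le_one_iff_abs_le_one _).1 h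

lemma fst_pstate {ι : Type} [Fintype ι] (q : Fin k × Cube n → ι) (j : ℕ) (hj : j ≤ k) :
    PState (fun (x : ι → Bool) => fst (fun p => x (q p)) j) (4 * j) := by
  induction j with
  | zero =>
    have := PState.const (ι := ι) (fun _ : Cube n => ((1 : ℤ) : ℝ) / rN n ^ (0 + 1))
    refine PState.mono this (by simp)
  | succ j ih =>
    have h1 := ((ih (by omega)).phase (fun x => (fst_norm _ _).le)
      (fun d => q (⟨j, hj⟩, d))).affine hadR (fun _ => 0) fun φ => by
        refine le_of_eq ?_
        rw [← hadR_sq_sum φ]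
        exact Finset.sum_congr rfl fun c _ => by simp only [hadR_comm c]
    refine PState.mono (W := 4 * j + 4) ?_ (by push_cast; linarith)
    convert h1 using 3 with x c
    rw [fst_succ, add_zero]
    simp [yb, show j < k from hj]

/-- The Hadamard-test state. -/
noncomputable def coin (y : Fin k × Cube n → Bool) (p : Bool × Cube n) : ℝ :=
  (fst y k p.2 + (sg p.1 : ℝ) * if p.2 = orig n then 1 else 0) / 2

lemma coin_marginal (y : Fin k × Cube n → Bool) (o : Bool) :
    ∑ c, coin y (o, c) ^ 2 = (1 + (sg o : ℝ) * Phi y) / 2 := by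
  have : ∀ c, coin y (o, c) ^ 2 = (fst y k c ^ 2 + (if c = orig n then 1 + 2 * (sg o : ℝ) * Phi y
      else 0)) / 4 := by
    intro c
    simp only [coin]
    split_ifs with h
    · subst h
      have := sg_sq o
      simp only [Phi]
      linear_combination (1 / 4) * this
    · ring
  simp only [this, ← Finset.sum_div, Finset.sum_add_distrib, fst_norm, Finset.sum_ite_eq',
    Finset.mem_univ, if_true]
  ring

lemma coin_norm (y : Fin k × Cube n → Bool) : ∑ p, coin y p ^ 2 = 1 := by
  rw [Fintype.sum_prod_type]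
  simp only [coin_marginal, Fintype.sum_bool, sg]
  simp
  ring

lemma coin_pstate {ι : Type} [Fintype ι] (q : Fin k × Cube n → ι) :
    PState (fun (x : ι → Bool) => coin (fun p => x (q p))) (4 * k) := by
  have h1 := (fst_pstate q k le_rfl).affine
    (fun (p : Bool × Cube n) c => if p.2 = c then 1 / 2 else 0)
    (fun p => ((sg p.1 : ℝ) * if p.2 = orig n then 1 else 0) / 2) fun φ => by
      rw [Fintype.sum_prod_type_right]
      refine Finset.sum_le_sum fun c _ => ?_
      rw [Fintype.sum_prod_type_right]
      simp only [Fintype.sum_bool, ite_mul, zero_mul, Finset.sum_add_distrib, Finset.sum_ite_eq',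
        Finset.mem_univ, if_true]
      nlinarith [sq_nonneg (φ (true, c) - φ (false, c))]
  convert h1 using 3 with x p
  simp only [coin, ite_mul, zero_mul, Finset.sum_ite_eq, Finset.mem_univ, if_true]
  ring

/-! ### The butterfly certificate -/

/-- Partial Hadamard kernel: the first `s` coordinates are transformed. -/
def ker (s : ℕ) (c d : Cube n) : ℤ :=
  ∏ t : Fin n, if (t : ℕ) < s then sg (c t && d t) else if c t = d t then 1 else 0

lemma ker_zero (c d : Cube n) : ker 0 c d = if c = d then 1 else 0 := by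
  simp only [ker, Nat.not_lt_zero, if_false]
  rw [Finset.prod_ite_zero]
  simp [funext_iff]

lemma ker_last (c d : Cube n) : ker n c d = had c d := by
  simp [ker, had]

lemma abs_ker_le (s : ℕ) (c d : Cube n) : |ker s c d| ≤ 1 := by
  rw [ker, Finset.abs_prod]
  refine Finset.prod_le_one (fun _ _ => abs_nonneg _) fun t _ => ?_
  split_ifs <;> simp [abs_sg]

lemma ker_succ (s : Fin n) (c d : Cube n) : ker (s + 1) c d =
    ker s (Function.update c s false) d + sg (c s) * ker s (Function.update c s true) d := by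
  simp only [ker]
  rw [← Finset.mul_prod_erase _ _ (Finset.mem_univ s),
    ← Finset.mul_prod_erase _ _ (Finset.mem_univ s), ← Finset.mul_prod_erase _ _ (Finset.mem_univ s)]
  have h1 : ∀ b : Bool, ∏ t ∈ Finset.univ.erase s,
      (if (t : ℕ) < s then sg (Function.update c s b t && d t)
        else if Function.update c s b t = d t then 1 else 0) =
      ∏ t ∈ Finset.univ.erase s, (if (t : ℕ) < s + 1 then sg (c t && d t)
        else if c t = d t then (1 : ℤ) else 0) := by
    intro b
    refine Finset.prod_congr rfl fun t ht => ?_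
    have ht' : t ≠ s := Finset.ne_of_mem_erase ht
    have ht'' : (t : ℕ) ≠ s := fun h => ht' (Fin.ext h)
    rw [Function.update_of_ne ht']
    have : ((t : ℕ) < s + 1) ↔ ((t : ℕ) < s) := by omega
    simp only [this]
  rw [h1, h1]
  simp only [Nat.lt_succ_self, if_true, lt_irrefl, if_false, Function.update_self]
  cases c s <;> cases d s <;> simp [sg]

/-- The value feeding block `j`. -/
def prev (A : Fin k → Fin (n + 1) → Cube n → ℤ) (j : Fin k) (c : Cube n) : ℤ :=
  if h : 0 < (j : ℕ) then A ⟨j - 1, by omega⟩ (Fin.last n) c else 1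

/-- Local check at the start of a block. -/
def chk0 (y : Fin k × Cube n → Bool) (A : Fin k → Fin (n + 1) → Cube n → ℤ) (j : Fin k)
    (c : Cube n) : Prop := A j 0 c = sg (y (j, c)) * prev A j c

/-- Local check of a butterfly gate. -/
def chkS (A : Fin k → Fin (n + 1) → Cube n → ℤ) (j : Fin k) (s : Fin n) (c : Cube n) : Prop :=
  A j s.succ c = A j s.castSucc (Function.update c s false) +
    sg (c s) * A j s.castSucc (Function.update c s true)

lemma fft_sound (y : Fin k × Cube n → Bool) (A : Fin k → Fin (n + 1) → Cube n → ℤ)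
    (h0 : ∀ j c, chk0 y A j c) (hS : ∀ j s c, chkS A j s c) (j : Fin k) (c : Cube n) :
    A j (Fin.last n) c = Vv y (j + 1) c := by
  have key : ∀ j : Fin k, (∀ c, prev A j c = Vv y j c) → ∀ c, A j (Fin.last n) c = Vv y (j + 1) c := by
    intro j hj
    have h1 : ∀ s : Fin (n + 1), ∀ c, A j s c = ∑ d, ker s c d * (sg (yb y j d) * Vv y j d) := by
      intro s
      induction s using Fin.induction with
      | zero =>
        intro c
        rw [h0 j c, hj]
        simp [ker_zero, yb_fin]
      | succ s ih =>
        intro c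
        rw [hS j s c, ih, ih, Finset.mul_sum, ← Finset.sum_add_distrib]
        refine Finset.sum_congr rfl fun d _ => ?_
        rw [Fin.val_succ, ker_succ, Fin.val_castSucc]
        ring
    intro c
    rw [h1, Vv]
    simp [ker_last]
  obtain ⟨j, hj⟩ := j
  induction j generalizing c with
  | zero => exact key _ (fun c => by simp [prev, Vv]) c
  | succ j ih =>
    refine key _ (fun c => ?_) c
    simp only [prev, Nat.succ_pos, dif_pos, Nat.add_sub_cancel]
    exact ih c (by omega)

lemma abs_Vv_le (y : Fin k × Cube n → Bool) (j : ℕ) (c : Cube n) : |Vv y j c| ≤ 2 ^ (n * j) := by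
  induction j generalizing c with
  | zero => simp [Vv]
  | succ j ih =>
    rw [Vv]
    refine (Finset.abs_sum_le_sum_abs _ _).trans ?_
    refine (Finset.sum_le_card_nsmul _ _ (2 ^ (n * j)) fun d _ => ?_).trans ?_
    · rw [abs_mul, abs_mul, abs_had, abs_sg]; simpa using ih d
    · simp [mul_add, pow_add, mul_comm]

lemma fft_complete (y : Fin k × Cube n → Bool) :
    ∃ A : Fin k → Fin (n + 1) → Cube n → ℤ, (∀ j c, chk0 y A j c) ∧ (∀ j s c, chkS A j s c) ∧
      ∀ j s c, |A j s c| ≤ 2 ^ (n * k) := by
  refine ⟨fun j s c => ∑ d, ker s c d * (sg (yb y j d) * Vv y j d), fun j c => ?_,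
    fun j s c => ?_, fun j s c => ?_⟩
  · simp only [chk0, Fin.val_zero, ker_zero, ite_mul, one_mul, zero_mul, Finset.sum_ite_eq,
      Finset.mem_univ, if_true, yb_fin]
    congr 1
    obtain ⟨j, hj⟩ := j
    cases j with
    | zero => simp [prev, Vv]
    | succ j => simp [prev, Vv, ker_last, yb, show j < k by omega]
  · simp only [chkS]
    rw [Finset.mul_sum, ← Finset.sum_add_distrib]
    refine Finset.sum_congr rfl fun d _ => ?_
    rw [Fin.val_succ, ker_succ, Fin.val_castSucc]
    ring
  · refine (Finset.abs_sum_le_sum_abs _ _).trans ?_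
    refine (Finset.sum_le_card_nsmul _ _ (2 ^ (n * j)) fun d _ => ?_).trans ?_
    · rw [abs_mul, abs_mul, abs_sg, one_mul]
      exact (mul_le_of_le_one_left (abs_nonneg _) (abs_ker_le _ _ _)).trans (abs_Vv_le _ _ _)
    · simp only [Finset.card_univ, card_cube, nsmul_eq_mul]
      push_cast
      rw [← pow_add]
      refine pow_le_pow_right₀ (by norm_num) ?_
      have := j.2
      nlinarith

/-! ### Path expansion -/

lemma Vv_path (y : Fin k × Cube n → Bool) (j : ℕ) (c : Cube n) :
    Vv y (j + 1) c = ∑ a : Fin (j + 1) → Cube n, had c (a (Fin.last j)) *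
      ((∏ i : Fin (j + 1), sg (yb y i (a i))) * ∏ i : Fin j, had (a i.succ) (a i.castSucc)) := by
  induction j generalizing c with
  | zero =>
    rw [Vv]
    refine Fintype.sum_equiv (Equiv.funUnique (Fin 1) (Cube n)).symm _ _ fun d => ?_
    simp [Vv]
  | succ j ih =>
    rw [Vv, ← (Fin.snocEquiv fun _ => Cube n).sum_comp, Fintype.sum_prod_type]
    refine Finset.sum_congr rfl fun d _ => ?_
    rw [ih, Finset.mul_sum, Finset.mul_sum]
    refine Finset.sum_congr rfl fun a _ => ?_
    rw [Fin.prod_univ_castSucc (n := j + 1), Fin.prod_univ_castSucc (n := j)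
      (f := fun i => had ((Fin.snocEquiv fun _ => Cube n) (d, a) i.succ) _)]
    simp only [Fin.snocEquiv_apply, Fin.snoc_last, Fin.snoc_castSucc, Fin.succ_last,
      Fin.succ_castSucc, Fin.val_last, Fin.val_castSucc]
    ring

lemma Phi_path (y : Fin (k + 1) × Cube n → Bool) :
    Phi y = (∑ a : Fin (k + 1) → Cube n, (∏ i : Fin k, hadR (a i.succ) (a i.castSucc)) *
      ∏ i, (sg (y (i, a i)) : ℝ)) / 2 ^ n := by
  rw [Phi, fst, Vv_path]
  push_cast
  rw [Finset.sum_div, Finset.sum_div]
  refine Finset.sum_congr rfl fun a _ => ?_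
  simp only [had_orig, yb_fin, hadR, Finset.prod_div_distrib, Finset.prod_const, Finset.card_univ,
    Fintype.card_fin, ← rN_sq]
  have := rN_pos n
  field_simp
  push_cast
  ring

end Crest.Agent.R350
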