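import Crest.Agent.R350.Gauss
import Crest.Agent.R350.DT
import Crest.Agent.R350.Forr

/-!
The Gaussian product model and the chain of integrations by parts.
-/

set_option autoImplicit false

open Finset MeasureTheory ProbabilityTheory MvPolynomial

namespace Crest.Agent.R350

section Generic

variable {ι σ : Type} [Fintype ι] [DecidableEq ι]

omit [Fintype ι] in
lemma pderiv_finset_prod (a : σ) (s : Finset ι) (g : ι → MvPolynomial σ ℝ) :
    pderiv a (∏ i ∈ s, g i) = ∑ i ∈ s, pderiv a (g i) * ∏ i' ∈ s.erase i, g i' := by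
  induction s using Finset.induction_on with
  | empty => simp
  | insert j s hj ih =>
    rw [Finset.prod_insert hj, pderiv_mul, ih, Finset.sum_insert hj, Finset.erase_insert hj,
      Finset.mul_sum]
    congr 1
    refine Finset.sum_congr rfl fun i hi => ?_
    have hij : j ≠ i := fun h => hj (h ▸ hi)
    rw [Finset.erase_insert_of_ne hij, Finset.prod_insert (fun h => hj (Finset.mem_of_mem_erase h))]
    ring

/-- Polynomial version of `Dz`. -/
noncomputable def DP (Z : ι → MvPolynomial σ ℝ) (T : Finset ι) (f : (ι → Bool) → ℝ) :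
    MvPolynomial σ ℝ :=
  ∑ x : ι → Bool, C (f x) * ∏ i, (if i ∈ T then C ((sg (x i) : ℝ) / 2)
    else C (1 / 2) + C ((sg (x i) : ℝ) / 2) * Z i)

lemma eval_DP (X : σ → ℝ) (Z : ι → MvPolynomial σ ℝ) (T : Finset ι) (f : (ι → Bool) → ℝ) :
    eval X (DP Z T f) = Dz (fun i => eval X (Z i)) T f := by
  simp only [DP, Dz, map_sum, map_mul, eval_C, map_prod]
  refine Finset.sum_congr rfl fun x _ => ?_
  congr 1
  refine Finset.prod_congr rfl fun i _ => ?_
  split_ifs
  · simp
  · simp; ring

lemma pderiv_DP (a : σ) (Z : ι → MvPolynomial σ ℝ) (T : Finset ι) (f : (ι → Bool) → ℝ) :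
    pderiv a (DP Z T f) = ∑ i, if i ∈ T then 0 else pderiv a (Z i) * DP Z (insert i T) f := by
  simp only [DP, map_sum, pderiv_C_mul, pderiv_finset_prod, Finset.mul_sum]
  rw [Finset.sum_comm]
  refine Finset.sum_congr rfl fun i _ => ?_
  by_cases hi : i ∈ T
  · simp [hi]
  · simp only [hi, if_false]
    refine Finset.sum_congr rfl fun x _ => ?_
    rw [← Finset.mul_prod_erase _ _ (Finset.mem_univ i)]
    have : ∏ i' ∈ Finset.univ.erase i, (if i' ∈ insert i T then C ((sg (x i') : ℝ) / 2)
        else C (1 / 2) + C ((sg (x i') : ℝ) / 2) * Z i') =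
        ∏ i' ∈ Finset.univ.erase i, (if i' ∈ T then C ((sg (x i') : ℝ) / 2)
        else C (1 / 2) + C ((sg (x i') : ℝ) / 2) * Z i') :=
      Finset.prod_congr rfl fun i' hi' => by simp [Finset.ne_of_mem_erase hi']
    rw [this, map_add, pderiv_C, pderiv_C_mul, if_pos (Finset.mem_insert_self i T)]
    ring

lemma Dz_sub (z z' : ι → ℝ) (q : ι) (h : ∀ i, i ≠ q → z' i = z i) (f : (ι → Bool) → ℝ) :
    Dz z' ∅ f - Dz z ∅ f = (z' q - z q) * Dz z {q} f := by
  simp only [Dz, Finset.notMem_empty, if_false, Finset.mul_sum, ← Finset.sum_sub_distrib]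
  refine Finset.sum_congr rfl fun x _ => ?_
  rw [← Finset.mul_prod_erase _ _ (Finset.mem_univ q), ← Finset.mul_prod_erase _ _ (Finset.mem_univ q),
    ← Finset.mul_prod_erase _ _ (Finset.mem_univ q)]
  have h1 : ∏ i ∈ Finset.univ.erase q, (1 + (sg (x i) : ℝ) * z' i) / 2 =
      ∏ i ∈ Finset.univ.erase q, (1 + (sg (x i) : ℝ) * z i) / 2 :=
    Finset.prod_congr rfl fun i hi => by rw [h i (Finset.ne_of_mem_erase hi)]
  have h2 : ∏ i ∈ Finset.univ.erase q, (if i ∈ ({q} : Finset ι) then (sg (x i) : ℝ) / 2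
      else (1 + (sg (x i) : ℝ) * z i) / 2) =
      ∏ i ∈ Finset.univ.erase q, (1 + (sg (x i) : ℝ) * z i) / 2 :=
    Finset.prod_congr rfl fun i hi => by simp [Finset.ne_of_mem_erase hi]
  rw [h1, h2, if_pos (Finset.mem_singleton_self q)]
  ring

lemma abs_Dz_le (z : ι → ℝ) (T : Finset ι) (f : (ι → Bool) → ℝ) (hf : ∀ x, |f x| ≤ 1) :
    |Dz z T f| ≤ ∏ i, max 1 |z i| := by
  rw [Dz]
  refine (Finset.abs_sum_le_sum_abs _ _).trans ?_
  have h1 : ∀ x : ι → Bool, |f x * ∏ i, (if i ∈ T then (sg (x i) : ℝ) / 2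
      else (1 + sg (x i) * z i) / 2)| ≤
      ∏ i, |if i ∈ T then (sg (x i) : ℝ) / 2 else (1 + sg (x i) * z i) / 2| := by
    intro x
    rw [abs_mul, Finset.abs_prod]
    exact mul_le_of_le_one_left (Finset.prod_nonneg fun _ _ => abs_nonneg _) (hf x)
  refine (Finset.sum_le_sum fun x _ => h1 x).trans ?_
  rw [← Fintype.piFinset_univ, ← Finset.prod_univ_sum (fun _ => Finset.univ)
    (fun i b => |if i ∈ T then (sg b : ℝ) / 2 else (1 + sg b * z i) / 2|)]
  refine Finset.prod_le_prod (fun i _ => Finset.sum_nonneg fun _ _ => abs_nonneg _) fun i _ => ?_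
  split_ifs
  · simp only [abs_div, abs_sg_real]
    simp
  · simp only [Fintype.sum_bool, sg, if_true, Bool.false_eq_true, if_false, Int.cast_neg,
      Int.cast_one, abs_div, abs_two]
    rcases abs_cases (1 + -1 * z i) with h | h <;> rcases abs_cases (1 + 1 * z i) with h' | h' <;>
      rcases abs_cases (z i) with h'' | h'' <;> simp only [le_max_iff] <;>
      first | (left; linarith) | (right; linarith)

end Generic

variable {n k : ℕ}

/-- Scaled Gaussian coordinate. -/
noncomputable def XP (τ : ℝ) (p : Fin k × Cube n) : MvPolynomial (Fin k × Cube n) ℝ := C τ * X p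

/-- Scaled Hadamard transform of a Gaussian block. -/
noncomputable def YP (τ : ℝ) (p : Fin k × Cube n) : MvPolynomial (Fin k × Cube n) ℝ :=
  C τ * ∑ d, C (hadR p.2 d) * X (p.1, d)

/-- Left factor. -/
noncomputable def Lp (τ : ℝ) (t : Cube n → ℝ) (j : Fin (k + 1)) (c : Cube n) :
    MvPolynomial (Fin k × Cube n) ℝ :=
  Fin.cases (C (t c)) (fun j' => YP τ (j', c)) j

/-- Right factor. -/
noncomputable def Rp (τ : ℝ) (j : Fin (k + 1)) (c : Cube n) : MvPolynomial (Fin k × Cube n) ℝ :=
  Fin.lastCases 1 (fun j' => XP τ (j', c)) j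

/-- The biases of the input bits. -/
noncomputable def Zp (τ : ℝ) (t : Cube n → ℝ) (i : Fin (k + 1) × Cube n) :
    MvPolynomial (Fin k × Cube n) ℝ := Lp τ t i.1 i.2 * Rp τ i.1 i.2

lemma pderiv_Zp (τ : ℝ) (t : Cube n → ℝ) (j : Fin k) (a : Cube n) (i : Fin (k + 1) × Cube n)
    (hi : i ≠ (j.castSucc, a)) :
    pderiv (j, a) (Zp τ t i) = if i.1 = j.succ then C (τ * hadR i.2 a) * Rp τ i.1 i.2 else 0 := by
  classical
  obtain ⟨j', c⟩ := i
  have hR : pderiv (j, a) (Rp τ j' c) = 0 := by
    induction j' using Fin.lastCases with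
    | last => simp [Rp]
    | cast j' =>
      simp only [Rp, Fin.lastCases_castSucc, XP, pderiv_C_mul]
      rw [pderiv_X_of_ne, mul_zero]
      intro h
      simp only [Prod.mk.injEq] at h
      exact hi (by rw [h.1, h.2])
  simp only [Zp, pderiv_mul, hR, mul_zero, add_zero]
  induction j' using Fin.cases with
  | zero => simp [Lp, (Fin.succ_ne_zero j).symm]
  | succ j' =>
    simp only [Lp, Fin.cases_succ, YP, pderiv_C_mul, map_sum, Fin.succ_inj]
    by_cases h : j' = j
    · subst h
      rw [Finset.sum_eq_single a]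
      · simp
      · intro d _ hd
        rw [pderiv_X_of_ne, mul_zero]
        simpa using hd
      · simp
    · rw [if_neg h, Finset.sum_eq_zero, mul_zero, zero_mul]
      intro d _
      rw [pderiv_X_of_ne, mul_zero]
      simp [h]

lemma stein_step (τ : ℝ) (t : Cube n → ℝ) (f : (Fin (k + 1) × Cube n → Bool) → ℝ) (j : Fin k)
    (a : Cube n) (T : Finset (Fin (k + 1) × Cube n)) (hT : (j.castSucc, a) ∈ T)
    (hT' : ∀ c, (j.succ, c) ∉ T) :
    EP (Rp τ j.castSucc a * DP (Zp τ t) T f) =
      τ ^ 2 * ∑ c, hadR c a * EP (Rp τ j.succ c * DP (Zp τ t) (insert (j.succ, c) T) f) := by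
  simp only [Rp, Fin.lastCases_castSucc, XP]
  rw [mul_assoc, EP_C_mul, EP_stein, pderiv_DP, EP_sum, Fintype.sum_prod_type,
    Finset.sum_eq_single j.succ, sq, mul_assoc]
  · congr 1
    rw [Finset.mul_sum]
    refine Finset.sum_congr rfl fun c _ => ?_
    rw [if_neg (hT' c), pderiv_Zp τ t j a (j.succ, c) (fun h => hT' c (h ▸ hT)), if_pos rfl, mul_assoc,
      EP_C_mul, mul_assoc]
    rfl
  · intro j' _ hj'
    refine Finset.sum_eq_zero fun c _ => ?_
    split_ifs with h
    · simp [EP]
    · rw [pderiv_Zp τ t j a (j', c) (fun h' => h (h' ▸ hT)), if_neg hj']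
      simp [EP]
  · simp

/-- The vertices of a path up to block `j`. -/
def pathSet (a : Fin (k + 1) → Cube n) (j : Fin (k + 1)) : Finset (Fin (k + 1) × Cube n) :=
  Finset.univ.filter fun i => i.1 ≤ j ∧ i.2 = a i.1

/-- The weight of a path. -/
noncomputable def pathWt (a : Fin (k + 1) → Cube n) : ℝ := ∏ j : Fin k, hadR (a j.succ) (a j.castSucc)

lemma chain (τ : ℝ) (t : Cube n → ℝ) (f : (Fin (k + 1) × Cube n → Bool) → ℝ) (a₀ : Cube n) :
    EP (Rp τ 0 a₀ * DP (Zp τ t) {(0, a₀)} f) = τ ^ (2 * k) * ∑ a : Fin k → Cube n,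
      pathWt (Fin.cons a₀ a) * EP (DP (Zp τ t) (pathSet (Fin.cons a₀ a) (Fin.last k)) f) := by
  classical
  let g : Fin (k + 1) → (Fin (k + 1) → Cube n) → ℝ := fun j a =>
    (∏ j' : Fin k, if (j' : ℕ) < j then hadR (a j'.succ) (a j'.castSucc) else 1) *
      EP (Rp τ j (a j) * DP (Zp τ t) (pathSet a j) f)
  have hN : (0 : ℝ) < 2 ^ n := by positivity
  have key : ∀ j : Fin (k + 1), ∑ a : Fin k → Cube n, g 0 (Fin.cons a₀ a) =
      (τ ^ 2 * 2 ^ n) ^ (j : ℕ) * ∑ a : Fin k → Cube n, g j (Fin.cons a₀ a) := by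
    intro j
    induction j using Fin.induction with
    | zero => simp
    | succ j ih =>
      rw [ih, Fin.val_succ, Fin.val_castSucc, pow_succ (τ ^ 2 * 2 ^ n), mul_assoc]
      congr 1
      rw [sum_update j (fun _ => 1 / (2 : ℝ) ^ n) (by simp) fun a => g j.succ (Fin.cons a₀ a),
        Finset.sum_comm, Finset.mul_sum]
      refine Finset.sum_congr rfl fun a _ => ?_
      set p : Fin (k + 1) → Cube n := Fin.cons a₀ a with hp
      have hne : j.castSucc ≠ j.succ := (Fin.castSucc_lt_succ (i := j)).ne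
      have h1 := stein_step τ t f j (p j.castSucc) (pathSet p j.castSucc) (by simp [pathSet])
        (fun c => by
          simp only [pathSet, Finset.mem_filter, Finset.mem_univ, true_and, not_and]
          intro h
          exact absurd h (not_le.2 Fin.castSucc_lt_succ))
      simp only [g]
      rw [h1, Finset.mul_sum, Finset.mul_sum, Finset.mul_sum]
      refine Finset.sum_congr rfl fun c _ => ?_
      rw [Fin.cons_update, ← hp, Function.update_self]
      have h2 : pathSet (Function.update p j.succ c) j.succ =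
          insert (j.succ, c) (pathSet p j.castSucc) := by
        ext ⟨j', c'⟩
        simp only [pathSet, Finset.mem_filter, Finset.mem_univ, true_and, Finset.mem_insert,
          Prod.mk.injEq]
        by_cases hj' : j' = j.succ
        · subst hj'
          simp
        · rw [Function.update_of_ne hj']
          have : j' ≤ j.succ ↔ j' ≤ j.castSucc := by
            rw [Fin.le_def, Fin.le_def, Fin.val_succ, Fin.val_castSucc]
            have : (j' : ℕ) ≠ j + 1 := fun h => hj' (Fin.ext h)
            omega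
          simp [hj', this]
      have h3 : (∏ j' : Fin k, if (j' : ℕ) < (j.succ : ℕ) then
          hadR (Function.update p j.succ c j'.succ) (Function.update p j.succ c j'.castSucc)
          else 1) = hadR c (p j.castSucc) * ∏ j' : Fin k, if (j' : ℕ) < (j.castSucc : ℕ) then
          hadR (p j'.succ) (p j'.castSucc) else 1 := by
        rw [← Finset.mul_prod_erase _ _ (Finset.mem_univ j),
          ← Finset.mul_prod_erase _ _ (Finset.mem_univ j)]
        simp only [Fin.val_succ, Fin.val_castSucc, Nat.lt_succ_self, if_true, lt_irrefl, if_false,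
          Function.update_self, Function.update_of_ne hne, one_mul]
        congr 1
        refine Finset.prod_congr rfl fun j' hj' => ?_
        have h4 : j' ≠ j := Finset.ne_of_mem_erase hj'
        have h5 : (j' : ℕ) ≠ j := fun h => h4 (Fin.ext h)
        by_cases h6 : (j' : ℕ) < j
        · rw [if_pos h6, if_pos (by omega), Function.update_of_ne (by simpa using h4),
            Function.update_of_ne]
          intro h
          have := congrArg Fin.val h
          simp only [Fin.val_succ, Fin.val_castSucc] at this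
          omega
        · rw [if_neg h6, if_neg (by omega)]
      rw [h2, h3]
      field_simp
  have h1 := key (Fin.last k)
  have h2 : ∀ a : Fin k → Cube n, g 0 (Fin.cons a₀ a) = EP (Rp τ 0 a₀ * DP (Zp τ t) {(0, a₀)} f) := by
    intro a
    have : pathSet (Fin.cons a₀ a : Fin (k + 1) → Cube n) 0 = {(0, a₀)} := by
      ext ⟨j', c'⟩
      simp only [pathSet, Finset.mem_filter, Finset.mem_univ, true_and, Finset.mem_singleton,
        Prod.mk.injEq, Fin.le_zero_iff]
      constructor
      · rintro ⟨rfl, h⟩; simpa using h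
      · rintro ⟨rfl, h⟩; simpa using h
    simp [g, this]
  have h3 : ∀ a : Fin (k + 1) → Cube n, g (Fin.last k) a =
      pathWt a * EP (DP (Zp τ t) (pathSet a (Fin.last k)) f) := by
    intro a
    simp [g, pathWt, Rp]
  simp only [h2, h3, Finset.sum_const, Finset.card_univ, Fintype.card_pi,
    Finset.prod_const, Fintype.card_fin, nsmul_eq_mul, Fin.val_last, mul_pow] at h1
  push_cast at h1
  rw [mul_comm ((τ ^ 2) ^ k), mul_assoc] at h1
  rw [mul_left_cancel₀ (by positivity) h1, pow_mul]

lemma pathSet_card (a : Fin (k + 1) → Cube n) : (pathSet a (Fin.last k)).card = k + 1 := by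
  have : pathSet a (Fin.last k) = Finset.univ.image fun j => (j, a j) := by
    ext ⟨j, c⟩
    simp [pathSet, Fin.le_last, eq_comm]
  rw [this, Finset.card_image_of_injective _ fun j j' h => (Prod.ext_iff.1 h).1]
  simp

lemma pathSet_inj {a a' : Fin (k + 1) → Cube n}
    (h : pathSet a (Fin.last k) = pathSet a' (Fin.last k)) : a = a' := by
  ext1 j
  have : (j, a j) ∈ pathSet a (Fin.last k) := by simp [pathSet, Fin.le_last]
  rw [h] at this
  simpa [pathSet, Fin.le_last] using this

lemma pathWt_sq (a : Fin (k + 1) → Cube n) : pathWt a ^ 2 = (1 / 2 ^ n) ^ k := by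
  simp only [pathWt, ← Finset.prod_pow, hadR, div_pow, had_sq_real, rN_sq]
  simp

lemma Dz_Phi (z : Fin (k + 1) × Cube n → ℝ) (a : Fin (k + 1) → Cube n) :
    Dz z (pathSet a (Fin.last k)) Phi = pathWt a / 2 ^ n := by
  have h1 : ∀ a' : Fin (k + 1) → Cube n,
      Dz z (pathSet a (Fin.last k)) (fun y => ∏ i, (sg (y (i, a' i)) : ℝ)) =
        if a' = a then 1 else 0 := by
    intro a'
    have h2 : ∀ y : Fin (k + 1) × Cube n → Bool, ∏ i, (sg (y (i, a' i)) : ℝ) =
        ∏ i : Fin (k + 1) × Cube n, if i.2 = a' i.1 then (sg (y i) : ℝ) else 1 := by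
      intro y
      rw [Fintype.prod_prod_type]
      simp
    simp only [Dz, h2, ← Finset.prod_mul_distrib]
    rw [← Fintype.piFinset_univ, ← Finset.prod_univ_sum (fun _ => Finset.univ)
      (fun (i : Fin (k + 1) × Cube n) b => (if i.2 = a' i.1 then (sg b : ℝ) else 1) *
        if i ∈ pathSet a (Fin.last k) then (sg b : ℝ) / 2 else (1 + sg b * z i) / 2)]
    split_ifs with h
    · subst h
      refine Finset.prod_eq_one fun i _ => ?_
      by_cases hi : i.2 = a' i.1
      · simp [pathSet, Fin.le_last, hi, sg]; norm_num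
      · simp [pathSet, Fin.le_last, hi, sg]; ring
    · obtain ⟨j, hj⟩ := Function.ne_iff.1 h
      refine Finset.prod_eq_zero (Finset.mem_univ (j, a j)) ?_
      simp [pathSet, Fin.le_last, Ne.symm hj, sg]; ring
  have h3 : Dz z (pathSet a (Fin.last k)) Phi = (∑ a' : Fin (k + 1) → Cube n, pathWt a' *
      Dz z (pathSet a (Fin.last k)) (fun y => ∏ i, (sg (y (i, a' i)) : ℝ))) / 2 ^ n := by
    simp only [Dz, Phi_path, Finset.mul_sum, Finset.sum_div, Finset.sum_mul, pathWt]
    rw [Finset.sum_comm]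
    exact Finset.sum_congr rfl fun _ _ => Finset.sum_congr rfl fun _ _ => by ring
  rw [h3]
  simp [h1]

end Crest.Agent.R350
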