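import Mathlib

/-!
A calculus of "adversary costs": a matrix `M` indexed by pairs of inputs has cost `(a, b)` when it
can be written as a sum, over the positions where the two inputs differ, of inner products of
vectors whose total squared norms are bounded by `a` and `b`.
-/

set_option autoImplicit false

open Finset

namespace Crest.Agent.R350

/-- `0` if the two arguments are equal and `1` otherwise. -/
noncomputable def neq {Λ : Type*} (a b : Λ) : ℝ := by
  classical exact if a = b then 0 else 1

/-- Indicator of a proposition. -/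
noncomputable def ind (P : Prop) : ℝ := by
  classical exact if P then 1 else 0

lemma neq_self {Λ : Type*} (a : Λ) : neq a a = 0 := by simp [neq]
lemma neq_of_eq {Λ : Type*} {a b : Λ} (h : a = b) : neq a b = 0 := by simp [neq, h]
lemma neq_of_ne {Λ : Type*} {a b : Λ} (h : a ≠ b) : neq a b = 1 := by simp [neq, h]
lemma neq_comm {Λ : Type*} (a b : Λ) : neq a b = neq b a := by
  by_cases h : a = b
  · simp [neq, h]
  · rw [neq_of_ne h, neq_of_ne (Ne.symm h)]
lemma ind_pos {P : Prop} (h : P) : ind P = 1 := by simp [ind, h]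
lemma ind_neg {P : Prop} (h : ¬ P) : ind P = 0 := by simp [ind, h]
lemma ind_nonneg (P : Prop) : 0 ≤ ind P := by
  by_cases h : P
  · simp [ind_pos h]
  · simp [ind_neg h]
lemma ind_le_one (P : Prop) : ind P ≤ 1 := by
  by_cases h : P
  · simp [ind_pos h]
  · simp [ind_neg h]
lemma ind_sq (P : Prop) : ind P ^ 2 = ind P := by
  by_cases h : P
  · simp [ind_pos h]
  · simp [ind_neg h]
lemma ind_not (P : Prop) : ind (¬ P) = 1 - ind P := by
  by_cases h : P
  · simp [ind_pos h, ind_neg (not_not.2 h)]
  · simp [ind_neg h, ind_pos h]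
lemma ind_and (P Q : Prop) : ind (P ∧ Q) = ind P * ind Q := by
  by_cases h : P <;> by_cases h' : Q <;> simp [ind, h, h']
lemma ind_eq_ite (P : Prop) [Decidable P] : ind P = if P then 1 else 0 := by
  by_cases h : P <;> simp [ind, h]
lemma neq_eq_ind {Λ : Type*} (a b : Λ) : neq a b = 1 - ind (a = b) := by
  by_cases h : a = b <;> simp [neq, ind, h]
lemma sum_ind_eq {Λ : Type*} [Fintype Λ] (a : Λ) (f : Λ → ℝ) :
    ∑ l, ind (a = l) * f l = f a := by
  classical
  simp [ind_eq_ite]

variable {ι : Type} [Fintype ι]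

/-- The cost relation. -/
def Cost (M : (ι → Bool) → (ι → Bool) → ℝ) (a b : (ι → Bool) → ℝ) : Prop :=
  ∃ (κ : Type) (_ : Fintype κ) (u v : (ι → Bool) → ι → κ → ℝ),
    (∀ x y, M x y = ∑ i, neq (x i) (y i) * ∑ k, u x i k * v y i k) ∧
    (∀ x, ∑ i, ∑ k, u x i k ^ 2 ≤ a x) ∧ (∀ y, ∑ i, ∑ k, v y i k ^ 2 ≤ b y)

namespace Cost

variable {M M' : (ι → Bool) → (ι → Bool) → ℝ} {a b a' b' : (ι → Bool) → ℝ}

lemma zero : Cost (ι := ι) (fun _ _ => 0) (fun _ => 0) (fun _ => 0) :=
  ⟨Unit, inferInstance, fun _ _ _ => 0, fun _ _ _ => 0, by simp, by simp, by simp⟩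

lemma nonneg_left (h : Cost M a b) (x : ι → Bool) : 0 ≤ a x := by
  obtain ⟨κ, _, u, v, -, hu, -⟩ := h
  exact le_trans (by positivity) (hu x)

lemma nonneg_right (h : Cost M a b) (x : ι → Bool) : 0 ≤ b x := by
  obtain ⟨κ, _, u, v, -, -, hv⟩ := h
  exact le_trans (by positivity) (hv x)

lemma of_le (h : Cost M a b) (hM : ∀ x y, M' x y = M x y) (ha : ∀ x, a x ≤ a' x)
    (hb : ∀ x, b x ≤ b' x) : Cost M' a' b' := by
  obtain ⟨κ, _, u, v, h1, hu, hv⟩ := h
  exact ⟨κ, inferInstance, u, v, fun x y => (hM x y).trans (h1 x y),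
    fun x => (hu x).trans (ha x), fun x => (hv x).trans (hb x)⟩

lemma add (h : Cost M a b) (h' : Cost M' a' b') :
    Cost (fun x y => M x y + M' x y) (fun x => a x + a' x) (fun x => b x + b' x) := by
  obtain ⟨κ, _, u, v, h1, hu, hv⟩ := h
  obtain ⟨κ', _, u', v', h1', hu', hv'⟩ := h'
  refine ⟨κ ⊕ κ', inferInstance, fun x i => Sum.elim (u x i) (u' x i),
    fun x i => Sum.elim (v x i) (v' x i), fun x y => ?_, fun x => ?_, fun x => ?_⟩
  · simp only [h1, h1', Fintype.sum_sum_type, Sum.elim_inl, Sum.elim_inr, mul_add,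
      Finset.sum_add_distrib]
  · simp only [Fintype.sum_sum_type, Sum.elim_inl, Sum.elim_inr, Finset.sum_add_distrib]
    exact add_le_add (hu x) (hu' x)
  · simp only [Fintype.sum_sum_type, Sum.elim_inl, Sum.elim_inr, Finset.sum_add_distrib]
    exact add_le_add (hv x) (hv' x)

lemma sum {J : Type*} (s : Finset J) (M : J → (ι → Bool) → (ι → Bool) → ℝ)
    (a b : J → (ι → Bool) → ℝ) (h : ∀ j ∈ s, Cost (M j) (a j) (b j)) :
    Cost (fun x y => ∑ j ∈ s, M j x y) (fun x => ∑ j ∈ s, a j x) (fun x => ∑ j ∈ s, b j x) := by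
  classical
  induction s using Finset.induction_on with
  | empty => simpa using zero
  | insert j s hj ih =>
    have h1 := (h j (by simp)).add (ih fun j' hj' => h j' (by simp [hj']))
    exact h1.of_le (fun x y => by simp [Finset.sum_insert hj])
      (fun x => by simp [Finset.sum_insert hj]) (fun x => by simp [Finset.sum_insert hj])

lemma transpose (h : Cost M a b) : Cost (fun x y => M y x) b a := by
  obtain ⟨κ, _, u, v, h1, hu, hv⟩ := h
  refine ⟨κ, inferInstance, v, u, fun x y => ?_, hv, hu⟩
  beta_reduce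
  rw [h1]
  refine Finset.sum_congr rfl fun i _ => ?_
  rw [neq_comm]
  congr 1
  exact Finset.sum_congr rfl fun k _ => mul_comm _ _

lemma mul (h : Cost M a b) (α β : (ι → Bool) → ℝ) :
    Cost (fun x y => α x * β y * M x y) (fun x => α x ^ 2 * a x) (fun x => β x ^ 2 * b x) := by
  obtain ⟨κ, _, u, v, h1, hu, hv⟩ := h
  refine ⟨κ, inferInstance, fun x i k => α x * u x i k, fun x i k => β x * v x i k,
    fun x y => ?_, fun x => ?_, fun x => ?_⟩
  · beta_reduce
    rw [h1, Finset.mul_sum]
    refine Finset.sum_congr rfl fun i _ => ?_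
    simp only [Finset.mul_sum]
    exact Finset.sum_congr rfl fun k _ => by ring
  · simp only [mul_pow, ← Finset.mul_sum]
    exact mul_le_mul_of_nonneg_left (hu x) (by positivity)
  · simp only [mul_pow, ← Finset.mul_sum]
    exact mul_le_mul_of_nonneg_left (hv x) (by positivity)

lemma neg (h : Cost M a b) : Cost (fun x y => - M x y) a b :=
  (h.mul (fun _ => -1) (fun _ => 1)).of_le (fun x y => by ring) (fun x => by simp)
    (fun x => by simp)

lemma rescale (h : Cost M a b) {s : ℝ} (hs : 0 < s) :
    Cost M (fun x => s * a x) (fun x => b x / s) := by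
  have hs' : 0 < Real.sqrt s := Real.sqrt_pos.2 hs
  refine (h.mul (fun _ => Real.sqrt s) (fun _ => (Real.sqrt s)⁻¹)).of_le (fun x y => ?_)
    (fun x => ?_) (fun x => ?_)
  · field_simp
  · rw [Real.sq_sqrt hs.le]
  · rw [inv_pow, Real.sq_sqrt hs.le, div_eq_inv_mul]

lemma gram (h : Cost M a b) {Λ : Type*} [Fintype Λ] (α β : (ι → Bool) → Λ → ℝ) :
    Cost (fun x y => (∑ l, α x l * β y l) * M x y) (fun x => (∑ l, α x l ^ 2) * a x)
      (fun x => (∑ l, β x l ^ 2) * b x) :=
  (Cost.sum Finset.univ _ _ _ fun l _ => h.mul (fun x => α x l) (fun x => β x l)).of_le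
    (fun x y => by rw [Finset.sum_mul]) (fun x => by rw [Finset.sum_mul])
    (fun x => by rw [Finset.sum_mul])

/-- A family of matrices indexed by the value of a function of the input, applied on the pairs
where the function takes the same value. -/
lemma fiber {Λ : Type*} (f : (ι → Bool) → Λ) (M : Λ → (ι → Bool) → (ι → Bool) → ℝ)
    (h : ∀ l, Cost (M l) a b) :
    Cost (fun x y => ind (f x = f y) * M (f x) x y) a b := by
  classical
  have := Cost.sum (Finset.univ.image f) _ _ _ fun l _ =>
    (h l).mul (fun x => ind (f x = l)) (fun x => ind (f x = l))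
  refine this.of_le (fun x y => ?_) (fun x => ?_) (fun x => ?_)
  · rw [Finset.sum_eq_single (f x)]
    · rw [ind_pos rfl, one_mul]
      congr 2
      exact propext eq_comm
    · intro l _ hl
      rw [ind_neg (Ne.symm hl)]; ring
    · intro hx; exact absurd (Finset.mem_image_of_mem f (Finset.mem_univ x)) hx
  · rw [Finset.sum_eq_single (f x)]
    · simp [ind_pos]
    · intro l _ hl
      rw [ind_neg (Ne.symm hl)]; ring
    · intro hx; exact absurd (Finset.mem_image_of_mem f (Finset.mem_univ x)) hx
  · rw [Finset.sum_eq_single (f x)]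
    · simp [ind_pos]
    · intro l _ hl
      rw [ind_neg (Ne.symm hl)]; ring
    · intro hx; exact absurd (Finset.mem_image_of_mem f (Finset.mem_univ x)) hx

lemma neq_mul (h : Cost M a b) {Λ : Type*} (f : (ι → Bool) → Λ) :
    Cost (fun x y => neq (f x) (f y) * M x y) (fun x => 2 * a x) (fun x => 2 * b x) :=
  (h.add (fiber f (fun _ => M) fun _ => h).neg).of_le
    (fun x y => by rw [neq_eq_ind]; ring) (fun x => by linarith) (fun x => by linarith)

lemma query (i : ι) :
    Cost (fun x y => neq (x i) (y i)) (fun _ => 1) (fun _ => 1) := by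
  classical
  refine ⟨Unit, inferInstance, fun _ j _ => if j = i then 1 else 0,
    fun _ j _ => if j = i then 1 else 0, fun x y => ?_, fun x => ?_, fun x => ?_⟩
  · rw [Finset.sum_eq_single i] <;> simp +contextual
  · rw [Finset.sum_eq_single i] <;> simp +contextual
  · rw [Finset.sum_eq_single i] <;> simp +contextual

end Cost

/-- The cost of evaluating a function. -/
def FCost {Λ : Type*} (f : (ι → Bool) → Λ) (W : ℝ) : Prop :=
  Cost (fun x y => neq (f x) (f y)) (fun _ => W) (fun _ => W)

namespace FCost

variable {Λ Λ' : Type*} {f : (ι → Bool) → Λ} {g : (ι → Bool) → Λ'} {W W' : ℝ}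

lemma nonneg (h : FCost f W) : 0 ≤ W := Cost.nonneg_left h (fun _ => false)

lemma mono (h : FCost f W) (hW : W ≤ W') : FCost f W' :=
  Cost.of_le h (fun _ _ => rfl) (fun _ => hW) (fun _ => hW)

lemma query (i : ι) : FCost (fun x : ι → Bool => x i) 1 := Cost.query i

lemma const (c : Λ) : FCost (fun _ : ι → Bool => c) 0 :=
  Cost.zero.of_le (fun _ _ => neq_self c) (fun _ => le_rfl) (fun _ => le_rfl)

lemma congr (h : FCost f W) (hfg : ∀ x y, g x = g y ↔ f x = f y) : FCost g W := by
  refine Cost.of_le h (fun x y => ?_) (fun _ => le_rfl) (fun _ => le_rfl)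
  by_cases hx : f x = f y
  · rw [neq_of_eq hx, neq_of_eq ((hfg x y).2 hx)]
  · rw [neq_of_ne hx, neq_of_ne (fun h => hx ((hfg x y).1 h))]

/-- A function determined by another one costs at most twice as much. -/
lemma of_det (h : FCost f W) (hfg : ∀ x y, f x = f y → g x = g y) : FCost g (2 * W) := by
  refine (Cost.neq_mul h g).of_le (fun x y => ?_) (fun _ => le_rfl) (fun _ => le_rfl)
  by_cases hx : f x = f y
  · rw [neq_of_eq hx, neq_of_eq (hfg x y hx)]; simp
  · rw [neq_of_ne hx]; simp

lemma adapt (h : FCost f W) (g : Λ → (ι → Bool) → Λ') (hg : ∀ l, FCost (g l) W') :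
    FCost (fun x => (f x, g (f x) x)) (W + W') := by
  refine (Cost.add h (Cost.fiber f (fun l x y => neq (g l x) (g l y)) hg)).of_le
    (fun x y => ?_) (fun _ => le_rfl) (fun _ => le_rfl)
  beta_reduce
  by_cases hx : f x = f y
  · rw [neq_of_eq hx, ind_pos hx, ← hx]
    by_cases hg' : g (f x) x = g (f x) y
    · rw [neq_of_eq hg', neq_of_eq (by rw [hg'])]; simp
    · rw [neq_of_ne hg', neq_of_ne (fun h => hg' (Prod.ext_iff.1 h).2)]; simp
  · rw [neq_of_ne hx, ind_neg hx, neq_of_ne (fun h => hx (Prod.ext_iff.1 h).1)]; simp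

lemma pair (h : FCost f W) (hg : FCost g W') : FCost (fun x => (f x, g x)) (W + W') :=
  h.adapt (fun _ => g) fun _ => hg

lemma pi {J : Type*} [Fintype J] (f : J → (ι → Bool) → Λ) (h : ∀ j, FCost (f j) W) :
    FCost (fun x j => f j x) (Fintype.card J * W) := by
  classical
  have key : ∀ s : Finset J,
      FCost (fun x => fun j => if j ∈ s then some (f j x) else none) (s.card * W) := by
    intro s
    induction s using Finset.induction_on with
    | empty => simpa using const (ι := ι) (fun _ : J => (none : Option Λ))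
    | insert j s hj ih =>
      have := (h j).pair ih
      refine (this.congr fun x y => ?_).mono ?_
      · simp only [Prod.mk.injEq, funext_iff]
        constructor
        · intro H
          refine ⟨by simpa using H j, fun j' => ?_⟩
          by_cases hj' : j' ∈ s
          · simpa [hj'] using H j'
          · simp [hj']
        · rintro ⟨H1, H2⟩ j'
          by_cases hj' : j' = j
          · subst hj'; simpa using H1
          · simpa [hj'] using H2 j'
      · rw [Finset.card_insert_of_notMem hj]; push_cast; linarith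
  refine (key Finset.univ).congr fun x y => ?_
  simp [funext_iff]

/-- Reading a tuple of bits. -/
lemma read {J : Type*} [Fintype J] (q : J → ι) :
    FCost (fun (x : ι → Bool) j => x (q j)) (Fintype.card J) := by
  simpa using pi (fun j (x : ι → Bool) => x (q j)) fun j => query (q j)

/-- Conjunction of many conditions: the square-root speed-up. -/
lemma all {J : Type*} [Fintype J] (P : J → (ι → Bool) → Prop) (h : ∀ j, FCost (P j) W)
    {s : ℝ} (hs : 0 < s) (hW : 0 ≤ W) (hJ : (Fintype.card J : ℝ) ≤ s ^ 2) :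
    FCost (fun x => ∀ j, P j x) (s * W) := by
  classical
  obtain ⟨A, hA⟩ : ∃ A : (ι → Bool) → Prop, ∀ x, A x = ∀ j, P j x := ⟨_, fun _ => rfl⟩
  have hw : ∀ y : ι → Bool, ∃ o : Option J, (¬ A y → ∃ j, o = some j ∧ ¬ P j y) := by
    intro y
    by_cases hy : A y
    · exact ⟨none, fun h => absurd hy h⟩
    · rw [hA] at hy
      obtain ⟨j, hj⟩ := not_forall.1 hy
      exact ⟨some j, fun _ => ⟨j, rfl, hj⟩⟩
  choose wit hwit using hw
  have h1 := Cost.sum Finset.univ _ _ _ fun j _ =>
    Cost.mul (h j) (fun x => ind (A x)) (fun y => ind ((¬ A y) ∧ wit y = some j))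
  have h2 : Cost (fun x y => ind (A x) * ind (¬ A y))
      (fun x => s * W * ind (A x)) (fun y => s * W * ind (¬ A y)) := by
    refine (h1.rescale (inv_pos.2 hs)).of_le (fun x y => ?_) (fun x => ?_) (fun y => ?_)
    · by_cases hx : A x
      · by_cases hy : A y
        · simp [ind_and, ind_not, ind_pos hy]
        · obtain ⟨j, hj, hj'⟩ := hwit y hy
          rw [Finset.sum_eq_single j]
          · rw [ind_pos hx, ind_pos hy, ind_pos ⟨hy, hj⟩, neq_of_ne]
            · simp
            · intro h
              rw [hA] at hx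
              exact hj' (h ▸ hx j)
          · intro j' _ hj''
            rw [ind_neg (P := _ ∧ _)]
            · simp
            · rintro ⟨-, h⟩
              rw [hj] at h
              exact hj'' (Option.some_injective _ h).symm
          · simp
      · simp [ind_neg hx]
    · simp only [ind_sq, Finset.sum_const, Finset.card_univ, nsmul_eq_mul]
      have := ind_nonneg (A x)
      rw [inv_mul_le_iff₀ hs]
      calc (Fintype.card J : ℝ) * (ind (A x) * W) ≤ s ^ 2 * (ind (A x) * W) :=
            mul_le_mul_of_nonneg_right hJ (by positivity)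
        _ = _ := by ring
    · simp only [ind_sq, div_inv_eq_mul]
      by_cases hy : A y
      · simp [ind_and, ind_not, ind_pos hy]
      · obtain ⟨j, hj, hj'⟩ := hwit y hy
        rw [Finset.sum_eq_single j]
        · rw [ind_pos hy, ind_pos ⟨hy, hj⟩]; linarith
        · intro j' _ hj''
          rw [ind_neg (P := _ ∧ _)]
          · simp
          · rintro ⟨-, h⟩
            rw [hj] at h
            exact hj'' (Option.some_injective _ h).symm
        · simp
  have h3 : FCost A (s * W) := by
    refine (h2.add h2.transpose).of_le (fun x y => ?_) (fun x => ?_) (fun x => ?_)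
    · by_cases hx : A x <;> by_cases hy : A y
      · rw [neq_of_eq (propext (iff_of_true hx hy))]; simp [ind_not, ind_pos hx, ind_pos hy]
      · rw [neq_of_ne (fun h : A x = A y => hy (h ▸ hx))]; simp [ind_not, ind_pos hx, ind_neg hy]
      · rw [neq_of_ne (fun h : A x = A y => hx (h ▸ hy))]; simp [ind_not, ind_pos hy, ind_neg hx]
      · rw [neq_of_eq (propext (iff_of_false hx hy))]; simp [ind_not, ind_neg hx, ind_neg hy]
    · rw [ind_not]; linarith
    · rw [ind_not]; linarith
  exact h3.congr fun x y => by rw [hA, hA]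

lemma and {P Q : (ι → Bool) → Prop} (h : FCost P W) (h' : FCost Q W') :
    FCost (fun x => P x ∧ Q x) (2 * (W + W')) :=
  (h.pair h').of_det fun x y hxy => by
    simp only [Prod.mk.injEq] at hxy
    rw [hxy.1, hxy.2]

end FCost

end Crest.Agent.R350
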