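import Crest.Agent.R350.State

/-!
The tournament algorithm: repeatedly sample a surviving candidate by amplitude amplification at a
random scale; at the end verify all sampled candidates.
-/

set_option autoImplicit false

open Finset

namespace Crest.Agent.R350

section Analysis

variable {Ω : Type} [Fintype Ω]

/-- The candidates not eliminated by the ones already picked. -/
def surv (elim : Ω → Ω → Prop) (h : List Ω) (ω' : Ω) : Prop := ∀ ω ∈ h, ¬ elim ω ω'

/-- Acceptance probability with `r` rounds left and picked list `h`. -/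
noncomputable def acc (j : ℕ) (ψ : Ω → ℝ) (elim : Ω → Ω → Prop) (Ver : Ω → Prop) :
    ℕ → List Ω → ℝ
  | 0, h => ind (∃ ω ∈ h, Ver ω)
  | r + 1, h => (∑ u : Fin (j + 1), ∑ o : Option Ω,
      amp ((1 / 2) ^ (u : ℕ)) ψ (surv elim h) o ^ 2 * acc j ψ elim Ver r (o.toList ++ h)) /
        Fintype.card (Fin (j + 1))

variable (j : ℕ) (ψ : Ω → ℝ) (elim : Ω → Ω → Prop) (Ver : Ω → Prop)

lemma acc_eq_zero (hV : ∀ ω, ¬ Ver ω) (r : ℕ) (h : List Ω) : acc j ψ elim Ver r h = 0 := by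
  induction r generalizing h with
  | zero => exact ind_neg fun ⟨ω, _, hω⟩ => hV ω hω
  | succ r ih => simp [acc, ih]

lemma one_sub_acc_succ (r : ℕ) (h : List Ω) : 1 - acc j ψ elim Ver (r + 1) h =
    (∑ u : Fin (j + 1), ∑ o : Option Ω,
      amp ((1 / 2) ^ (u : ℕ)) ψ (surv elim h) o ^ 2 * (1 - acc j ψ elim Ver r (o.toList ++ h))) /
        (j + 1) := by
  have hn : ∀ u : Fin (j + 1), ∑ o : Option Ω, amp ((1 / 2) ^ (u : ℕ)) ψ (surv elim h) o ^ 2 = 1 :=
    fun u => amp_norm (by positivity) _ _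
  simp only [acc, mul_sub, mul_one, Finset.sum_sub_distrib, hn, Finset.sum_const, Finset.card_univ,
    Fintype.card_fin, nsmul_eq_mul]
  push_cast
  field_simp

lemma acc_eq_one (r : ℕ) (h : List Ω) (hh : ∃ ω ∈ h, Ver ω) : acc j ψ elim Ver r h = 1 := by
  induction r generalizing h with
  | zero => exact ind_pos hh
  | succ r ih =>
    have h1 := one_sub_acc_succ j ψ elim Ver r h
    have h2 : ∀ o : Option Ω, acc j ψ elim Ver r (o.toList ++ h) = 1 := fun o => by
      obtain ⟨ω, h1, h2⟩ := hh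
      exact ih _ ⟨ω, List.mem_append_right _ h1, h2⟩
    simp only [h2, sub_self, mul_zero, Finset.sum_const_zero, zero_div] at h1
    linarith

lemma goodWt_mono {P Q : Ω → Prop} (h : ∀ ω, P ω → Q ω) : goodWt ψ P ≤ goodWt ψ Q :=
  Finset.sum_le_sum fun ω _ => by
    refine mul_le_mul_of_nonneg_right ?_ (sq_nonneg _)
    by_cases hP : P ω
    · rw [ind_pos hP, ind_pos (h ω hP)]
    · rw [ind_neg hP]; exact ind_nonneg _

lemma tournament_step {S : Type} (slot : Ω → S) (w₁ : ℝ)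
    (hel : ∀ ω ω', slot ω ≠ slot ω' → elim ω ω' ∨ elim ω' ω)
    (hslot : ∀ s, goodWt ψ (fun ω => slot ω = s) ≤ w₁) (K : Ω → Prop)
    (hK : ∀ ω κ, K κ → ¬ elim ω κ) (hKw : w₁ / 2 ≤ goodWt ψ K) (h : List Ω) :
    ∑ ω, ind (surv elim h ω) * ψ ω ^ 2 * (ind (¬ K ω) * goodWt ψ (surv elim (ω :: h))) ≤
      3 / 4 * goodWt ψ (surv elim h) ^ 2 := by
  set W := goodWt ψ (surv elim h) with hW
  have hW0 : 0 ≤ W := goodWt_nonneg _ _
  have hp : ∀ ω, 0 ≤ ind (surv elim h ω) * ψ ω ^ 2 := fun ω =>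
    mul_nonneg (ind_nonneg _) (sq_nonneg _)
  by_cases hc : 2 * w₁ ≤ W
  · have h1 : ∀ ω, goodWt ψ (surv elim (ω :: h)) =
        ∑ ω', ind (surv elim h ω') * ψ ω' ^ 2 * ind (¬ elim ω ω') := by
      intro ω
      refine Finset.sum_congr rfl fun ω' _ => ?_
      have : surv elim (ω :: h) ω' ↔ surv elim h ω' ∧ ¬ elim ω ω' := by
        simp [surv, and_comm]
      rw [propext this, ind_and]; ring
    set A := ∑ ω, ∑ ω', ind (surv elim h ω) * ψ ω ^ 2 * (ind (surv elim h ω') * ψ ω' ^ 2) *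
      ind (¬ elim ω ω') with hA
    have h2 : ∑ ω, ind (surv elim h ω) * ψ ω ^ 2 * (ind (¬ K ω) * goodWt ψ (surv elim (ω :: h)))
        ≤ A := by
      refine Finset.sum_le_sum fun ω _ => ?_
      have h3 : ind (¬ K ω) * goodWt ψ (surv elim (ω :: h)) ≤ goodWt ψ (surv elim (ω :: h)) :=
        mul_le_of_le_one_left (goodWt_nonneg _ _) (ind_le_one _)
      refine (mul_le_mul_of_nonneg_left h3 (hp ω)).trans (le_of_eq ?_)
      rw [h1, Finset.mul_sum]
      exact Finset.sum_congr rfl fun ω' _ => by ring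
    have h3 : A = ∑ ω, ∑ ω', ind (surv elim h ω) * ψ ω ^ 2 * (ind (surv elim h ω') * ψ ω' ^ 2) *
        ind (¬ elim ω' ω) := by
      rw [hA, Finset.sum_comm]
      exact Finset.sum_congr rfl fun ω _ => Finset.sum_congr rfl fun ω' _ => by ring
    have h4 : A + A ≤ ∑ ω, ind (surv elim h ω) * ψ ω ^ 2 * (W + w₁) := by
      nth_rewrite 2 [h3]
      rw [hA, ← Finset.sum_add_distrib]
      refine Finset.sum_le_sum fun ω _ => ?_
      rw [← Finset.sum_add_distrib]
      have h5 : ∑ ω', (ind (surv elim h ω') * ψ ω' ^ 2 + ind (slot ω' = slot ω) * ψ ω' ^ 2)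
          ≤ W + w₁ := by
        rw [Finset.sum_add_distrib]
        exact add_le_add le_rfl (hslot (slot ω))
      refine le_trans ?_ (mul_le_mul_of_nonneg_left h5 (hp ω))
      rw [Finset.mul_sum]
      refine Finset.sum_le_sum fun ω' _ => ?_
      rw [mul_assoc (ind (surv elim h ω) * ψ ω ^ 2), mul_assoc (ind (surv elim h ω) * ψ ω ^ 2),
        ← mul_add]
      refine mul_le_mul_of_nonneg_left ?_ (hp ω)
      have h6 := hp ω'
      have h7 : ind (surv elim h ω') * ψ ω' ^ 2 ≤ ψ ω' ^ 2 :=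
        mul_le_of_le_one_left (sq_nonneg _) (ind_le_one _)
      by_cases hs : slot ω' = slot ω
      · rw [ind_pos hs]
        nlinarith [ind_le_one (¬ elim ω ω'), ind_le_one (¬ elim ω' ω)]
      · rw [ind_neg hs]
        rcases hel ω' ω hs with h8 | h8
        · rw [ind_neg (not_not.2 h8)]
          nlinarith [ind_le_one (¬ elim ω ω')]
        · rw [ind_neg (not_not.2 h8)]
          nlinarith [ind_le_one (¬ elim ω' ω)]
    rw [← Finset.sum_mul] at h4
    change A + A ≤ W * (W + w₁) at h4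
    nlinarith
  · have h1 : ∀ ω, goodWt ψ (surv elim (ω :: h)) ≤ W := fun ω =>
      goodWt_mono ψ fun ω' h' ω'' h'' => h' ω'' (List.mem_cons_of_mem _ h'')
    have h2 : ∑ ω, ind (surv elim h ω) * ψ ω ^ 2 * (ind (¬ K ω) * goodWt ψ (surv elim (ω :: h)))
        ≤ ∑ ω, (ind (surv elim h ω) * ψ ω ^ 2 - ind (K ω) * ψ ω ^ 2) * W := by
      refine Finset.sum_le_sum fun ω _ => ?_
      by_cases hω : K ω
      · rw [ind_neg (not_not.2 hω), ind_pos hω, ind_pos (P := surv elim h ω) (fun ω' _ => hK ω' ω hω)]; simp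
      · rw [ind_pos hω, ind_neg hω]
        simpa using mul_le_mul_of_nonneg_left (h1 ω) (hp ω)
    rw [← Finset.sum_mul, Finset.sum_sub_distrib] at h2
    change _ ≤ (W - goodWt ψ K) * W at h2
    push Not at hc
    nlinarith

lemma exists_scale {W : ℝ} (h0 : (1 / 4) ^ (j + 1) < W) (h1 : W ≤ 1) :
    ∃ u : Fin (j + 1), 1 / 16 ≤ ((1 / 2 : ℝ) ^ (u : ℕ)) ^ 2 * W / (((1 / 2 : ℝ) ^ (u : ℕ)) ^ 2 + W) ^ 2 := by
  classical
  have hex : ∃ u : ℕ, (1 / 4 : ℝ) ^ (u + 1) < W := ⟨j, h0⟩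
  have hu := Nat.find_spec hex
  have hle : Nat.find hex ≤ j := Nat.find_min' hex h0
  have hW : W ≤ (1 / 4 : ℝ) ^ (Nat.find hex) := by
    rcases h : Nat.find hex with _ | u
    · simpa using h1
    · exact not_lt.1 (Nat.find_min hex (by omega))
  refine ⟨⟨Nat.find hex, by omega⟩, ?_⟩
  have h4 : ((1 / 2 : ℝ) ^ (Nat.find hex)) ^ 2 = (1 / 4) ^ (Nat.find hex) := by
    rw [← pow_mul, mul_comm, pow_mul]; norm_num
  simp only [h4]
  rw [pow_succ] at hu
  set ρ := (1 / 4 : ℝ) ^ (Nat.find hex)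
  have hρ : 0 < ρ := by positivity
  have : 0 < W := lt_trans (by positivity) h0
  rw [div_le_div_iff₀ (by norm_num) (by positivity)]
  nlinarith

lemma rej_le {S : Type} (slot : Ω → S) (hn : ∑ ω, ψ ω ^ 2 ≤ 1)
    (hel : ∀ ω ω', slot ω ≠ slot ω' → elim ω ω' ∨ elim ω' ω)
    (hslot : ∀ s, goodWt ψ (fun ω => slot ω = s) ≤ (1 / 4) ^ j) (K : Ω → Prop)
    (hKV : ∀ ω, K ω → Ver ω)
    (hK : ∀ ω κ, K κ → ¬ elim ω κ) (hKw : (1 / 4) ^ j / 2 ≤ goodWt ψ K) (r : ℕ) (h : List Ω) :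
    1 - acc j ψ elim Ver r h ≤
      (1 - 1 / (16 * (j + 1 : ℝ))) ^ r * (2 * 4 ^ j) * goodWt ψ (surv elim h) := by
  have hKs : ∀ h : List Ω, (1 / 4) ^ j / 2 ≤ goodWt ψ (surv elim h) := fun h =>
    hKw.trans (goodWt_mono ψ fun ω hω ω' _ => hK ω' ω hω)
  have hj : (0 : ℝ) < j + 1 := by positivity
  have hγ : 0 ≤ 1 - 1 / (16 * (j + 1 : ℝ)) := by
    rw [sub_nonneg, div_le_one (by positivity)]
    have : (0 : ℝ) ≤ j := by positivity
    linarith
  induction r generalizing h with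
  | zero =>
    have h1 := hKs h
    have h2 : (0 : ℝ) < 4 ^ j := by positivity
    have h3 : (1 / 4 : ℝ) ^ j * 4 ^ j = 1 := by rw [← mul_pow]; norm_num
    have h4 := ind_nonneg (∃ ω ∈ h, Ver ω)
    simp only [acc, pow_zero, one_mul]
    nlinarith
  | succ r ih =>
    rw [one_sub_acc_succ]
    set c := (1 - 1 / (16 * (j + 1 : ℝ))) ^ r * (2 * 4 ^ j) with hc
    have hc0 : 0 ≤ c := by positivity
    set W := goodWt ψ (surv elim h) with hW
    have hW0 : 0 ≤ W := goodWt_nonneg _ _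
    have hW1 : W ≤ 1 := by
      refine le_trans (Finset.sum_le_sum fun ω _ => ?_) hn
      exact mul_le_of_le_one_left (sq_nonneg _) (ind_le_one _)
    have h1 : ∀ σ : ℝ, 0 < σ → ∑ o : Option Ω,
        amp σ ψ (surv elim h) o ^ 2 * (1 - acc j ψ elim Ver r (o.toList ++ h)) ≤
        c * W * (1 - σ ^ 2 * W / (σ ^ 2 + W) ^ 2) := by
      intro σ hσ
      have hD : 0 < σ ^ 2 + W := by positivity
      rw [Fintype.sum_option]
      have h2 : ∑ ω, amp σ ψ (surv elim h) (some ω) ^ 2 *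
          (1 - acc j ψ elim Ver r ((some ω).toList ++ h)) ≤
          ∑ ω, 4 * σ ^ 2 / (σ ^ 2 + W) ^ 2 * c * (ind (surv elim h ω) * ψ ω ^ 2 *
            (ind (¬ K ω) * goodWt ψ (surv elim (ω :: h)))) := by
        refine Finset.sum_le_sum fun ω _ => ?_
        have h3 : amp σ ψ (surv elim h) (some ω) ^ 2 =
            4 * σ ^ 2 / (σ ^ 2 + W) ^ 2 * (ind (surv elim h ω) * ψ ω ^ 2) := by
          simp only [amp]
          rw [div_pow, mul_pow, mul_pow, mul_pow, ind_sq]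
          ring
        have h4 : 1 - acc j ψ elim Ver r ((some ω).toList ++ h) ≤
            c * (ind (¬ K ω) * goodWt ψ (surv elim (ω :: h))) := by
          by_cases hω : K ω
          · rw [acc_eq_one j ψ elim Ver r _ ⟨ω, by simp, hKV ω hω⟩, ind_neg (not_not.2 hω)]
            simp
          · rw [ind_pos hω, one_mul]
            exact ih _
        rw [h3]
        refine (mul_le_mul_of_nonneg_left h4 ?_).trans (le_of_eq (by ring))
        have := ind_nonneg (surv elim h ω)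
        positivity
      rw [← Finset.mul_sum] at h2
      have h3 := tournament_step ψ elim slot _ hel hslot K hK hKw h
      have h4 := mul_le_mul_of_nonneg_left h3
        (show 0 ≤ 4 * σ ^ 2 / (σ ^ 2 + W) ^ 2 * c by positivity)
      have h5 : amp σ ψ (surv elim h) none ^ 2 *
          (1 - acc j ψ elim Ver r ((none : Option Ω).toList ++ h)) ≤
          ((σ ^ 2 - W) / (σ ^ 2 + W)) ^ 2 * (c * W) :=
        mul_le_mul_of_nonneg_left (ih _) (sq_nonneg _)
      refine (add_le_add h5 (h2.trans h4)).trans (le_of_eq ?_)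
      rw [← hW]
      field_simp
      ring
    obtain ⟨u₀, hu₀⟩ := exists_scale j (W := W)
      (lt_of_lt_of_le (by rw [pow_succ]; have : (0 : ℝ) < (1 / 4) ^ j := by positivity
                          linarith) (hKs h)) hW1
    have h2 : ∑ u : Fin (j + 1), (1 - ((1 / 2 : ℝ) ^ (u : ℕ)) ^ 2 * W /
        (((1 / 2 : ℝ) ^ (u : ℕ)) ^ 2 + W) ^ 2) ≤ ((j : ℝ) + 1) - 1 / 16 := by
      rw [Finset.sum_sub_distrib]
      have h3 := Finset.single_le_sum (f := fun u : Fin (j + 1) => ((1 / 2 : ℝ) ^ (u : ℕ)) ^ 2 * W /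
        (((1 / 2 : ℝ) ^ (u : ℕ)) ^ 2 + W) ^ 2) (fun u _ => by positivity) (Finset.mem_univ u₀)
      simp only [Finset.sum_const, Finset.card_univ, Fintype.card_fin, nsmul_eq_mul, mul_one]
      push_cast
      linarith
    rw [div_le_iff₀ hj]
    refine (Finset.sum_le_sum fun u _ => h1 _ (by positivity)).trans ?_
    rw [← Finset.mul_sum]
    refine (mul_le_mul_of_nonneg_left h2 (by positivity)).trans (le_of_eq ?_)
    rw [pow_succ, hc]
    field_simp

/-- Number of rounds. -/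
def rounds (j : ℕ) : ℕ := 16 * (j + 1) * (2 * j + 5)

lemma acc_rounds_ge {S : Type} (slot : Ω → S) (hn : ∑ ω, ψ ω ^ 2 ≤ 1)
    (hel : ∀ ω ω', slot ω ≠ slot ω' → elim ω ω' ∨ elim ω' ω)
    (hslot : ∀ s, goodWt ψ (fun ω => slot ω = s) ≤ (1 / 4) ^ j) (K : Ω → Prop)
    (hKV : ∀ ω, K ω → Ver ω)
    (hK : ∀ ω κ, K κ → ¬ elim ω κ) (hKw : (1 / 4) ^ j / 2 ≤ goodWt ψ K) :
    9 / 10 ≤ acc j ψ elim Ver (rounds j) [] := by
  have h1 := rej_le j ψ elim Ver slot hn hel hslot K hKV hK hKw (rounds j) []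
  have hW1 : goodWt ψ (surv elim []) ≤ 1 := by
    refine le_trans (Finset.sum_le_sum fun ω _ => ?_) hn
    exact mul_le_of_le_one_left (sq_nonneg _) (ind_le_one _)
  have hγ : 0 ≤ 1 - 1 / (16 * (j + 1 : ℝ)) := by
    rw [sub_nonneg, div_le_one (by positivity)]
    have : (0 : ℝ) ≤ j := by positivity
    linarith
  have h2 : (1 - 1 / (16 * (j + 1 : ℝ))) ^ (16 * (j + 1)) ≤ 1 / 2 := by
    have h3 : 1 - 1 / (16 * (j + 1 : ℝ)) ≤ Real.exp (-(1 / (16 * (j + 1 : ℝ)))) := by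
      linarith [Real.add_one_le_exp (-(1 / (16 * (j + 1 : ℝ))))]
    refine (pow_le_pow_left₀ hγ h3 _).trans ?_
    rw [← Real.exp_nat_mul]
    have : ((16 * (j + 1) : ℕ) : ℝ) * -(1 / (16 * (j + 1 : ℝ))) = -1 := by
      push_cast; field_simp
    rw [this, Real.exp_neg, inv_eq_one_div, div_le_div_iff₀ (Real.exp_pos 1) (by norm_num)]
    linarith [Real.add_one_le_exp 1]
  have h3 : (1 - 1 / (16 * (j + 1 : ℝ))) ^ (rounds j) ≤ (1 / 2) ^ (2 * j + 5) := by
    rw [rounds, pow_mul]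
    exact pow_le_pow_left₀ (by positivity) h2 _
  have h4 : (1 / 2 : ℝ) ^ (2 * j + 5) * (2 * 4 ^ j) = 1 / 16 := by
    rw [pow_add, pow_mul]
    have : ((1 / 2 : ℝ) ^ 2) ^ j * 4 ^ j = 1 := by rw [← mul_pow]; norm_num
    linear_combination (1 / 16) * this
  have h5 : (1 - 1 / (16 * (j + 1 : ℝ))) ^ (rounds j) * (2 * 4 ^ j) ≤ 1 / 16 := by
    rw [← h4]
    exact mul_le_mul_of_nonneg_right h3 (by positivity)
  have h6 := mul_le_mul h5 hW1 (goodWt_nonneg _ _) (by norm_num)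
  linarith

end Analysis

section CostPart

variable {ι : Type} [Fintype ι] {Ω : Type} [Fintype Ω]

omit [Fintype Ω] in
lemma FCost.list {P : Ω → (ι → Bool) → Prop} {W : ℝ} (hP : ∀ ω, FCost (P ω) W) (h : List Ω)
    {Λ : Type} (g : (ι → Bool) → Λ)
    (hg : ∀ x y, (∀ ω ∈ h, (P ω x ↔ P ω y)) → g x = g y) : FCost g (2 * (h.length * W)) := by
  have := FCost.pi (fun (i : Fin h.length) x => P (h.get i) x) fun i => hP _
  rw [Fintype.card_fin] at this
  refine this.of_det fun x y hxy => hg x y fun ω hω => ?_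
  obtain ⟨i, rfl⟩ := List.get_of_mem hω
  exact iff_of_eq (congrFun hxy i)

lemma acc_cost (j : ℕ) (ψ : (ι → Bool) → Ω → ℝ) (elim : (ι → Bool) → Ω → Ω → Prop)
    (Ver : (ι → Bool) → Ω → Prop) {W We Wv : ℝ} (hψ : PState ψ W) (hn : ∀ x, ∑ ω, ψ x ω ^ 2 ≤ 1)
    (he : ∀ ω ω', FCost (fun x => elim x ω ω') We) (hv : ∀ ω, FCost (fun x => Ver x ω) Wv)
    (hWe : 0 ≤ We) (hWv : 0 ≤ Wv) (T r : ℕ) (h : List Ω) (hT : h.length + r ≤ T) :
    Acc (fun x => acc j (ψ x) (elim x) (Ver x) r h)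
      (r * (2 * (W + 2 * (T * We)) * 2 ^ j) + 2 * (T * Wv)) := by
  have hW := hψ.nonneg
  induction r generalizing h with
  | zero =>
    have h1 := FCost.list hv h (fun x => ∃ ω ∈ h, Ver x ω) fun x y hxy =>
      propext (exists_congr fun ω => and_congr_right fun hω => hxy ω hω)
    refine (Acc.ofFun h1).mono ?_
    have : (h.length : ℝ) ≤ T := by exact_mod_cast (by omega : h.length ≤ T)
    simp only [Nat.cast_zero, zero_mul, zero_add]
    gcongr
  | succ r ih =>
    simp only [acc]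
    refine Acc.mix (fun (u : Fin (j + 1)) x => ∑ o : Option Ω,
      amp ((1 / 2) ^ (u : ℕ)) (ψ x) (surv (elim x) h) o ^ 2 *
        acc j (ψ x) (elim x) (Ver x) r (o.toList ++ h)) fun u => ?_
    have hσ : (0 : ℝ) < (1 / 2) ^ (u : ℕ) := by positivity
    have hlen : (h.length : ℝ) ≤ T := by exact_mod_cast (by omega : h.length ≤ T)
    have h1 : ∀ ω', FCost (fun x => surv (elim x) h ω') (2 * (T * We)) := fun ω' =>
      (FCost.list (P := fun ω x => elim x ω ω') (fun ω => he ω ω') h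
        (fun x => surv (elim x) h ω') fun x y hxy =>
        propext (forall_congr' fun ω => forall_congr' fun hω => not_congr (hxy ω hω))).mono
        (by gcongr)
    have h2 := amp_cost hψ hn (fun x => surv (elim x) h) h1 (by positivity) hσ
    refine (Acc.bind _ (fun x => amp_norm hσ _ _) h2
      (fun o x => acc j (ψ x) (elim x) (Ver x) r (o.toList ++ h)) fun o => ih _ ?_).mono ?_
    · cases o <;> simp <;> omega
    · have h3 : 2 * (W + 2 * (T * We)) / (1 / 2) ^ (u : ℕ) ≤ 2 * (W + 2 * (T * We)) * 2 ^ j := by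
        rw [one_div, inv_pow, div_inv_eq_mul]
        gcongr
        · norm_num
        · omega
      push_cast
      linarith

end CostPart

end Crest.Agent.R350
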