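import Crest.Agent.R350.Forr
import Crest.Agent.R350.Tournament
import Crest.Agent.R350.Transducer

/-!
The separating function and its quantum algorithm.
-/

set_option autoImplicit false

open Finset

namespace Crest.Agent.R350

open Crest.MathPhysics.Query

/-- Positions inside a table cell: pointers and certificate numbers. -/
abbrev CellIdx (n k s B : ℕ) : Type :=
  (Cube n × Fin n) ⊕ ((Fin n × Fin s) × Fin (k + 1) × Fin (n + 1) × Cube n × Fin B)

/-- Positions inside a slot: instances, column, table. -/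
abbrev SlotIdx (n k s B : ℕ) : Type :=
  ((Fin n × Fin s) × (Fin (k + 1) × Cube n)) ⊕ Cube n ⊕ (Cube n × CellIdx n k s B)

/-- All positions. -/
abbrev Idx (n k s B : ℕ) : Type := Cube n × SlotIdx n k s B

variable {n k s B : ℕ}

/-- Instance bits. -/
def inst (x : Idx n k s B → Bool) (i : Cube n) (jj : Fin n × Fin s) :
    Fin (k + 1) × Cube n → Bool := fun q => x (i, Sum.inl (jj, q))

/-- Column bits. -/
def col (x : Idx n k s B → Bool) (i r : Cube n) : Bool := x (i, Sum.inr (Sum.inl r))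

/-- Pointers. -/
def ptr (x : Idx n k s B → Bool) (i a i' : Cube n) : Cube n :=
  fun t => x (i, Sum.inr (Sum.inr (a, Sum.inl (i', t))))

/-- Certificate numbers. -/
def num (dec : (Fin B → Bool) → ℤ) (x : Idx n k s B → Bool) (i a : Cube n) (jj : Fin n × Fin s)
    (j : Fin (k + 1)) (t : Fin (n + 1)) (c : Cube n) : ℤ :=
  dec fun b => x (i, Sum.inr (Sum.inr (a, Sum.inr (jj, j, t, c, b))))

/-- The cell `(i, a)` points to a zero of column `i'`. -/
def kills (x : Idx n k s B → Bool) (i a i' : Cube n) : Prop := col x i' (ptr x i a i') = false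

/-- The address decoded from coin outcomes. -/
noncomputable def addr (θ : ℝ) (o : Fin n × Fin s → Bool) : Cube n :=
  fun β => decide (θ * s < ∑ u, (sg (o (β, u)) : ℝ))

/-- Probability of decoding the address `a` from coins of biases `v`. -/
noncomputable def decProb (θ : ℝ) (v : Fin n × Fin s → ℝ) (a : Cube n) : ℝ :=
  ∑ o : Fin n × Fin s → Bool, ind (addr θ o = a) * ∏ jj, (1 + (sg (o jj) : ℝ) * v jj) / 2

/-- The cell `(i, a)` is a valid certificate. -/
def Ver (θ : ℝ) (dec : (Fin B → Bool) → ℤ) (x : Idx n k s B → Bool) (i a : Cube n) : Prop :=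
  (∀ r, col x i r = true) ∧ (∀ i', i' ≠ i → kills x i a i') ∧
    (∀ p : (Fin n × Fin s) × Fin (k + 1) × Cube n,
      chk0 (inst x i p.1) (num dec x i a p.1) p.2.1 p.2.2) ∧
    (∀ p : (Fin n × Fin s) × Fin (k + 1) × Fin n × Cube n,
      chkS (num dec x i a p.1) p.2.1 p.2.2.1 p.2.2.2) ∧
    2 / 3 ≤ decProb θ (fun jj =>
      (num dec x i a jj (Fin.last k) (Fin.last n) (orig n) : ℝ) / rN n ^ (k + 1 + 1)) a

/-- The separating function. -/
noncomputable def FF (θ : ℝ) (dec : (Fin B → Bool) → ℤ) (x : Idx n k s B → Bool) : Bool := by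
  classical exact decide (∃ i a, Ver θ dec x i a)

lemma FF_eq_true {θ : ℝ} {dec : (Fin B → Bool) → ℤ} {x : Idx n k s B → Bool} :
    FF θ dec x = true ↔ ∃ i a, Ver θ dec x i a := by simp [FF]

lemma Ver.decProb_ge {θ : ℝ} {dec : (Fin B → Bool) → ℤ} {x : Idx n k s B → Bool} {i a : Cube n}
    (h : Ver θ dec x i a) : 2 / 3 ≤ decProb θ (fun jj => Phi (inst x i jj)) a := by
  obtain ⟨-, -, h0, hS, h⟩ := h
  convert h using 3 with jj
  rw [fft_sound (inst x i jj) (num dec x i a jj) (fun j c => h0 (jj, j, c))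
    (fun j t c => hS (jj, j, t, c))]
  rfl

section Costs

variable {P : ℝ}

lemma num_cost (dec : (Fin B → Bool) → ℤ) (hB : (B : ℝ) ≤ P) (i a : Cube n) (jj : Fin n × Fin s)
    (j : Fin (k + 1)) (t : Fin (n + 1)) (c : Cube n) :
    FCost (fun x : Idx n k s B → Bool => num dec x i a jj j t c) (2 * P) := by
  have h := FCost.read (ι := Idx n k s B)
    fun b : Fin B => (i, Sum.inr (Sum.inr (a, Sum.inr (jj, j, t, c, b))))
  refine (h.of_det fun x y hxy => ?_).mono (by simpa using hB)
  simp only [num]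
  rw [hxy]

lemma kills_cost (hn : (n : ℝ) + 1 ≤ P) (i a i' : Cube n) :
    FCost (fun x : Idx n k s B → Bool => kills x i a i') (2 * P) := by
  have h := (FCost.read (ι := Idx n k s B)
    fun t : Fin n => (i, Sum.inr (Sum.inr (a, Sum.inl (i', t))))).adapt
    (fun r x => x (i', Sum.inr (Sum.inl r))) fun r => FCost.query _
  refine (h.of_det fun x y hxy => ?_).mono (by simpa using hn)
  simp only [Prod.mk.injEq] at hxy
  simp only [kills, col]
  exact congrArg (· = false) hxy.2

lemma ver_cost (θ : ℝ) (dec : (Fin B → Bool) → ℤ) {R : ℝ} (hR : R ^ 2 = 2 ^ n) (hR1 : 1 ≤ R)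
    (hn : (n : ℝ) + 1 ≤ P) (hs : (s : ℝ) ≤ P) (hk : (k : ℝ) + 1 ≤ P) (hB : (B : ℝ) ≤ P)
    (i a : Cube n) : FCost (fun x : Idx n k s B → Bool => Ver θ dec x i a) (360 * R * P ^ 3) := by
  have hn0 : (0 : ℝ) ≤ n := by positivity
  have hP1 : 1 ≤ P := by linarith
  have hnP : (n : ℝ) ≤ P := by linarith
  have hP3 : 1 ≤ P ^ 3 := one_le_pow₀ hP1
  have hPP : P ≤ P ^ 3 := le_self_pow₀ hP1 (by norm_num)
  have hP23 : P ^ 2 ≤ P ^ 3 := pow_le_pow_right₀ hP1 (by norm_num)
  have h1 : FCost (fun x : Idx n k s B → Bool => ∀ r, col x i r = true) (2 * (R * P ^ 3)) := by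
    refine (FCost.all (W := 2 * 1) (fun r x => col x i r = true) (fun r =>
      (FCost.query (ι := Idx n k s B) (i, Sum.inr (Sum.inl r))).of_det fun x y hxy =>
        congrArg (· = true) hxy) (s := R) (by linarith) (by norm_num) (by simp [hR])).mono ?_
    nlinarith
  have h2 : FCost (fun x : Idx n k s B → Bool => ∀ i', i' ≠ i → kills x i a i')
      (4 * (R * P ^ 3)) := by
    refine (FCost.all (W := 2 * (2 * P)) (fun i' x => i' ≠ i → kills x i a i') (fun i' =>
      (kills_cost hn i a i').of_det fun x y hxy => by rw [hxy]) (s := R) (by linarith)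
      (by positivity) (by simp [hR])).mono ?_
    nlinarith
  have h3 : FCost (fun x : Idx n k s B → Bool => ∀ p : (Fin n × Fin s) × Fin (k + 1) × Cube n,
      chk0 (inst x i p.1) (num dec x i a p.1) p.2.1 p.2.2) (10 * (R * P ^ 3)) := by
    refine (FCost.all (W := 2 * (1 + 2 * P + 2 * P)) _ (fun p => ?_) (s := R * P ^ 2)
      (by positivity) (by positivity) ?_).mono ?_
    · have hp : FCost (fun x : Idx n k s B → Bool => prev (num dec x i a p.1) p.2.1 p.2.2)
          (2 * P) := by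
        unfold prev
        split_ifs
        · exact num_cost dec hB _ _ _ _ _ _
        · exact (FCost.const _).mono (by positivity)
      refine (((FCost.query (ι := Idx n k s B) (i, Sum.inl (p.1, p.2.1, p.2.2))).pair
        (num_cost dec hB i a p.1 p.2.1 0 p.2.2)).pair hp).of_det fun x y hxy => ?_
      simp only [Prod.mk.injEq] at hxy
      simp only [chk0, inst]
      rw [hxy.1.1, hxy.1.2, hxy.2]
    · simp only [Fintype.card_prod, Fintype.card_fin, card_cube]
      push_cast
      rw [← hR]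
      calc (n : ℝ) * s * ((k + 1) * R ^ 2) ≤ P * P * (P * R ^ 2) := by gcongr
        _ = P ^ 3 * 1 * R ^ 2 := by ring
        _ ≤ P ^ 3 * P * R ^ 2 := by gcongr
        _ = _ := by ring
    · nlinarith
  have h4 : FCost (fun x : Idx n k s B → Bool =>
      ∀ p : (Fin n × Fin s) × Fin (k + 1) × Fin n × Cube n,
      chkS (num dec x i a p.1) p.2.1 p.2.2.1 p.2.2.2) (12 * (R * P ^ 3)) := by
    refine (FCost.all (W := 2 * (2 * P + 2 * P + 2 * P)) _ (fun p => ?_) (s := R * P ^ 2)
      (by positivity) (by positivity) ?_).mono (le_of_eq (by ring))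
    · refine (((num_cost dec hB i a p.1 p.2.1 p.2.2.1.succ p.2.2.2).pair
        (num_cost dec hB i a p.1 p.2.1 p.2.2.1.castSucc (Function.update p.2.2.2 p.2.2.1 false))).pair
        (num_cost dec hB i a p.1 p.2.1 p.2.2.1.castSucc
          (Function.update p.2.2.2 p.2.2.1 true))).of_det fun x y hxy => ?_
      simp only [Prod.mk.injEq] at hxy
      simp only [chkS]
      rw [hxy.1.1, hxy.1.2, hxy.2]
    · simp only [Fintype.card_prod, Fintype.card_fin, card_cube]
      push_cast
      rw [← hR]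
      calc (n : ℝ) * s * ((k + 1) * (n * R ^ 2)) ≤ P * P * (P * (P * R ^ 2)) := by gcongr
        _ = _ := by ring
  have h5 : FCost (fun x : Idx n k s B → Bool => 2 / 3 ≤ decProb θ (fun jj =>
      (num dec x i a jj (Fin.last k) (Fin.last n) (orig n) : ℝ) / rN n ^ (k + 1 + 1)) a)
      (4 * (R * P ^ 3)) := by
    refine ((FCost.pi (fun (jj : Fin n × Fin s) (x : Idx n k s B → Bool) =>
      num dec x i a jj (Fin.last k) (Fin.last n) (orig n))
      fun jj => num_cost dec hB _ _ _ _ _ _).of_det fun x y hxy => ?_).mono ?_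
    · simp only [funext_iff] at hxy
      simp only [hxy]
    · simp only [Fintype.card_prod, Fintype.card_fin]
      push_cast
      calc 2 * ((n : ℝ) * s * (2 * P)) ≤ 2 * (P * P * (2 * P)) := by gcongr
        _ = 4 * (1 * P ^ 3) := by ring
        _ ≤ _ := by gcongr
  refine (h1.and (h2.and (h3.and (h4.and h5)))).mono ?_
  have : 0 ≤ R * P ^ 3 := by positivity
  nlinarith

end Costs

lemma Acc.reindex {ι ι' : Type} [Fintype ι] [Fintype ι'] {q : (ι → Bool) → ℝ} {W : ℝ}
    (h : Acc q W) (e : ι ≃ ι') : Acc (fun x : ι' → Bool => q fun i => x (e i)) W := by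
  obtain ⟨Ω, _, τ, out, h1, ⟨κ, _, u, v, h2, hu, hv⟩, h3⟩ := h
  refine ⟨Ω, inferInstance, fun x => τ fun i => x (e i), out, fun x => h1 _,
    ⟨κ, inferInstance, fun x i => u (fun i => x (e i)) (e.symm i),
      fun x i => v (fun i => x (e i)) (e.symm i), fun x y => ?_, fun x => ?_, fun x => ?_⟩,
    fun x => h3 _⟩
  · rw [← e.sum_comp]
    simpa using h2 _ _
  · rw [← e.sum_comp]
    simpa using hu _
  · rw [← e.sum_comp]
    simpa using hv _

/-- The candidate state. -/
noncomputable def cand (j : ℕ) (x : Idx n k s B → Bool)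
    (ω : Cube n × (Fin n × Fin s → Bool × Cube n)) : ℝ :=
  (1 / 2) ^ j * ∏ jj, coin (inst x ω.1 jj) (ω.2 jj)

lemma cand_wt (j : ℕ) (x : Idx n k s B → Bool) (i : Cube n) (g : (Fin n × Fin s → Bool) → Prop) :
    goodWt (cand j x) (fun ω => ω.1 = i ∧ g fun jj => (ω.2 jj).1) =
      (1 / 4) ^ j * ∑ o : Fin n × Fin s → Bool,
        ind (g o) * ∏ jj, (1 + (sg (o jj) : ℝ) * Phi (inst x i jj)) / 2 := by
  rw [goodWt, Fintype.sum_prod_type, Finset.sum_eq_single i]
  · rw [← (Equiv.arrowProdEquivProdArrow _ _ _).symm.sum_comp, Fintype.sum_prod_type,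
      Finset.mul_sum]
    refine Finset.sum_congr rfl fun o _ => ?_
    simp only [← coin_marginal]
    rw [Finset.prod_univ_sum, Fintype.piFinset_univ, Finset.mul_sum, Finset.mul_sum]
    refine Finset.sum_congr rfl fun c _ => ?_
    simp only [cand, Equiv.arrowProdEquivProdArrow_symm_apply, true_and, mul_pow,
      Finset.prod_pow]
    rw [← pow_mul, mul_comm j 2, pow_mul]
    norm_num
    ring
  · intro i' _ hi'
    simp [hi', ind]
  · simp

lemma coins_sum (v : Fin n × Fin s → ℝ) :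
    ∑ o : Fin n × Fin s → Bool, ∏ jj, (1 + (sg (o jj) : ℝ) * v jj) / 2 = 1 := by
  rw [← Fintype.piFinset_univ, ← Finset.prod_univ_sum (fun _ => Finset.univ)
    (fun jj b => (1 + (sg b : ℝ) * v jj) / 2)]
  refine Finset.prod_eq_one fun jj _ => ?_
  simp [sg]; ring

theorem quantum_upper (j : ℕ) (hj : n = 2 * j) (θ : ℝ) (dec : (Fin B → Bool) → ℤ) (P : ℕ)
    (hn : n + 1 ≤ P) (hs : s ≤ P) (hk : k + 1 ≤ P) (hB : B ≤ P)
    {n' : ℕ} (e : Idx n k s B ≃ Fin n') :
    QuantumComputes (fun x : Fin n' → Bool => FF θ dec fun i => x (e i))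
      (50000000 * 2 ^ j * P ^ 5) := by
  classical
  have hn' : 0 < n' := Fin.pos (e (orig n, Sum.inr (Sum.inl (orig n))))
  have hnr : (n : ℝ) + 1 ≤ P := by exact_mod_cast hn
  have hsr : (s : ℝ) ≤ P := by exact_mod_cast hs
  have hkr : (k : ℝ) + 1 ≤ P := by exact_mod_cast hk
  have hBr : (B : ℝ) ≤ P := by exact_mod_cast hB
  have hn0 : (0 : ℝ) ≤ n := by positivity
  have hP1 : (1 : ℝ) ≤ P := by linarith
  have hR : ((2 : ℝ) ^ j) ^ 2 = 2 ^ n := by rw [hj, ← pow_mul, mul_comm]
  have hR1 : (1 : ℝ) ≤ 2 ^ j := one_le_pow₀ (by norm_num)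
  let Ω := Cube n × (Fin n × Fin s → Bool × Cube n)
  let ad : Ω → Cube n := fun ω => addr θ fun jj => (ω.2 jj).1
  let elim : (Idx n k s B → Bool) → Ω → Ω → Prop := fun x ω ω' =>
    ω.1 ≠ ω'.1 ∧ (kills x ω.1 (ad ω) ω'.1 ∨ ¬ kills x ω'.1 (ad ω') ω.1)
  let V : (Idx n k s B → Bool) → Ω → Prop := fun x ω => Ver θ dec x ω.1 (ad ω)
  have hunif : ∑ _i : Cube n, ((1 / 2 : ℝ) ^ j) ^ 2 = 1 := by
    simp only [Finset.sum_const, Finset.card_univ, card_cube, nsmul_eq_mul]
    push_cast
    rw [← hR, ← mul_pow, ← mul_pow]; norm_num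
  have hcn : ∀ (i : Cube n) (x : Idx n k s B → Bool),
      ∑ ω : Fin n × Fin s → Bool × Cube n, (∏ jj, coin (inst x i jj) (ω jj)) ^ 2 = 1 := by
    intro i x
    rw [sum_prod_sq fun jj ω => coin (inst x i jj) ω]
    simp [coin_norm]
  have hψ : PState (cand (n := n) (k := k) (s := s) (B := B) j) (4 * P ^ 3) := by
    have h1 := (PState.const (ι := Idx n k s B) (fun _ : Cube n => (1 / 2 : ℝ) ^ j)).bind
      (fun _ => hunif.le)
      (fun i x (ω : Fin n × Fin s → Bool × Cube n) => ∏ jj, coin (inst x i jj) (ω jj))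
      (fun i => PState.pi (fun jj x => coin (inst x i jj))
        (fun jj => coin_pstate (ι := Idx n k s B) fun q => (i, Sum.inl (jj, q)))
        (fun jj x => (coin_norm _).le) (by positivity))
      (fun i x => (hcn i x).le) (by positivity)
    refine PState.mono h1 ?_
    simp only [Fintype.card_prod, Fintype.card_fin]
    push_cast
    calc 0 + (n : ℝ) * s * (4 * (k + 1)) ≤ 0 + P * P * (4 * P) := by gcongr; linarith
      _ = _ := by ring
  have hnorm : ∀ x : Idx n k s B → Bool, ∑ ω : Ω, cand j x ω ^ 2 ≤ 1 := by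
    intro x
    rw [Fintype.sum_prod_type]
    simp only [cand, mul_pow, ← Finset.mul_sum, hcn, mul_one, hunif, le_refl]
  have he : ∀ ω ω', FCost (fun x => elim x ω ω') (8 * P) := by
    intro ω ω'
    refine (((kills_cost hnr ω.1 (ad ω) ω'.1).pair (kills_cost hnr ω'.1 (ad ω') ω.1)).of_det
      fun x y hxy => ?_).mono (le_of_eq (by ring))
    simp only [Prod.mk.injEq] at hxy
    simp only [elim]
    rw [hxy.1, hxy.2]
  have hacc := (acc_cost j (cand j) elim V hψ hnorm he
    (fun ω => ver_cost θ dec hR hR1 hnr hsr hkr hBr ω.1 (ad ω)) (by positivity) (by positivity)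
    (rounds j) (rounds j) [] (by simp)).reindex e
  refine quantumComputes_of_acc hn' _ _ _ hacc (fun x hx => ?_) (fun x hx => ?_) _
    (by have : 0 < P := by omega
        positivity) ?_
  · obtain ⟨b, a, hv⟩ := FF_eq_true.1 hx
    set y : Idx n k s B → Bool := fun i => x (e i)
    refine acc_rounds_ge j (cand j y) (elim y) (V y) (fun ω => ω.1) (hnorm y)
      (fun ω ω' h => ?_) (fun i => ?_) (fun ω => ω.1 = b ∧ ad ω = a) (fun ω hω => ?_)
      (fun ω κ hκ => ?_) ?_
    · by_cases h1 : kills y ω.1 (ad ω) ω'.1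
      · exact Or.inl ⟨h, Or.inl h1⟩
      · exact Or.inr ⟨Ne.symm h, Or.inr h1⟩
    · have := cand_wt j y i fun _ => True
      simp only [and_true, ind_pos True.intro, one_mul, coins_sum, mul_one] at this
      exact this.le
    · simp only [V]; rw [hω.1, hω.2]; exact hv
    · rintro ⟨h1, h2 | h2⟩
      · rw [kills, hκ.1, hv.1] at h2
        exact absurd h2 (by simp)
      · rw [hκ.1, hκ.2] at h2
        exact h2 (hv.2.1 _ (hκ.1 ▸ h1))
    · have h1 := cand_wt j y b fun o => addr θ o = a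
      have h2 := hv.decProb_ge
      rw [decProb] at h2
      refine le_trans ?_ (le_of_eq h1.symm)
      have : (0 : ℝ) < (1 / 4) ^ j := by positivity
      nlinarith
  · rw [acc_eq_zero]
    · norm_num
    · intro ω hω
      have := FF_eq_true.2 ⟨_, _, hω⟩
      rw [hx] at this
      exact absurd this (by simp)
  · have hT : (rounds j : ℝ) ≤ 80 * P ^ 2 := by
      rw [rounds]
      push_cast
      have h1 : (n : ℝ) = 2 * j := by rw [hj]; push_cast; ring
      have h2 : (0 : ℝ) ≤ j := by positivity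
      calc 16 * ((j : ℝ) + 1) * (2 * j + 5) ≤ 16 * P * (5 * P) := by gcongr <;> linarith
        _ = _ := by ring
    push_cast
    calc 160 * ((rounds j : ℝ) * (2 * (4 * P ^ 3 + 2 * (rounds j * (8 * P))) * 2 ^ j) +
          2 * (rounds j * (360 * 2 ^ j * P ^ 3)))
        ≤ 160 * ((80 * P ^ 2) * (2 * (4 * P ^ 3 + 2 * ((80 * P ^ 2) * (8 * P))) * 2 ^ j) +
          2 * ((80 * P ^ 2) * (360 * 2 ^ j * P ^ 3))) := by gcongr
      _ = 42086400 * (2 ^ j * (P : ℝ) ^ 5) := by ring
      _ ≤ 50000000 * (2 ^ j * (P : ℝ) ^ 5) := by gcongr; norm_num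
      _ = _ := by ring

end Crest.Agent.R350
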