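import Crest.Agent.R350.Chain

/-!
Hardness of the `k`-fold Forrelation problem for shallow decision trees.
-/

set_option autoImplicit false

open Finset MeasureTheory ProbabilityTheory MvPolynomial

namespace Crest.Agent.R350

variable {n k : ℕ}

/-- Truncation to `[-1, 1]`. -/
noncomputable def trunc (u : ℝ) : ℝ := max (-1) (min 1 u)

lemma abs_trunc_le (u : ℝ) : |trunc u| ≤ 1 :=
  abs_le.2 ⟨le_max_left _ _, max_le (by norm_num) (min_le_left _ _)⟩

lemma trunc_eq {u : ℝ} (h : |u| ≤ 1) : trunc u = u := by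
  have := abs_le.1 h
  rw [trunc, min_eq_right this.2, max_eq_right this.1]

lemma continuous_trunc : Continuous trunc := by unfold trunc; fun_prop

/-- Control polynomial attached to a family of polynomials. -/
noncomputable def AP (J : ℕ) (W : Fin k × Cube n → MvPolynomial (Fin k × Cube n) ℝ) :
    MvPolynomial (Fin k × Cube n) ℝ := ∏ p, (1 + (C 2 * W p) ^ (2 * J))

/-- The control polynomial. -/
noncomputable def ThP (n k : ℕ) (τ : ℝ) (J : ℕ) : MvPolynomial (Fin k × Cube n) ℝ :=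
  AP J (XP τ) * AP J (YP τ)

lemma eval_AP (J : ℕ) (W : Fin k × Cube n → MvPolynomial (Fin k × Cube n) ℝ)
    (X : Fin k × Cube n → ℝ) : eval X (AP J W) = ∏ p, (1 + (2 * eval X (W p)) ^ (2 * J)) := by
  simp [AP]

lemma one_le_fac (J : ℕ) (u : ℝ) : 1 ≤ 1 + (2 * u) ^ (2 * J) := by
  rw [pow_mul]; exact le_add_of_nonneg_right (by positivity)

lemma one_le_prod_real {α : Type*} (s : Finset α) (f : α → ℝ) (h : ∀ a ∈ s, 1 ≤ f a) :
    1 ≤ ∏ a ∈ s, f a := by
  calc (1 : ℝ) = ∏ _a ∈ s, 1 := by simp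
    _ ≤ _ := Finset.prod_le_prod (fun _ _ => zero_le_one) h

lemma one_le_AP (J : ℕ) (W : Fin k × Cube n → MvPolynomial (Fin k × Cube n) ℝ)
    (X : Fin k × Cube n → ℝ) : 1 ≤ eval X (AP J W) := by
  rw [eval_AP]
  exact one_le_prod_real _ _ fun p _ => one_le_fac _ _

lemma one_le_ThP (τ : ℝ) (J : ℕ) (X : Fin k × Cube n → ℝ) : 1 ≤ eval X (ThP n k τ J) := by
  rw [ThP, map_mul]
  exact one_le_mul_of_one_le_of_one_le (one_le_AP _ _ _) (one_le_AP _ _ _)

lemma max_le_fac {J : ℕ} (hJ : 0 < J) (u : ℝ) : max 1 |u| ≤ 1 + (2 * u) ^ (2 * J) := by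
  refine max_le (one_le_fac J u) ?_
  rcases le_total |u| 1 with h | h
  · exact h.trans (one_le_fac J u)
  · rw [← (even_two_mul J).pow_abs, abs_mul, abs_two]
    have h1 : 1 ≤ 2 * |u| := by linarith
    have h2 : 2 * |u| ≤ (2 * |u|) ^ (2 * J) := le_self_pow₀ h1 (by omega)
    linarith

lemma abs_le_half_of_AP {J : ℕ} (hJ : 0 < J) (W : Fin k × Cube n → MvPolynomial (Fin k × Cube n) ℝ)
    (X : Fin k × Cube n → ℝ) (h : eval X (AP J W) < 2) (p : Fin k × Cube n) :
    |eval X (W p)| ≤ 1 / 2 := by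
  classical
  rw [eval_AP, ← Finset.mul_prod_erase _ _ (Finset.mem_univ p)] at h
  have h1 : 1 ≤ ∏ p ∈ Finset.univ.erase p, (1 + (2 * eval X (W p)) ^ (2 * J)) :=
    one_le_prod_real _ _ fun p _ => one_le_fac _ _
  have h2 := one_le_fac J (eval X (W p))
  have h3 : (2 * eval X (W p)) ^ (2 * J) < 1 := by nlinarith
  rw [← (even_two_mul J).pow_abs, pow_lt_one_iff_of_nonneg (abs_nonneg _) (by omega), abs_mul,
    abs_two] at h3
  linarith

lemma prod_max_le_ThP (τ : ℝ) {J : ℕ} (hJ : 0 < J) (t : Cube n → ℝ) (ht : ∀ c, |t c| ≤ 1)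
    (X : Fin k × Cube n → ℝ) : ∏ i, max 1 |eval X (Zp τ t i)| ≤ eval X (ThP n k τ J) := by
  have h1 : ∏ i, max 1 |eval X (Zp τ t i)| ≤ ∏ i : Fin (k + 1) × Cube n,
      max 1 |eval X (Rp τ i.1 i.2)| * max 1 |eval X (Lp τ t i.1 i.2)| := by
    refine Finset.prod_le_prod (fun i _ => by positivity) fun i _ => ?_
    rw [Zp, map_mul, abs_mul, mul_comm]
    refine max_le (one_le_mul_of_one_le_of_one_le (le_max_left _ _) (le_max_left _ _)) ?_
    exact mul_le_mul (le_max_right _ _) (le_max_right _ _) (abs_nonneg _) (by positivity)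
  refine h1.trans ?_
  rw [Finset.prod_mul_distrib, ThP, map_mul, eval_AP, eval_AP]
  refine mul_le_mul ?_ ?_ (Finset.prod_nonneg fun _ _ => by positivity)
    (Finset.prod_nonneg fun p _ => zero_le_one.trans (one_le_fac _ _))
  · rw [Fintype.prod_prod_type, Fin.prod_univ_castSucc, Fintype.prod_prod_type]
    simp only [Rp, Fin.lastCases_castSucc, Fin.lastCases_last, map_one, abs_one, max_self,
      Finset.prod_const_one, mul_one]
    exact Finset.prod_le_prod (fun _ _ => Finset.prod_nonneg fun _ _ => by positivity) fun j _ =>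
      Finset.prod_le_prod (fun _ _ => by positivity) fun c _ => max_le_fac hJ _
  · rw [Fintype.prod_prod_type, Fin.prod_univ_succ, Fintype.prod_prod_type]
    simp only [Lp, Fin.cases_zero, Fin.cases_succ, eval_C, max_eq_left (ht _),
      Finset.prod_const_one, one_mul]
    exact Finset.prod_le_prod (fun _ _ => Finset.prod_nonneg fun _ _ => by positivity) fun j _ =>
      Finset.prod_le_prod (fun _ _ => by positivity) fun c _ => max_le_fac hJ _

lemma abs_Zp_le (hk : 0 < k) (τ : ℝ) {J : ℕ} (hJ : 0 < J) (t : Cube n → ℝ) (ht : ∀ c, |t c| ≤ 1)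
    (X : Fin k × Cube n → ℝ) (h : eval X (ThP n k τ J) < 2) (i : Fin (k + 1) × Cube n) :
    |eval X (Zp τ t i)| ≤ 1 / 2 := by
  rw [ThP, map_mul] at h
  have h1 := one_le_AP J (XP τ) X
  have h2 := one_le_AP J (YP τ) X
  have hX := abs_le_half_of_AP hJ (XP τ) X (by nlinarith)
  have hY := abs_le_half_of_AP hJ (YP τ) X (by nlinarith)
  obtain ⟨j, c⟩ := i
  rw [Zp, map_mul, abs_mul]
  induction j using Fin.cases with
  | zero =>
    have : (0 : Fin (k + 1)) = (⟨0, hk⟩ : Fin k).castSucc := rfl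
    have h3 : |eval X (Rp τ 0 c)| ≤ 1 / 2 := by
      rw [this, Rp, Fin.lastCases_castSucc]; exact hX (⟨0, hk⟩, c)
    have h4 : |eval X (Lp τ t 0 c)| ≤ 1 := by simpa [Lp] using ht c
    nlinarith [abs_nonneg (eval X (Rp τ 0 c)), abs_nonneg (eval X (Lp τ t 0 c))]
  | succ j =>
    have h3 : ∀ j' : Fin (k + 1), |eval X (Rp τ j' c)| ≤ 1 := by
      intro j'
      induction j' using Fin.lastCases with
      | last => simp [Rp]
      | cast j' =>
        simp only [Rp, Fin.lastCases_castSucc]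
        linarith [hX (j', c)]
    have h4 : |eval X (Lp τ t j.succ c)| ≤ 1 / 2 := by simpa [Lp] using hY (j, c)
    nlinarith [abs_nonneg (eval X (Rp τ j.succ c)), abs_nonneg (eval X (Lp τ t j.succ c)),
      h3 j.succ]

lemma EP_mono {σ : Type} [Fintype σ] {P Q : MvPolynomial σ ℝ} (h : ∀ X, eval X P ≤ eval X Q) :
    EP P ≤ EP Q := integral_mono (integrable_poly P) (integrable_poly Q) h

lemma EP_one {σ : Type} [Fintype σ] : EP (1 : MvPolynomial σ ℝ) = 1 := by simp [EP]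

lemma EP_ThP_le (τ : ℝ) {J : ℕ} (hτ : τ ^ 2 * (32 * J) ≤ 1) :
    EP (ThP n k τ J) ≤ (1 + 3 / 4 ^ J) ^ (k * 2 ^ n) := by
  classical
  have h1 : EP (AP J (YP τ) ^ 2 : MvPolynomial (Fin k × Cube n) ℝ) =
      EP (AP J (XP τ) ^ 2 : MvPolynomial (Fin k × Cube n) ℝ) := by
    have := gauss_invariant (σ := Fin k × Cube n)
      (fun p q => if p.1 = q.1 then hadR p.2 q.2 else 0) (fun v => by
        simp only [Fintype.sum_prod_type, ite_mul, zero_mul]
        refine Finset.sum_congr rfl fun j _ => ?_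
        rw [← hadR_sq_sum fun d => v (j, d)]
        refine Finset.sum_congr rfl fun c _ => ?_
        rw [Finset.sum_comm]
        simp)
      (fun X => eval X (AP J (XP τ) ^ 2)) (MvPolynomial.continuous_eval _)
    rw [EP, EP, ← this]
    refine integral_congr_ae (Filter.Eventually.of_forall fun X => ?_)
    simp only [map_pow, eval_AP, XP, YP, map_mul, eval_C, eval_X, map_sum]
    congr 1
    refine Finset.prod_congr rfl fun p _ => ?_
    rw [Fintype.sum_prod_type, Finset.sum_comm]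
    simp
  have h2 : EP (ThP n k τ J) ≤ EP (AP J (XP τ) ^ 2 : MvPolynomial (Fin k × Cube n) ℝ) := by
    have h3 : EP (ThP n k τ J) ≤ EP (C (1 / 2) * (AP J (XP τ) ^ 2 + AP J (YP τ) ^ 2) :
        MvPolynomial (Fin k × Cube n) ℝ) := EP_mono fun X => by
      simp only [ThP, map_mul, map_add, map_pow, eval_C]
      nlinarith [sq_nonneg (eval X (AP J (XP τ)) - eval X (AP J (YP τ)))]
    rw [EP_C_mul, EP_add, h1] at h3
    linarith
  refine h2.trans ?_
  have h3 : EP (AP J (XP τ) ^ 2 : MvPolynomial (Fin k × Cube n) ℝ) =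
      (∫ x, (1 + (2 * (τ * x)) ^ (2 * J)) ^ 2 ∂(gaussianReal 0 1)) ^ (k * 2 ^ n) := by
    simp only [EP, map_pow, eval_AP, XP, map_mul, eval_C, eval_X, ← Finset.prod_pow]
    rw [integral_fintype_prod_eq_prod
      (f := fun (_ : Fin k × Cube n) (x : ℝ) => (1 + (2 * (τ * x)) ^ (2 * J)) ^ 2)]
    simp
  rw [h3]
  refine pow_le_pow_left₀ (integral_nonneg fun x => sq_nonneg _) ?_ _
  have h4 : ∀ x : ℝ, (1 + (2 * (τ * x)) ^ (2 * J)) ^ 2 =
      1 + (2 * (4 * τ ^ 2) ^ J * x ^ (2 * J) + (4 * τ ^ 2) ^ (2 * J) * x ^ (2 * (2 * J))) := by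
    intro x
    have : (2 * (τ * x)) ^ (2 * J) = (4 * τ ^ 2) ^ J * x ^ (2 * J) := by
      rw [pow_mul, pow_mul, ← mul_pow]; congr 1; ring
    rw [this, mul_comm 2 (2 * J), pow_mul x (2 * J) 2, mul_comm 2 J, pow_mul (4 * τ ^ 2) J 2]
    ring
  simp only [h4]
  rw [integral_add (integrable_const _) (((integrable_pow_gauss _).const_mul _).fun_add
    ((integrable_pow_gauss _).const_mul _)), integral_add ((integrable_pow_gauss _).const_mul _)
    ((integrable_pow_gauss _).const_mul _), integral_const_mul, integral_const_mul]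
  simp only [integral_const, probReal_univ, smul_eq_mul, mul_one]
  change 1 + (2 * (4 * τ ^ 2) ^ J * gm (2 * J) + (4 * τ ^ 2) ^ (2 * J) * gm (2 * (2 * J))) ≤ _
  have h5 : (4 * τ ^ 2) ^ J * gm (2 * J) ≤ 1 / 4 ^ J := by
    calc (4 * τ ^ 2) ^ J * gm (2 * J) ≤ (4 * τ ^ 2) ^ J * (2 * J) ^ J := by
          gcongr; exact gm_even_le J
      _ = (4 * τ ^ 2 * (2 * J)) ^ J := by rw [← mul_pow]
      _ ≤ (1 / 4) ^ J := by gcongr; linarith
      _ = _ := by rw [div_pow, one_pow]
  have h6 : (4 * τ ^ 2) ^ (2 * J) * gm (2 * (2 * J)) ≤ 1 / 4 ^ J := by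
    calc (4 * τ ^ 2) ^ (2 * J) * gm (2 * (2 * J))
          ≤ (4 * τ ^ 2) ^ (2 * J) * (2 * (2 * J : ℕ)) ^ (2 * J) := by
          gcongr; exact gm_even_le (2 * J)
      _ = (4 * τ ^ 2 * (2 * (2 * J : ℕ))) ^ (2 * J) := by rw [← mul_pow]
      _ ≤ (1 / 2) ^ (2 * J) := by gcongr; push_cast; linarith
      _ = _ := by rw [pow_mul, div_pow, one_pow, div_pow, one_pow]; norm_num
  have h7 : (3 : ℝ) / 4 ^ J = 3 * (1 / 4 ^ J) := by ring
  linarith

/-- The input distribution obtained by rounding the truncated biases. -/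
noncomputable def mu (τ : ℝ) (t : Cube n → ℝ) (x : Fin (k + 1) × Cube n → Bool) : ℝ :=
  ∫ X, ∏ i, (1 + (sg (x i) : ℝ) * trunc (eval X (Zp τ t i))) / 2 ∂(gauss (Fin k × Cube n))

lemma mu_fac_nonneg (b : Bool) (u : ℝ) : 0 ≤ (1 + (sg b : ℝ) * trunc u) / 2 := by
  have := abs_le.1 (abs_trunc_le u)
  cases b <;> simp [sg] <;> linarith

lemma mu_fac_le (b : Bool) (u : ℝ) : (1 + (sg b : ℝ) * trunc u) / 2 ≤ 1 := by
  have := abs_le.1 (abs_trunc_le u)
  cases b <;> simp [sg] <;> linarith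

lemma mu_nonneg (τ : ℝ) (t : Cube n → ℝ) (x : Fin (k + 1) × Cube n → Bool) : 0 ≤ mu τ t x :=
  integral_nonneg fun _ => Finset.prod_nonneg fun _ _ => mu_fac_nonneg _ _

lemma integrable_mu (τ : ℝ) (t : Cube n → ℝ) (x : Fin (k + 1) × Cube n → Bool) :
    Integrable (fun X => ∏ i, (1 + (sg (x i) : ℝ) * trunc (eval X (Zp τ t i))) / 2)
      (gauss (Fin k × Cube n)) := by
  refine Integrable.of_bound (C := 1) (Continuous.aestronglyMeasurable ?_)
    (Filter.Eventually.of_forall fun X => ?_)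
  · refine continuous_finsetProd _ fun i _ => ?_
    exact (continuous_const.add (continuous_const.mul
      (continuous_trunc.comp (MvPolynomial.continuous_eval _)))).div_const _
  · rw [Real.norm_eq_abs, abs_of_nonneg (Finset.prod_nonneg fun _ _ => mu_fac_nonneg _ _)]
    exact Finset.prod_le_one (fun _ _ => mu_fac_nonneg _ _) fun _ _ => mu_fac_le _ _

lemma integrable_Dz_trunc (τ : ℝ) (t : Cube n → ℝ) (f : (Fin (k + 1) × Cube n → Bool) → ℝ) :
    Integrable (fun X => Dz (fun i => trunc (eval X (Zp τ t i))) ∅ f) (gauss (Fin k × Cube n)) := by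
  simp only [Dz, Finset.notMem_empty, if_false]
  exact integrable_finsetSum _ fun x _ => (integrable_mu τ t x).const_mul _

lemma sum_mu (τ : ℝ) (t : Cube n → ℝ) (f : (Fin (k + 1) × Cube n → Bool) → ℝ) :
    ∑ x, mu τ t x * f x =
      ∫ X, Dz (fun i => trunc (eval X (Zp τ t i))) ∅ f ∂(gauss (Fin k × Cube n)) := by
  simp only [Dz, Finset.notMem_empty, if_false]
  rw [integral_finsetSum _ fun x _ => (integrable_mu τ t x).const_mul _]
  refine Finset.sum_congr rfl fun x _ => ?_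
  rw [integral_const_mul, mul_comm, mu]

lemma sum_mu_one (τ : ℝ) (t : Cube n → ℝ) : ∑ x : Fin (k + 1) × Cube n → Bool, mu τ t x = 1 := by
  have := sum_mu (k := k) τ t fun _ => 1
  simpa [Dz_const] using this

lemma abs_integral_le_ThP (τ : ℝ) (J : ℕ) (g : (Fin k × Cube n → ℝ) → ℝ) (B D : ℝ)
    (h : ∀ X, |g X| ≤ B + D * (eval X (ThP n k τ J) - 1)) :
    |∫ X, g X ∂(gauss (Fin k × Cube n))| ≤ B + D * (EP (ThP n k τ J) - 1) := by
  have h1 : B + D * (EP (ThP n k τ J) - 1) = EP (C B * 1 + C D * (ThP n k τ J - 1)) := by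
    rw [EP_add, EP_C_mul, EP_C_mul, EP_sub, EP_one, mul_one]
  rw [h1, ← Real.norm_eq_abs]
  refine norm_integral_le_of_norm_le (integrable_poly _) (Filter.Eventually.of_forall fun X => ?_)
  simpa using h X

lemma trunc_err (hk : 0 < k) (τ : ℝ) {J : ℕ} (hJ : 0 < J) (t : Cube n → ℝ) (ht : ∀ c, |t c| ≤ 1)
    (f : (Fin (k + 1) × Cube n → Bool) → ℝ) (hf : ∀ x, |f x| ≤ 1) :
    |∑ x, mu τ t x * f x - EP (DP (Zp τ t) ∅ f)| ≤ 4 * (EP (ThP n k τ J) - 1) := by
  rw [sum_mu, EP, ← integral_sub (integrable_Dz_trunc τ t f) (integrable_poly _),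
    ← zero_add (4 * _)]
  refine abs_integral_le_ThP τ J _ 0 4 fun X => ?_
  have h1 := one_le_ThP τ J X
  rw [eval_DP]
  by_cases h : eval X (ThP n k τ J) < 2
  · have : (fun i => trunc (eval X (Zp τ t i))) = fun i => eval X (Zp τ t i) := by
      ext i
      exact trunc_eq ((abs_Zp_le hk τ hJ t ht X h i).trans (by norm_num))
    rw [this, sub_self, abs_zero]
    linarith
  · have h2 := (abs_Dz_le (fun i => eval X (Zp τ t i)) ∅ f hf).trans (prod_max_le_ThP τ hJ t ht X)
    have h3 := abs_Dz_le (fun i => trunc (eval X (Zp τ t i))) ∅ f hf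
    simp only [max_eq_left (abs_trunc_le _), Finset.prod_const_one] at h3
    have h4 := abs_sub (Dz (fun i => trunc (eval X (Zp τ t i))) ∅ f)
      (Dz (fun i => eval X (Zp τ t i)) ∅ f)
    push Not at h
    linarith

/-- Sign pattern of a hybrid. -/
noncomputable def sgnOf (A : Finset (Cube n)) (c : Cube n) : ℝ := if c ∈ A then 1 else -1

lemma abs_sgnOf (A : Finset (Cube n)) (c : Cube n) : |sgnOf A c| ≤ 1 := by
  unfold sgnOf; split_ifs <;> simp

lemma hybrid_step (τ : ℝ) (A : Finset (Cube n)) (a₀ : Cube n) (ha : a₀ ∉ A)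
    (f : (Fin (k + 1) × Cube n → Bool) → ℝ) :
    EP (DP (Zp τ (sgnOf (insert a₀ A))) ∅ f) - EP (DP (Zp τ (sgnOf A)) ∅ f) =
      2 * τ ^ (2 * k) * ∑ a : Fin k → Cube n, pathWt (Fin.cons a₀ a) *
        EP (DP (Zp τ (sgnOf A)) (pathSet (Fin.cons a₀ a) (Fin.last k)) f) := by
  rw [mul_assoc, ← chain, ← EP_sub, ← EP_C_mul]
  refine integral_congr_ae (Filter.Eventually.of_forall fun X => ?_)
  simp only [map_sub, map_mul, eval_DP, eval_C]
  rw [Dz_sub _ _ (0, a₀)]
  · simp only [Zp, Lp, Fin.cases_zero, map_mul, eval_C, sgnOf, Finset.mem_insert_self, if_true,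
      if_neg ha]
    ring
  · rintro ⟨j, c⟩ h
    induction j using Fin.cases with
    | zero =>
      have : c ≠ a₀ := fun h' => h (by rw [h'])
      simp [Zp, Lp, sgnOf, this]
    | succ j => simp [Zp, Lp]

lemma telescope (φ : Finset (Cube n) → ℝ) (lo hi : ℝ)
    (h : ∀ A a, a ∉ A → lo ≤ φ (insert a A) - φ A ∧ φ (insert a A) - φ A ≤ hi) :
    2 ^ n * lo ≤ φ Finset.univ - φ ∅ ∧ φ Finset.univ - φ ∅ ≤ 2 ^ n * hi := by
  have key : ∀ A : Finset (Cube n), A.card * lo ≤ φ A - φ ∅ ∧ φ A - φ ∅ ≤ A.card * hi := by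
    intro A
    induction A using Finset.induction_on with
    | empty => simp
    | insert a A ha ih =>
      rw [Finset.card_insert_of_notMem ha]
      push_cast
      have := h A a ha
      constructor <;> linarith [ih.1, ih.2, this.1, this.2]
  simpa using key Finset.univ

lemma gap_Phi (τ : ℝ) :
    EP (DP (Zp τ (sgnOf (n := n) Finset.univ)) ∅ (Phi (k := k + 1))) -
      EP (DP (Zp τ (sgnOf (n := n) ∅)) ∅ (Phi (k := k + 1))) = 2 * τ ^ (2 * k) := by
  have h := telescope (fun A => EP (DP (Zp τ (sgnOf (n := n) A)) ∅ (Phi (k := k + 1))))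
    (2 * τ ^ (2 * k) / 2 ^ n) (2 * τ ^ (2 * k) / 2 ^ n) fun A a₀ ha => by
      rw [hybrid_step τ A a₀ ha]
      have h1 : ∀ a : Fin (k + 1) → Cube n, pathWt a *
          EP (DP (Zp τ (sgnOf A)) (pathSet a (Fin.last k)) Phi) = (1 / 2 ^ n) ^ k / 2 ^ n := by
        intro a
        simp only [EP, eval_DP, Dz_Phi, integral_const, probReal_univ, smul_eq_mul, one_mul]
        rw [← pathWt_sq a]; ring
      simp only [h1, Finset.sum_const, Finset.card_univ, Fintype.card_pi, Finset.prod_const,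
        Fintype.card_fin, Fintype.card_bool, nsmul_eq_mul]
      push_cast
      have : ((2 : ℝ) ^ n) ^ k * ((1 / 2 ^ n) ^ k / 2 ^ n) = 1 / 2 ^ n := by
        rw [← mul_div_assoc, ← mul_pow, mul_one_div_cancel (by positivity), one_pow]
      rw [this]
      constructor <;> exact le_of_eq (by ring)
  have h2 : (2 : ℝ) ^ n * (2 * τ ^ (2 * k) / 2 ^ n) = 2 * τ ^ (2 * k) := by field_simp
  rw [h2] at h
  exact le_antisymm h.2 h.1

lemma hybrid_bound (hk : 0 < k) (τ : ℝ) (hτ : τ ^ 2 ≤ 1) {J : ℕ} (hJ : 0 < J)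
    (f : (Fin (k + 1) × Cube n → Bool) → ℝ) (hf : ∀ x, |f x| ≤ 1) (B : ℝ) (hB0 : 0 ≤ B)
    (hB : ∀ (z : Fin (k + 1) × Cube n → ℝ) (a₀ : Cube n), (∀ i, |z i| ≤ 1 / 2) →
      |∑ a : Fin k → Cube n, pathWt (Fin.cons a₀ a) *
        Dz z (pathSet (Fin.cons a₀ a) (Fin.last k)) f| ≤ B) :
    |EP (DP (Zp τ (sgnOf (n := n) Finset.univ)) ∅ f) - EP (DP (Zp τ (sgnOf (n := n) ∅)) ∅ f)| ≤
      2 ^ n * (2 * (B + 2 * (2 ^ n) ^ k * (EP (ThP n k τ J) - 1))) := by
  set E := B + 2 * (2 ^ n) ^ k * (EP (ThP n k τ J) - 1) with hE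
  have h := telescope (fun A => EP (DP (Zp τ (sgnOf (n := n) A)) ∅ f)) (-(2 * E)) (2 * E)
    fun A a₀ ha => by
      rw [hybrid_step τ A a₀ ha, ← abs_le, abs_mul, abs_mul, abs_two, mul_assoc]
      refine mul_le_mul_of_nonneg_left ?_ (by norm_num)
      have h1 : |τ ^ (2 * k)| ≤ 1 := by
        rw [pow_mul, abs_of_nonneg (by positivity)]
        exact pow_le_one₀ (sq_nonneg _) hτ
      refine (mul_le_of_le_one_left (abs_nonneg _) h1).trans ?_
      simp only [← EP_C_mul]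
      rw [← EP_sum, EP]
      refine abs_integral_le_ThP τ J _ _ _ fun X => ?_
      simp only [map_sum, map_mul, eval_C, eval_DP]
      have h2 := one_le_ThP τ J X
      by_cases h : eval X (ThP n k τ J) < 2
      · refine (hB _ a₀ (abs_Zp_le hk τ hJ _ (abs_sgnOf A) X h)).trans ?_
        have : 0 ≤ eval X (ThP n k τ J) - 1 := by linarith
        exact le_add_of_nonneg_right (by positivity)
      · refine (Finset.abs_sum_le_sum_abs _ _).trans ?_
        refine (Finset.sum_le_card_nsmul _ _ (eval X (ThP n k τ J)) fun a _ => ?_).trans ?_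
        · rw [abs_mul]
          have h3 : |pathWt (Fin.cons a₀ a : Fin (k + 1) → Cube n)| ≤ 1 := by
            rw [← sq_le_one_iff_abs_le_one, pathWt_sq]
            refine pow_le_one₀ (by positivity) ?_
            rw [div_le_one (by positivity)]
            exact one_le_pow₀ (by norm_num)
          exact (mul_le_of_le_one_left (abs_nonneg _) h3).trans
            ((abs_Dz_le _ _ f hf).trans (prod_max_le_ThP τ hJ _ (abs_sgnOf A) X))
        · simp only [Finset.card_univ, Fintype.card_pi, Finset.prod_const, Fintype.card_fin,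
            Fintype.card_bool, nsmul_eq_mul]
          push_cast
          push Not at h
          have : (0 : ℝ) ≤ (2 ^ n) ^ k := by positivity
          nlinarith
  rw [abs_le]
  constructor <;> linarith [h.1, h.2]

theorem forr_hard (k₀ : ℕ) (hk₀ : 1 ≤ k₀) : ∃ (k : ℕ) (C : ℝ), 1 ≤ C ∧ ∀ n : ℕ, 1 ≤ n →
    C ≤ 2 ^ n → ∃ μ : Bool → (Fin (k + 1) × Cube n → Bool) → ℝ, (∀ b x, 0 ≤ μ b x) ∧
      (∀ b, ∑ x, μ b x = 1) ∧
      1 / (C * n) ^ k ≤ ∑ x, μ true x * Phi x - ∑ x, μ false x * Phi x ∧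
      ∀ L : ℕ, 1 ≤ L → L ^ k₀ ≤ (2 ^ n) ^ (k₀ - 1) → ∀ f, DT L f →
        |∑ x, μ true x * f x - ∑ x, μ false x * f x| ≤ C / 2 ^ n := by
  obtain ⟨k, hk⟩ : ∃ k, k + 1 = 6 * k₀ := ⟨6 * k₀ - 1, by omega⟩
  have hk0 : 0 < k := by omega
  obtain ⟨C₁, hC₁, hFG⟩ := fourier_growth k hk0
  set B₁ : ℝ := 3 * C₁ ^ (k + 1) + 1 with hB₁
  have hB₁1 : 1 ≤ B₁ := le_add_of_nonneg_left (by positivity)
  refine ⟨k, 2 * B₁ + 100 * (k + 3), by have : (0 : ℝ) ≤ k := by positivity
                                        linarith, fun n hn hC => ?_⟩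
  have hkr : (0 : ℝ) ≤ k := by positivity
  set N : ℝ := 2 ^ n with hN
  have hN1 : 1 ≤ N := one_le_pow₀ (by norm_num)
  have hnN : (n : ℝ) ≤ N := by
    have := Nat.lt_two_pow_self (n := n)
    rw [hN]; exact_mod_cast this.le
  have hn1 : (1 : ℝ) ≤ n := by exact_mod_cast hn
  set J : ℕ := (k + 3) * n with hJ
  have hJ0 : 0 < J := by positivity
  have hJr : (J : ℝ) = (k + 3) * n := by rw [hJ]; push_cast; ring
  have hJ1 : (1 : ℝ) ≤ J := by exact_mod_cast hJ0
  set τ : ℝ := Real.sqrt (1 / (32 * J)) with hτ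
  have hτ2 : τ ^ 2 = 1 / (32 * J) := Real.sq_sqrt (by positivity)
  have hτ1 : τ ^ 2 ≤ 1 := by rw [hτ2, div_le_one (by positivity)]; linarith
  have h4J : (4 : ℝ) ^ J = N ^ (2 * (k + 3)) := by
    rw [hJ, hN, ← pow_mul, show (4 : ℝ) = 2 ^ 2 by norm_num, ← pow_mul]; congr 1; ring
  have hkN : 100 * ((k : ℝ) + 3) ≤ N := by linarith
  -- the control error
  set e := EP (ThP n k τ J) - 1 with he
  have he1 : e ≤ 1 / N ^ (2 * k + 4) := by
    have h1 := EP_ThP_le (n := n) (k := k) τ (J := J) (by rw [hτ2]; field_simp; rfl)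
    have h2 : (1 + 3 / 4 ^ J : ℝ) ^ (k * 2 ^ n) ≤ Real.exp (k * N * (3 / 4 ^ J)) := by
      have h3 : (1 + 3 / 4 ^ J : ℝ) ≤ Real.exp (3 / 4 ^ J) := by
        linarith [Real.add_one_le_exp (3 / 4 ^ J : ℝ)]
      refine (pow_le_pow_left₀ (by positivity) h3 _).trans (le_of_eq ?_)
      rw [← Real.exp_nat_mul]; push_cast; rfl
    have h3 : 2 * (k * N * (3 / 4 ^ J)) ≤ 1 / N ^ (2 * k + 4) := by
      rw [h4J, show 2 * (k + 3) = (2 * k + 4) + 2 by ring, pow_add]
      rw [show 2 * (k * N * (3 / (N ^ (2 * k + 4) * N ^ 2))) = (6 * k / N) / N ^ (2 * k + 4) by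
        field_simp; ring]
      gcongr
      rw [div_le_one (by positivity)]; linarith
    have h4 : 1 / N ^ (2 * k + 4) ≤ 1 := by
      rw [div_le_one (by positivity)]; exact one_le_pow₀ hN1
    have h5 : 0 ≤ k * N * (3 / 4 ^ J) := by positivity
    have h6 := Real.abs_exp_sub_one_le (x := k * N * (3 / 4 ^ J))
      (by rw [abs_of_nonneg h5]; linarith)
    rw [abs_of_nonneg h5] at h6
    have h7 := le_abs_self (Real.exp (k * N * (3 / 4 ^ J)) - 1)
    linarith
  refine ⟨fun b => mu τ (sgnOf (if b then Finset.univ else ∅)), fun b x => mu_nonneg _ _ _,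
    fun b => sum_mu_one _ _, ?_, fun L hL hLN f hf => ?_⟩
  · simp only [if_true, Bool.false_eq_true, if_false]
    have h1 := abs_le.1 (trunc_err hk0 τ hJ0 _ (abs_sgnOf (n := n) Finset.univ) Phi abs_Phi_le)
    have h2 := abs_le.1 (trunc_err hk0 τ hJ0 _ (abs_sgnOf (n := n) ∅) Phi abs_Phi_le)
    have h3 := gap_Phi (n := n) (k := k) τ
    have h4 : 1 / ((2 * B₁ + 100 * (k + 3)) * n) ^ k ≤ τ ^ (2 * k) := by
      rw [pow_mul, hτ2, div_pow, one_pow, hJr]
      refine one_div_le_one_div_of_le (by positivity) (pow_le_pow_left₀ (by positivity) ?_ _)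
      nlinarith
    have h5 : 8 * (1 / N ^ (2 * k + 4)) ≤ τ ^ (2 * k) := by
      rw [pow_mul, hτ2, div_pow, one_pow, hJr, mul_one_div, div_le_div_iff₀ (by positivity)
        (by positivity), one_mul, pow_add, pow_mul, mul_comm 8]
      have h6 : 32 * (((k : ℝ) + 3) * n) ≤ N ^ 2 := by nlinarith
      have h7 : (8 : ℝ) ≤ N ^ 4 := by
        have : N ≤ N ^ 4 := le_self_pow₀ hN1 (by norm_num)
        linarith
      gcongr
    linarith [h1.1, h2.2]
  · simp only [if_true, Bool.false_eq_true, if_false]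
    have h1 := abs_le.1 (trunc_err hk0 τ hJ0 _ (abs_sgnOf (n := n) Finset.univ) f hf.abs_le)
    have h2 := abs_le.1 (trunc_err hk0 τ hJ0 _ (abs_sgnOf (n := n) ∅) f hf.abs_le)
    have h3 := abs_le.1 (hybrid_bound hk0 τ hτ1 hJ0 f hf.abs_le (B₁ / N ^ 2) (by positivity)
      fun z a₀ hz => by
        have h4 := hFG _ z hz L hL f hf (Fin k → Cube n)
          (fun a => pathSet (Fin.cons a₀ a) (Fin.last k)) (fun a => pathWt (Fin.cons a₀ a)) (k + 1)
          (fun a a' h => Fin.cons_right_injective _ (pathSet_inj h)) (fun a => pathSet_card _)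
        refine (pow_le_pow_iff_left₀ (abs_nonneg _) (by positivity)
          (show 2 * k ≠ 0 by omega)).1 ?_
        rw [(even_two_mul k).pow_abs]
        refine h4.trans ?_
        simp only [pow_mul (pathWt _), pathWt_sq, Finset.sum_const, Finset.card_univ,
          Fintype.card_pi, Finset.prod_const, Fintype.card_fin, Fintype.card_bool, nsmul_eq_mul]
        push_cast
        rw [← hN]
        have h5 : ((L : ℝ) ^ k) ^ (k + 1) ≤ N ^ (6 * k * (k₀ - 1)) := by
          have h6 : ((L : ℝ) ^ k₀) ≤ N ^ (k₀ - 1) := by rw [hN]; exact_mod_cast hLN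
          calc ((L : ℝ) ^ k) ^ (k + 1) = (L ^ k₀) ^ (6 * k) := by
                rw [← pow_mul, ← pow_mul, hk]; congr 1; ring
            _ ≤ (N ^ (k₀ - 1)) ^ (6 * k) := by gcongr
            _ = _ := by rw [← pow_mul, mul_comm]
        have h6 : N ^ (6 * k * (k₀ - 1)) * N ^ k * N ^ (4 * k) * N ^ 0 ≤ N ^ (k * k) := by
          rw [← pow_add, ← pow_add, ← pow_add]
          refine pow_le_pow_right₀ hN1 (le_of_eq ?_)
          obtain ⟨k₁, rfl⟩ : ∃ k₁, k₀ = k₁ + 1 := ⟨k₀ - 1, by omega⟩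
          rw [Nat.add_sub_cancel]
          have : k = 6 * k₁ + 5 := by omega
          rw [this]; ring
        have h7 : B₁ ≤ B₁ ^ (2 * k) := le_self_pow₀ hB₁1 (by omega)
        rw [div_pow, div_pow, div_pow, one_pow, one_pow, ← pow_mul N, ← pow_mul N, mul_pow,
          le_div_iff₀ (by positivity)]
        calc 3 * (C₁ ^ (k + 1) * ((L : ℝ) ^ k) ^ (k + 1)) * (N ^ k * (1 / N ^ (k * k))) *
              N ^ (2 * (2 * k))
            ≤ 3 * (C₁ ^ (k + 1) * N ^ (6 * k * (k₀ - 1))) * (N ^ k * (1 / N ^ (k * k))) *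
              N ^ (2 * (2 * k)) := by gcongr
          _ = 3 * C₁ ^ (k + 1) * ((N ^ (6 * k * (k₀ - 1)) * N ^ k * N ^ (4 * k) * N ^ 0) /
              N ^ (k * k)) := by ring
          _ ≤ 3 * C₁ ^ (k + 1) * 1 := by
              gcongr
              rwa [div_le_one (by positivity)]
          _ ≤ _ := by linarith)
    rw [← hN, ← he] at h3
    rw [← he] at h1 h2
    have h4 : N * (2 * (B₁ / N ^ 2 + 2 * N ^ k * e)) + 8 * e ≤ (2 * B₁ + 100 * (k + 3)) / N := by
      have h5 : N * N ^ k * e ≤ 1 / N := by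
        calc N * N ^ k * e ≤ N * N ^ k * (1 / N ^ (2 * k + 4)) := by gcongr
          _ ≤ 1 / N := by
            rw [mul_one_div, div_le_div_iff₀ (by positivity) (by positivity), one_mul,
              show N * N ^ k * N = N ^ (k + 2) by ring]
            exact pow_le_pow_right₀ hN1 (by omega)
      have h6 : e ≤ 1 / N := by
        refine he1.trans (one_div_le_one_div_of_le (by positivity) ?_)
        exact le_self_pow₀ hN1 (by omega)
      have h7 : N * (2 * (B₁ / N ^ 2 + 2 * N ^ k * e)) = 2 * B₁ / N + 4 * (N * N ^ k * e) := by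
        field_simp; ring
      have h8 : (2 * B₁ + 100 * (k + 3)) / N = 2 * B₁ / N + 100 * (k + 3) * (1 / N) := by ring
      have h9 : 0 ≤ 1 / N := by positivity
      rw [h7, h8]
      nlinarith
    rw [abs_le]
    constructor <;> linarith [h1.1, h1.2, h2.1, h2.2, h3.1, h3.2]

end Crest.Agent.R350
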