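import Crest.Agent.R350.DT
import Crest.Prelude.Def_QueryComplexity

/-!
Decision trees: counting queries to a region, hitting a hidden set; product distributions.
-/

set_option autoImplicit false

open Finset

namespace Crest.Agent.R350

open Crest.MathPhysics.Query

section Trees

variable {ι : Type} {n' : ℕ} (pos : Fin n' → ι)

open Classical in
/-- Number of queries made inside the region `S` on input `x`. -/
noncomputable def cnt (S : ι → Prop) (x : ι → Bool) : DTree n' → ℕ
  | .answer _ => 0
  | .read i t₀ t₁ => (if S (pos i) then 1 else 0) + if x (pos i) then cnt S x t₁ else cnt S x t₀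

open Classical in
/-- Indicator that one of the first `L` queries inside `S` lies in `D`. -/
noncomputable def hit (S D : ι → Prop) (x : ι → Bool) : DTree n' → ℕ → ℝ
  | .answer _, _ => 0
  | .read i t₀ t₁, L =>
    if S (pos i) then
      (if L = 0 then 0 else if D (pos i) then 1 else
        if x (pos i) then hit S D x t₁ (L - 1) else hit S D x t₀ (L - 1))
    else if x (pos i) then hit S D x t₁ L else hit S D x t₀ L

lemma hit_nonneg (S D : ι → Prop) (x : ι → Bool) (T : DTree n') (L : ℕ) :
    0 ≤ hit pos S D x T L := by
  induction T generalizing L with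
  | answer b => simp [hit]
  | read i t₀ t₁ ih₀ ih₁ =>
    simp only [hit]
    split_ifs <;> first | exact ih₀ _ | exact ih₁ _ | norm_num

lemma hit_or_cnt (S D : ι → Prop) (hDS : ∀ i, D i → S i) (x x' : ι → Bool)
    (hx : ∀ i, ¬ D i → x' i = x i) (T : DTree n') (L : ℕ)
    (h : T.eval (fun i => x (pos i)) ≠ T.eval (fun i => x' (pos i))) :
    hit pos S D x T L = 1 ∨ L < cnt pos S x T := by
  induction T generalizing L with
  | answer b => simp [DTree.eval] at h
  | read i t₀ t₁ ih₀ ih₁ =>
    simp only [hit, cnt]
    by_cases hD : D (pos i)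
    · simp only [hDS _ hD, hD, if_true]
      by_cases hL : L = 0
      · right; omega
      · left; simp [hL]
    · simp only [DTree.eval, hx _ hD] at h
      by_cases hS : S (pos i)
      · simp only [hS, hD, if_true, if_false]
        by_cases hL : L = 0
        · right; omega
        · simp only [hL, if_false]
          cases hb : x (pos i)
          · simp only [hb, Bool.false_eq_true, if_false] at h ⊢
            rcases ih₀ (L - 1) h with h' | h'
            · exact Or.inl h'
            · right; omega
          · simp only [hb, if_true] at h ⊢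
            rcases ih₁ (L - 1) h with h' | h'
            · exact Or.inl h'
            · right; omega
      · simp only [hS, if_false, zero_add]
        cases hb : x (pos i)
        · simp only [hb, Bool.false_eq_true, if_false] at h ⊢
          exact ih₀ L h
        · simp only [hb, if_true] at h ⊢
          exact ih₁ L h

lemma sum_cnt_le {β : Type} [Fintype β] (sl : ι → β) (x : ι → Bool) (T : DTree n') :
    ∑ b, cnt pos (fun i => sl i = b) x T ≤ T.depth := by
  induction T with
  | answer b => simp [cnt]
  | read i t₀ t₁ ih₀ ih₁ =>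
    have h1 : ∑ b, (open Classical in if sl (pos i) = b then 1 else 0) = 1 := by
      rw [Finset.sum_eq_single (sl (pos i))] <;> simp +contextual [eq_comm]
    simp only [cnt, DTree.depth, Finset.sum_add_distrib, h1]
    cases x (pos i)
    · simp only [Bool.false_eq_true, if_false]; omega
    · simp only [if_true]; omega

lemma hit_congr (S D : ι → Prop) (hDS : ∀ i, D i → S i) (x x' : ι → Bool)
    (hx : ∀ i, ¬ D i → x' i = x i) (T : DTree n') (L : ℕ) :
    hit pos S D x' T L = hit pos S D x T L := by
  induction T generalizing L with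
  | answer b => simp [hit]
  | read i t₀ t₁ ih₀ ih₁ =>
    simp only [hit, ih₀, ih₁]
    by_cases hD : D (pos i)
    · simp [hD, hDS _ hD]
    · rw [hx _ hD]

lemma hit_DT {κ : Type} (S D : ι → Prop) (g : (κ → Bool) → ι → Bool)
    (hg : ∀ i, (∃ b, ∀ y, g y i = b) ∨ (S i ∧ ∃ i', ∀ y, g y i = y i')) (T : DTree n') (L : ℕ) :
    DT L fun y => hit pos S D (g y) T L := by
  induction T generalizing L with
  | answer b => simpa [hit] using DT.const L 0 (by simp)
  | read i t₀ t₁ ih₀ ih₁ =>
    simp only [hit]
    by_cases hS : S (pos i)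
    · simp only [hS, if_true]
      rcases L with _ | L
      · simpa using DT.const 0 0 (by simp)
      · simp only [Nat.succ_ne_zero, if_false, Nat.add_sub_cancel]
        by_cases hD : D (pos i)
        · simpa [hD] using DT.const (L + 1) 1 (by simp)
        · simp only [hD, if_false]
          rcases hg (pos i) with ⟨b, hb⟩ | ⟨-, i', hi'⟩
          · cases b
            · simpa [hb] using (ih₀ L).succ
            · simpa [hb] using (ih₁ L).succ
          · simpa [hi'] using DT.node L i' _ _ (ih₀ L) (ih₁ L)
    · simp only [hS, if_false]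
      rcases hg (pos i) with ⟨b, hb⟩ | ⟨h, -⟩
      · cases b
        · simpa [hb] using ih₀ L
        · simpa [hb] using ih₁ L
      · exact absurd h hS

lemma sum_hit_le {Δ : Type} [Fintype Δ] (S : ι → Prop) (D : Δ → ι → Prop) (M : ℝ) (hM0 : 0 ≤ M)
    (hM : ∀ i, ∑ d, ind (D d i) ≤ M) (x : ι → Bool) (T : DTree n') (L : ℕ) :
    ∑ d, hit pos S (D d) x T L ≤ L * M := by
  induction T generalizing L with
  | answer b => simp only [hit, Finset.sum_const_zero]; positivity
  | read i t₀ t₁ ih₀ ih₁ =>
    simp only [hit]
    by_cases hS : S (pos i)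
    · simp only [hS, if_true]
      rcases L with _ | L
      · simp
      · simp only [Nat.succ_ne_zero, if_false, Nat.add_sub_cancel]
        have h1 : ∀ T' : DTree n', ∑ d, hit pos S (D d) x T' L ≤ L * M →
            ∑ d, (open Classical in if D d (pos i) then 1 else hit pos S (D d) x T' L) ≤
              ((L + 1 : ℕ) : ℝ) * M := by
          intro T' hT'
          have h2 : ∀ d, (open Classical in if D d (pos i) then 1 else hit pos S (D d) x T' L) ≤
              ind (D d (pos i)) + hit pos S (D d) x T' L := by
            intro d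
            have := hit_nonneg pos S (D d) x T' L
            split_ifs with h
            · rw [ind_pos h]; linarith
            · rw [ind_neg h]; linarith
          refine (Finset.sum_le_sum fun d _ => h2 d).trans ?_
          rw [Finset.sum_add_distrib]
          push_cast
          linarith [hM (pos i)]
        cases x (pos i)
        · simpa using h1 _ (ih₀ L)
        · simpa using h1 _ (ih₁ L)
    · simp only [hS, if_false]
      cases x (pos i)
      · simpa using ih₀ L
      · simpa using ih₁ L

end Trees

section Product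

variable {J Y : Type} [Fintype J] [DecidableEq J] [Fintype Y]

lemma prod_wt_sum (w : J → Y → ℝ) (hw : ∀ j, ∑ v, w j v = 1) : ∑ y : J → Y, ∏ j, w j (y j) = 1 := by
  rw [← Fintype.piFinset_univ, ← Finset.prod_univ_sum (fun _ => Finset.univ) w]
  simp [hw]

lemma resample (w w' : J → Y → ℝ) (b : J) (h : ∀ j, j ≠ b → w j = w' j) (hw : ∑ v, w' b v = 1)
    (G : (J → Y) → ℝ) : ∑ y : J → Y, (∏ j, w j (y j)) * G y =
      ∑ y : J → Y, (∏ j, w' j (y j)) * ∑ v, w b v * G (Function.update y b v) := by
  rw [sum_update b (w' b) hw, Finset.sum_comm]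
  refine Finset.sum_congr rfl fun y _ => ?_
  rw [Finset.mul_sum]
  refine Finset.sum_congr rfl fun v _ => ?_
  rw [← Finset.mul_prod_erase _ _ (Finset.mem_univ b), ← Finset.mul_prod_erase _ _ (Finset.mem_univ b)]
  have : ∏ j ∈ Finset.univ.erase b, w j (Function.update y b v j) =
      ∏ j ∈ Finset.univ.erase b, w' j (y j) :=
    Finset.prod_congr rfl fun j hj => by
      rw [Function.update_of_ne (Finset.ne_of_mem_erase hj), h j (Finset.ne_of_mem_erase hj)]
  rw [this, Function.update_self]
  ring

lemma avg_le (w : Y → ℝ) (hw0 : ∀ v, 0 ≤ w v) (hw : ∑ v, w v = 1) (G : Y → ℝ) (c : ℝ)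
    (h : ∀ v, G v ≤ c) : ∑ v, w v * G v ≤ c := by
  calc ∑ v, w v * G v ≤ ∑ v, w v * c :=
        Finset.sum_le_sum fun v _ => mul_le_mul_of_nonneg_left (h v) (hw0 v)
    _ = c := by rw [← Finset.sum_mul, hw, one_mul]

lemma hybrid_prod (ν ν' : J → Y → ℝ) (h0 : ∀ j v, 0 ≤ ν j v) (h0' : ∀ j v, 0 ≤ ν' j v)
    (h1 : ∀ j, ∑ v, ν j v = 1) (h1' : ∀ j, ∑ v, ν' j v = 1) (f : (J → Y) → ℝ) (η : ℝ)
    (h : ∀ j y, ∑ v, ν j v * f (Function.update y j v) ≤
      ∑ v, ν' j v * f (Function.update y j v) + η) :
    ∑ y : J → Y, (∏ j, ν j (y j)) * f y ≤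
      ∑ y : J → Y, (∏ j, ν' j (y j)) * f y + Fintype.card J * η := by
  have key : ∀ A : Finset J, ∑ y : J → Y, (∏ j, (if j ∈ A then ν j else ν' j) (y j)) * f y ≤
      ∑ y : J → Y, (∏ j, ν' j (y j)) * f y + A.card * η := by
    intro A
    induction A using Finset.induction_on with
    | empty => simp
    | insert b A hb ih =>
      let w : J → Y → ℝ := fun j => if j ∈ A then ν j else ν' j
      have hw0 : ∀ j v, 0 ≤ w j v := fun j v => by
        simp only [w]; split_ifs; exacts [h0 j v, h0' j v]
      have hw1 : ∀ j, ∑ v, w j v = 1 := fun j => by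
        simp only [w]; split_ifs; exacts [h1 j, h1' j]
      have e1 := resample (fun j => if j ∈ insert b A then ν j else ν' j) w b
        (fun j hj => by simp [w, hj]) (hw1 b) f
      have e2 := resample w w b (fun _ _ => rfl) (hw1 b) f
      have e3 : w b = ν' b := by simp [w, hb]
      rw [e3] at e2
      simp only [Finset.mem_insert_self, if_true] at e1
      rw [e1, Finset.card_insert_of_notMem hb]
      have e4 := avg_le (fun y : J → Y => ∏ j, w j (y j))
        (fun y => Finset.prod_nonneg fun j _ => hw0 j _) (prod_wt_sum w hw1)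
        (fun y => ∑ v, ν b v * f (Function.update y b v) -
          ∑ v, ν' b v * f (Function.update y b v)) η fun y => by linarith [h b y]
      simp only [mul_sub, Finset.sum_sub_distrib] at e4
      rw [← e2] at e4
      push_cast
      linarith
  simpa using key Finset.univ

/-- Chebyshev-type second moment bound for independent coins. -/
lemma coins_second_moment {U : Type} [Fintype U] (v : J → ℝ) (hv : ∀ j, |v j| ≤ 1) (φ : U → J)
    (hφ : Function.Injective φ) :
    ∑ o : J → Bool, (∏ j, (1 + (sg (o j) : ℝ) * v j) / 2) *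
      (∑ u, ((sg (o (φ u)) : ℝ) - v (φ u))) ^ 2 ≤ Fintype.card U := by
  classical
  let w : J → Bool → ℝ := fun j b => (1 + (sg b : ℝ) * v j) / 2
  have hw0 : ∀ j b, 0 ≤ w j b := fun j b => by
    have := abs_le.1 (hv j)
    cases b <;> simp [w, sg] <;> linarith
  have hw1 : ∀ j, ∑ b, w j b = 1 := fun j => by simp [w, sg]; ring
  have h1 : ∀ u u', ∑ o : J → Bool, (∏ j, w j (o j)) *
      (((sg (o (φ u)) : ℝ) - v (φ u)) * ((sg (o (φ u')) : ℝ) - v (φ u'))) ≤
      if u = u' then 1 else 0 := by
    intro u u'
    rw [resample w w (φ u) (fun _ _ => rfl) (hw1 _)]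
    refine avg_le _ (fun y => Finset.prod_nonneg fun j _ => hw0 j _) (prod_wt_sum w hw1) _ _
      fun y => ?_
    split_ifs with h
    · subst h
      simp only [Function.update_self, Fintype.sum_bool, w, sg, if_true, Bool.false_eq_true,
        if_false, Int.cast_neg, Int.cast_one]
      nlinarith [sq_nonneg (v (φ u))]
    · have h2 : φ u' ≠ φ u := fun h' => h (hφ h').symm
      simp only [Function.update_self, Function.update_of_ne h2, Fintype.sum_bool, w]
      simp only [sg, if_true, Bool.false_eq_true, if_false, Int.cast_neg, Int.cast_one]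
      exact le_of_eq (by ring)
  simp only [sq, Finset.sum_mul_sum]
  simp only [Finset.mul_sum]
  rw [Finset.sum_comm]
  calc _ ≤ ∑ _u : U, (1 : ℝ) := Finset.sum_le_sum fun u _ => ?_
    _ = _ := by simp
  rw [Finset.sum_comm]
  refine (Finset.sum_le_sum fun u' _ => h1 u u').trans ?_
  simp

end Product

end Crest.Agent.R350
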