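import Crest.Agent.R350.Func
import Crest.Agent.R350.Tree

/-!
The randomized lower bound for the separating function.
-/

set_option autoImplicit false

open Finset

namespace Crest.Agent.R350

open Crest.MathPhysics.Query

variable {n k s B : ℕ}

/-- Hidden data of one slot: address, row of the zero, instances. -/
abbrev Lat (n k s : ℕ) : Type :=
  (Cube n × Cube n) × (Fin n × Fin s → Fin (k + 1) × Cube n → Bool)

/-- Content of a slot in the null input. -/
def nullSlot (B : ℕ) (l : Lat n k s) : SlotIdx n k s B → Bool :=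
  Sum.elim (fun p => l.2 p.1 p.2) (Sum.elim (fun r => decide (r ≠ l.1.2)) fun _ => false)

/-- The null input. -/
def nullInp (B : ℕ) (Λ : Cube n → Lat n k s) : Idx n k s B → Bool := fun p => nullSlot B (Λ p.1) p.2

/-- The hidden positions of slot `b`. -/
def hid (b : Cube n) (d : Cube n × Cube n) (p : Idx n k s B) : Prop :=
  p = (b, Sum.inr (Sum.inl d.2)) ∨ ∃ c, p = (b, Sum.inr (Sum.inr (d.1, c)))

lemma hid_slot {b : Cube n} {d : Cube n × Cube n} {p : Idx n k s B} (h : hid b d p) : p.1 = b := by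
  rcases h with rfl | ⟨c, rfl⟩ <;> rfl

lemma FF_null (θ : ℝ) (dec : (Fin B → Bool) → ℤ) (Λ : Cube n → Lat n k s) :
    FF θ dec (nullInp B Λ) = false := by
  rw [← Bool.not_eq_true, FF_eq_true]
  rintro ⟨i, a, h, -⟩
  have := h (Λ i).1.2
  simp [col, nullInp, nullSlot] at this

lemma exists_one_input (θ : ℝ) (dec : (Fin B → Bool) → ℤ)
    (hdec : ∀ z : ℤ, |z| ≤ 2 ^ (n * (k + 1)) → ∃ v, dec v = z) (Λ : Cube n → Lat n k s)
    (b : Cube n) (hg : 2 / 3 ≤ decProb θ (fun jj => Phi ((Λ b).2 jj)) (Λ b).1.1) :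
    ∃ x : Idx n k s B → Bool, FF θ dec x = true ∧ ∀ p, ¬ hid b (Λ b).1 p → x p = nullInp B Λ p := by
  classical
  choose A hA0 hAS hAb using fun jj : Fin n × Fin s => fft_complete ((Λ b).2 jj)
  choose enc henc using fun (jj : Fin n × Fin s) (j : Fin (k + 1)) (t : Fin (n + 1)) (c : Cube n) =>
    hdec _ (hAb jj j t c)
  let cell : CellIdx n k s B → Bool :=
    Sum.elim (fun p => (Λ p.1).1.2 p.2) fun p => enc p.1 p.2.1 p.2.2.1 p.2.2.2.1 p.2.2.2.2
  let x : Idx n k s B → Bool := fun p => if p.1 = b then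
    Sum.elim (fun q => (Λ b).2 q.1 q.2) (Sum.elim (fun _ => true)
      fun q => if q.1 = (Λ b).1.1 then cell q.2 else false) p.2 else nullInp B Λ p
  have hnum : ∀ jj, num dec x b (Λ b).1.1 jj = A jj := by
    intro jj
    ext j t c
    simp only [num, x, if_true, Sum.elim_inr, cell]
    exact henc jj j t c
  have hinst : ∀ jj, inst x b jj = (Λ b).2 jj := by
    intro jj
    ext q
    simp [inst, x]
  refine ⟨x, FF_eq_true.2 ⟨b, (Λ b).1.1, fun r => by simp [col, x], fun i' hi' => ?_,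
    fun p => ?_, fun p => ?_, ?_⟩, ?_⟩
  · have : ptr x b (Λ b).1.1 i' = (Λ i').1.2 := by
      ext t
      simp [ptr, x, cell]
    rw [kills, this]
    simp [col, x, hi', nullInp, nullSlot]
  · rw [hnum, hinst]; exact hA0 _ _ _
  · rw [hnum]; exact hAS _ _ _ _
  · convert hg using 3 with jj
    rw [hnum, fft_sound _ _ (hA0 jj) (hAS jj)]
    rfl
  · rintro ⟨i, p⟩ hp
    simp only [x]
    split_ifs with h
    · subst h
      rcases p with q | r | ⟨a, c⟩
      · simp [nullInp, nullSlot]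
      · have : r ≠ (Λ i).1.2 := fun h => hp (Or.inl (by rw [h]))
        simp [nullInp, nullSlot, this]
      · have : a ≠ (Λ i).1.1 := fun h => hp (Or.inr ⟨c, by rw [h]⟩)
        simp [nullInp, nullSlot, this]
    · rfl

lemma sum_hid_le (b : Cube n) (p : Idx n k s B) : ∑ d, ind (hid b d p) ≤ 2 ^ n := by
  obtain ⟨i, p⟩ := p
  rcases p with q | r | ⟨a, c⟩
  · simp [hid, ind]
  · calc _ ≤ ∑ d : Cube n × Cube n, ind (r = d.2) * 1 := by
          refine Finset.sum_le_sum fun d _ => ?_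
          by_cases h : r = d.2
          · rw [ind_pos h, one_mul]; exact ind_le_one _
          · rw [ind_neg h, ind_neg]
            · simp
            · simp [hid, h]
      _ = _ := by rw [Fintype.sum_prod_type]; simp only [sum_ind_eq]; simp
  · calc _ ≤ ∑ d : Cube n × Cube n, ind (a = d.1) * 1 := by
          refine Finset.sum_le_sum fun d _ => ?_
          by_cases h : a = d.1
          · rw [ind_pos h, one_mul]; exact ind_le_one _
          · rw [ind_neg h, ind_neg]
            · simp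
            · simp [hid, h]
      _ = _ := by rw [Fintype.sum_prod_type_right]; simp only [sum_ind_eq]; simp

section

variable (μ : Bool → (Fin (k + 1) × Cube n → Bool) → ℝ)

/-- Distribution of the hidden data of a slot. -/
noncomputable def latWt (l : Lat n k s) : ℝ :=
  1 / 2 ^ n * (1 / 2 ^ n) * ∏ jj, μ (l.1.1 jj.1) (l.2 jj)

variable (hμ0 : ∀ b x, 0 ≤ μ b x) (hμ1 : ∀ b, ∑ x, μ b x = 1)
include hμ0 hμ1

omit hμ1 in
lemma latWt_nonneg (l : Lat n k s) : 0 ≤ latWt μ l := by
  have : 0 ≤ ∏ jj, μ (l.1.1 jj.1) (l.2 jj) := Finset.prod_nonneg fun _ _ => hμ0 _ _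
  unfold latWt; positivity

omit hμ0 in
lemma latWt_sum : ∑ l : Lat n k s, latWt μ l = 1 := by
  rw [Fintype.sum_prod_type]
  simp only [latWt, ← Finset.mul_sum]
  have : ∀ d : Cube n × Cube n, ∑ y : Fin n × Fin s → Fin (k + 1) × Cube n → Bool,
      ∏ jj, μ (d.1 jj.1) (y jj) = 1 := fun d =>
    prod_wt_sum (fun jj : Fin n × Fin s => μ (d.1 jj.1)) fun jj => hμ1 _
  simp only [this]
  simp
  field_simp

lemma slot_hit_le {n' : ℕ} (pos : Fin n' → Idx n k s B) (L : ℕ) (η : ℝ) (hη0 : 0 ≤ η)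
    (hη : ∀ f, DT L f → |∑ x, μ true x * f x - ∑ x, μ false x * f x| ≤ η)
    (T : DTree n') (Λ : Cube n → Lat n k s) (b : Cube n) :
    ∑ l : Lat n k s, latWt μ l * hit pos (fun p => p.1 = b) (hid b l.1)
      (nullInp B (Function.update Λ b l)) T L ≤ L / 2 ^ n + n * s * η := by
  classical
  let x' : (Fin n × Fin s → Fin (k + 1) × Cube n → Bool) → Idx n k s B → Bool := fun y p =>
    if p.1 = b then Sum.elim (fun q => y q.1 q.2) (Sum.elim (fun _ => true) fun _ => false) p.2
    else nullInp B Λ p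
  have h1 : ∀ l : Lat n k s, hit pos (fun p => p.1 = b) (hid b l.1)
      (nullInp B (Function.update Λ b l)) T L =
      hit pos (fun p => p.1 = b) (hid b l.1) (x' l.2) T L := by
    intro l
    refine hit_congr pos _ _ (fun _ => hid_slot) _ _ ?_ T L
    rintro ⟨i, p⟩ hp
    simp only [x', nullInp]
    split_ifs with h
    · subst h
      rw [Function.update_self]
      rcases p with q | r | ⟨a, c⟩
      · simp [nullSlot]
      · have : r ≠ l.1.2 := fun h => hp (Or.inl (by rw [h]))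
        simp [nullSlot, this]
      · simp [nullSlot]
    · rw [Function.update_of_ne h]
  simp only [h1]
  rw [Fintype.sum_prod_type]
  have h2 : ∀ d : Cube n × Cube n, ∑ y : Fin n × Fin s → Fin (k + 1) × Cube n → Bool,
      (∏ jj, μ (d.1 jj.1) (y jj)) * hit pos (fun p => p.1 = b) (hid b d) (x' y) T L ≤
      ∑ y : Fin n × Fin s → Fin (k + 1) × Cube n → Bool,
      (∏ jj, μ false (y jj)) * hit pos (fun p => p.1 = b) (hid b d) (x' y) T L + n * s * η := by
    intro d
    have := hybrid_prod (fun jj : Fin n × Fin s => μ (d.1 jj.1)) (fun _ => μ false)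
      (fun _ _ => hμ0 _ _) (fun _ _ => hμ0 _ _) (fun _ => hμ1 _) (fun _ => hμ1 _)
      (fun y => hit pos (fun p => p.1 = b) (hid b d) (x' y) T L) η fun jj y => by
        cases d.1 jj.1
        · linarith
        · have h3 := hη _ (hit_DT pos (fun p => p.1 = b) (hid b d)
            (fun v => x' (Function.update y jj v)) (fun p => ?_) T L)
          · linarith [(abs_le.1 h3).2]
          · obtain ⟨i, p⟩ := p
            by_cases h : i = b
            · rcases p with ⟨jj', q⟩ | r | ⟨a, c⟩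
              · by_cases h' : jj' = jj
                · exact Or.inr ⟨h, q, fun v => by simp [x', h, h']⟩
                · exact Or.inl ⟨y jj' q, fun v => by simp [x', h, h']⟩
              · exact Or.inl ⟨true, fun v => by simp [x', h]⟩
              · exact Or.inl ⟨false, fun v => by simp [x', h]⟩
            · exact Or.inl ⟨nullInp B Λ (i, p), fun v => by simp [x', h]⟩
    simpa using this
  have hN : (0 : ℝ) < 2 ^ n := by positivity
  simp only [latWt, mul_assoc (1 / 2 ^ n * (1 / 2 ^ n) : ℝ), ← Finset.mul_sum]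
  refine (mul_le_mul_of_nonneg_left (Finset.sum_le_sum fun d _ => h2 d) (by positivity)).trans ?_
  rw [Finset.sum_add_distrib, Finset.sum_comm]
  simp only [← Finset.mul_sum]
  have h3 := avg_le (fun y : Fin n × Fin s → Fin (k + 1) × Cube n → Bool => ∏ jj, μ false (y jj))
    (fun y => Finset.prod_nonneg fun _ _ => hμ0 _ _)
    (prod_wt_sum (fun _ : Fin n × Fin s => μ false) fun _ => hμ1 _)
    (fun y => ∑ d, hit pos (fun p => p.1 = b) (hid b d) (x' y) T L) _
    fun y => sum_hit_le pos _ (hid b) (2 ^ n) hN.le (sum_hid_le b) _ T L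
  refine (mul_le_mul_of_nonneg_left (add_le_add h3 le_rfl) (by positivity)).trans (le_of_eq ?_)
  simp only [Finset.sum_const, Finset.card_univ, Fintype.card_prod, card_cube, nsmul_eq_mul]
  push_cast
  field_simp

lemma tree_bound {n' : ℕ} (pos : Fin n' → Idx n k s B) (L : ℕ) (η : ℝ) (hη0 : 0 ≤ η)
    (hη : ∀ f, DT L f → |∑ x, μ true x * f x - ∑ x, μ false x * f x| ≤ η) (T : DTree n') :
    ∑ b : Cube n, ∑ Λ : Cube n → Lat n k s, (∏ i, latWt μ (Λ i)) *
      (hit pos (fun p => p.1 = b) (hid b (Λ b).1) (nullInp B Λ) T L +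
        cnt pos (fun p => p.1 = b) (nullInp B Λ) T / (L + 1)) ≤
      2 ^ n * (L / 2 ^ n + n * s * η) + T.depth / (L + 1) := by
  have hw0 : ∀ Λ : Cube n → Lat n k s, 0 ≤ ∏ i, latWt μ (Λ i) := fun Λ =>
    Finset.prod_nonneg fun _ _ => latWt_nonneg μ hμ0 _
  have hw1 : ∑ Λ : Cube n → Lat n k s, ∏ i, latWt μ (Λ i) = 1 :=
    prod_wt_sum (fun _ => latWt μ) fun _ => latWt_sum μ hμ1
  simp only [mul_add, Finset.sum_add_distrib]
  rw [← mul_add]
  refine add_le_add ?_ ?_
  · refine (Finset.sum_le_card_nsmul _ _ (L / 2 ^ n + n * s * η) fun b _ => ?_).trans (by simp [mul_add])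
    rw [resample (fun _ => latWt μ) (fun _ => latWt μ) b (fun _ _ => rfl) (latWt_sum μ hμ1)]
    refine avg_le _ hw0 hw1 _ _ fun Λ => ?_
    simp only [Function.update_self]
    exact slot_hit_le μ hμ0 hμ1 pos L η hη0 hη T Λ b
  · rw [Finset.sum_comm]
    simp only [← Finset.mul_sum]
    refine avg_le _ hw0 hw1 _ _ fun Λ => ?_
    rw [← Finset.sum_div]
    gcongr
    exact_mod_cast sum_cnt_le pos (fun p => p.1) (nullInp B Λ) T

omit hμ0 hμ1 in
lemma decProb_ge (θ g : ℝ) (hg : 0 < g) (hs : 0 < s) (a : Cube n) (v : Bool → ℝ)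
    (hv : ∀ b, |v b| ≤ 1) (h1 : θ + g ≤ v true) (h0 : v false ≤ θ - g) :
    1 - n / (s * g ^ 2) ≤ decProb θ (fun jj : Fin n × Fin s => v (a jj.1)) a := by
  have hsr : (0 : ℝ) < s := by exact_mod_cast hs
  have hw0 : ∀ o : Fin n × Fin s → Bool, 0 ≤ ∏ jj, (1 + (sg (o jj) : ℝ) * v (a jj.1)) / 2 :=
    fun o => Finset.prod_nonneg fun jj _ => by
      have := abs_le.1 (hv (a jj.1))
      cases o jj <;> simp [sg] <;> linarith
  have h2 : ∀ o : Fin n × Fin s → Bool, 1 - ∑ β : Fin n,
      (∑ u, ((sg (o (β, u)) : ℝ) - v (a β))) ^ 2 / (s * g) ^ 2 ≤ ind (addr θ o = a) := by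
    intro o
    have h3 : 0 ≤ ∑ β : Fin n, (∑ u, ((sg (o (β, u)) : ℝ) - v (a β))) ^ 2 / (s * g) ^ 2 := by
      positivity
    by_cases h : addr θ o = a
    · rw [ind_pos h]; linarith
    · rw [ind_neg h]
      obtain ⟨β, hβ⟩ := Function.ne_iff.1 h
      have h4 := Finset.single_le_sum (f := fun β : Fin n =>
        (∑ u, ((sg (o (β, u)) : ℝ) - v (a β))) ^ 2 / (s * g) ^ 2) (fun _ _ => by positivity)
        (Finset.mem_univ β)
      have h5 : 1 ≤ (∑ u, ((sg (o (β, u)) : ℝ) - v (a β))) ^ 2 / (s * g) ^ 2 := by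
        rw [le_div_iff₀ (by positivity), one_mul, Finset.sum_sub_distrib]
        simp only [Finset.sum_const, Finset.card_univ, Fintype.card_fin, nsmul_eq_mul]
        simp only [addr] at hβ
        have hsg : 0 < (s : ℝ) * g := by positivity
        cases ha : a β
        · rw [ha] at hβ
          have h6 : θ * s < ∑ u, (sg (o (β, u)) : ℝ) := by simpa using hβ
          refine pow_le_pow_left₀ hsg.le ?_ 2
          nlinarith
        · rw [ha] at hβ
          have h6 : ∑ u, (sg (o (β, u)) : ℝ) ≤ θ * s := by simpa using hβ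
          rw [← neg_sq (_ - _)]
          refine pow_le_pow_left₀ hsg.le ?_ 2
          nlinarith
      linarith
  have h3 : ∑ o : Fin n × Fin s → Bool, (∏ jj, (1 + (sg (o jj) : ℝ) * v (a jj.1)) / 2) *
      (1 - ∑ β : Fin n, (∑ u, ((sg (o (β, u)) : ℝ) - v (a β))) ^ 2 / (s * g) ^ 2) ≤
      decProb θ (fun jj : Fin n × Fin s => v (a jj.1)) a := by
    refine Finset.sum_le_sum fun o _ => ?_
    rw [mul_comm]
    exact mul_le_mul_of_nonneg_right (h2 o) (hw0 o)
  refine le_trans ?_ h3
  simp only [mul_sub, mul_one, Finset.sum_sub_distrib (s := Finset.univ (α := Fin n × Fin s → Bool)),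
    coins_sum fun jj : Fin n × Fin s => v (a jj.1)]
  refine sub_le_sub_left ?_ _
  simp only [Finset.mul_sum]
  rw [Finset.sum_comm]
  refine (Finset.sum_le_card_nsmul _ _ (1 / (s * g ^ 2)) fun β _ => ?_).trans
    (le_of_eq (by simp [div_eq_mul_inv]))
  simp only [← mul_div_assoc, ← Finset.sum_div]
  have h4 := coins_second_moment (fun jj : Fin n × Fin s => v (a jj.1)) (fun _ => hv _)
    (fun u => (β, u)) (fun u u' h => (Prod.ext_iff.1 h).2)
  rw [Fintype.card_fin] at h4
  rw [div_le_div_iff₀ (by positivity) (by positivity)]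
  calc _ ≤ (s : ℝ) * (s * g ^ 2) := mul_le_mul_of_nonneg_right h4 (by positivity)
    _ = _ := by ring

lemma good_prob (θ g : ℝ) (hg : 0 < g) (hs : 30 * n ≤ s * g ^ 2) (hs0 : 0 < s)
    (h1 : θ + g ≤ ∑ x, μ true x * Phi x) (h0 : ∑ x, μ false x * Phi x ≤ θ - g) :
    9 / 10 ≤ ∑ l : Lat n k s, latWt μ l *
      ind (2 / 3 ≤ decProb θ (fun jj => Phi (l.2 jj)) l.1.1) := by
  have hsr : (0 : ℝ) < s := by exact_mod_cast hs0
  have hv : ∀ b, |∑ x, μ b x * Phi x| ≤ 1 := fun b => abs_le.2
    ⟨by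
      have := avg_le (μ b) (hμ0 b) (hμ1 b) (fun x => - Phi x) 1
        fun x => by linarith [(abs_le.1 (abs_Phi_le x)).1]
      simp only [mul_neg, Finset.sum_neg_distrib] at this
      linarith,
    avg_le (μ b) (hμ0 b) (hμ1 b) _ 1 fun x => (abs_le.1 (abs_Phi_le x)).2⟩
  have h2 : ∀ a : Cube n, ∑ y : Fin n × Fin s → Fin (k + 1) × Cube n → Bool,
      (∏ jj, μ (a jj.1) (y jj)) * decProb θ (fun jj => Phi (y jj)) a =
      decProb θ (fun jj : Fin n × Fin s => ∑ x, μ (a jj.1) x * Phi x) a := by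
    intro a
    simp only [decProb, Finset.mul_sum]
    rw [Finset.sum_comm]
    refine Finset.sum_congr rfl fun o _ => ?_
    simp only [mul_left_comm _ (ind _), ← Finset.mul_sum, ← Finset.prod_mul_distrib]
    congr 1
    rw [← Fintype.piFinset_univ, ← Finset.prod_univ_sum (fun _ => Finset.univ)
      (fun (jj : Fin n × Fin s) x => μ (a jj.1) x * ((1 + (sg (o jj) : ℝ) * Phi x) / 2))]
    refine Finset.prod_congr rfl fun jj _ => ?_
    rw [Finset.mul_sum, ← hμ1 (a jj.1), ← Finset.sum_add_distrib, Finset.sum_div, hμ1]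
    exact Finset.sum_congr rfl fun x _ => by ring
  have h3 : ∀ (a : Cube n) (y : Fin n × Fin s → Fin (k + 1) × Cube n → Bool),
      3 * decProb θ (fun jj => Phi (y jj)) a - 2 ≤
        ind (2 / 3 ≤ decProb θ (fun jj => Phi (y jj)) a) := by
    intro a y
    by_cases h : 2 / 3 ≤ decProb θ (fun jj => Phi (y jj)) a
    · rw [ind_pos h]
      have : decProb θ (fun jj => Phi (y jj)) a ≤ 1 := by
        rw [← coins_sum fun jj => Phi (y jj)]
        refine Finset.sum_le_sum fun o _ => mul_le_of_le_one_left ?_ (ind_le_one _)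
        refine Finset.prod_nonneg fun jj _ => ?_
        have := abs_le.1 (abs_Phi_le (y jj))
        cases o jj <;> simp [sg] <;> linarith
      linarith
    · rw [ind_neg h]; push Not at h; linarith
  have h4 : ∀ d : Cube n × Cube n, 9 / 10 ≤ ∑ y : Fin n × Fin s → Fin (k + 1) × Cube n → Bool,
      (∏ jj, μ (d.1 jj.1) (y jj)) * ind (2 / 3 ≤ decProb θ (fun jj => Phi (y jj)) d.1) := by
    intro d
    refine le_trans ?_ (Finset.sum_le_sum fun y _ => mul_le_mul_of_nonneg_left (h3 d.1 y)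
      (Finset.prod_nonneg fun _ _ => hμ0 _ _))
    simp only [mul_sub, Finset.sum_sub_distrib, mul_left_comm _ (3 : ℝ), ← Finset.mul_sum,
      ← Finset.sum_mul, h2, prod_wt_sum (fun jj : Fin n × Fin s => μ (d.1 jj.1)) fun jj => hμ1 _]
    have h5 := decProb_ge θ g hg hs0 d.1 (fun b => ∑ x, μ b x * Phi x) hv h1 h0
    have h6 : n / (s * g ^ 2) ≤ 1 / 30 := by
      rw [div_le_div_iff₀ (by positivity) (by norm_num)]; linarith
    linarith
  rw [Fintype.sum_prod_type]
  simp only [latWt, mul_assoc (1 / 2 ^ n * (1 / 2 ^ n) : ℝ), ← Finset.mul_sum]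
  refine le_trans (le_of_eq ?_)
    (mul_le_mul_of_nonneg_left (Finset.sum_le_sum fun d _ => h4 d) (by positivity))
  simp only [Finset.sum_const, Finset.card_univ, Fintype.card_prod, card_cube, nsmul_eq_mul]
  push_cast
  field_simp

theorem rand_lower (θ g : ℝ) (hg : 0 < g) (hs : 30 * n ≤ s * g ^ 2) (hs0 : 0 < s)
    (h1 : θ + g ≤ ∑ x, μ true x * Phi x) (h0 : ∑ x, μ false x * Phi x ≤ θ - g)
    (dec : (Fin B → Bool) → ℤ) (hdec : ∀ z : ℤ, |z| ≤ 2 ^ (n * (k + 1)) → ∃ v, dec v = z)
    (L : ℕ) (η : ℝ) (hη0 : 0 ≤ η)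
    (hη : ∀ f, DT L f → |∑ x, μ true x * f x - ∑ x, μ false x * f x| ≤ η)
    (hsmall : L / 2 ^ n + n * s * η ≤ 1 / 5)
    {n' : ℕ} (e : Idx n k s B ≃ Fin n') (q : ℕ)
    (hq : RandomizedComputes (fun x : Fin n' → Bool => FF θ dec fun i => x (e i)) q) :
    2 ^ n * (L + 1 : ℝ) / 10 ≤ q := by
  obtain ⟨t, p, T, hp0, hp1, hT, hc⟩ := hq
  have hw0 : ∀ Λ : Cube n → Lat n k s, 0 ≤ ∏ i, latWt μ (Λ i) := fun Λ =>
    Finset.prod_nonneg fun _ _ => latWt_nonneg μ hμ0 _
  have hw1 : ∑ Λ : Cube n → Lat n k s, ∏ i, latWt μ (Λ i) = 1 :=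
    prod_wt_sum (fun _ => latWt μ) fun _ => latWt_sum μ hμ1
  have h2 : ∀ (b : Cube n) (Λ : Cube n → Lat n k s),
      ind (2 / 3 ≤ decProb θ (fun jj => Phi ((Λ b).2 jj)) (Λ b).1.1) / 3 ≤
      ∑ j, p j * (hit e.symm (fun p => p.1 = b) (hid b (Λ b).1) (nullInp B Λ) (T j) L +
        cnt e.symm (fun p => p.1 = b) (nullInp B Λ) (T j) / (L + 1)) := by
    intro b Λ
    have hnn : ∀ j, 0 ≤ hit e.symm (fun p => p.1 = b) (hid b (Λ b).1) (nullInp B Λ) (T j) L :=
      fun j => hit_nonneg _ _ _ _ _ _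
    by_cases hg : 2 / 3 ≤ decProb θ (fun jj => Phi ((Λ b).2 jj)) (Λ b).1.1
    · obtain ⟨x, hx1, hx2⟩ := exists_one_input θ dec hdec Λ b hg
      have h3 := hc fun i => x (e.symm i)
      have h4 := hc fun i => nullInp B Λ (e.symm i)
      simp only [Equiv.symm_apply_apply] at h3 h4
      rw [hx1] at h3
      rw [FF_null] at h4
      rw [ind_pos hg]
      have h5 : ∀ j, (if (T j).eval (fun i => x (e.symm i)) = true then p j else 0) +
          (if (T j).eval (fun i => nullInp B Λ (e.symm i)) = false then p j else 0) ≤ p j +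
          p j * (hit e.symm (fun p => p.1 = b) (hid b (Λ b).1) (nullInp B Λ) (T j) L +
          cnt e.symm (fun p => p.1 = b) (nullInp B Λ) (T j) / (L + 1)) := by
        intro j
        have h6 : 0 ≤ p j * (hit e.symm (fun p => p.1 = b) (hid b (Λ b).1) (nullInp B Λ) (T j) L +
          cnt e.symm (fun p => p.1 = b) (nullInp B Λ) (T j) / (L + 1)) := by
          have := hp0 j; have := hnn j; positivity
        have := hp0 j
        split_ifs with h7 h8
        · rcases hit_or_cnt e.symm (fun p => p.1 = b) (hid b (Λ b).1) (fun _ => hid_slot)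
            (nullInp B Λ) x hx2 (T j) L (by rw [h7, h8]; simp) with h9 | h9
          · rw [h9]
            have : (0 : ℝ) ≤ cnt e.symm (fun p => p.1 = b) (nullInp B Λ) (T j) / (L + 1) := by
              positivity
            nlinarith
          · have : (1 : ℝ) ≤ cnt e.symm (fun p => p.1 = b) (nullInp B Λ) (T j) / (L + 1) := by
              rw [le_div_iff₀ (by positivity), one_mul]
              exact_mod_cast h9
            nlinarith [hnn j]
        · linarith
        · linarith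
        · linarith
      have h6 := Finset.sum_le_sum fun j (_ : j ∈ Finset.univ) => h5 j
      rw [Finset.sum_add_distrib, Finset.sum_add_distrib, hp1] at h6
      linarith
    · rw [ind_neg hg, zero_div]
      exact Finset.sum_nonneg fun j _ => by have := hp0 j; have := hnn j; positivity
  have h3 : ∑ b : Cube n, ∑ Λ : Cube n → Lat n k s, (∏ i, latWt μ (Λ i)) *
      (ind (2 / 3 ≤ decProb θ (fun jj => Phi ((Λ b).2 jj)) (Λ b).1.1) / 3) ≤
      2 ^ n * (L / 2 ^ n + n * s * η) + q / (L + 1) := by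
    refine (Finset.sum_le_sum fun b _ => Finset.sum_le_sum fun Λ _ =>
      mul_le_mul_of_nonneg_left (h2 b Λ) (hw0 Λ)).trans ?_
    simp only [Finset.mul_sum, mul_left_comm _ (p _)]
    rw [Finset.sum_congr rfl fun b _ => Finset.sum_comm, Finset.sum_comm]
    simp only [← Finset.mul_sum]
    refine avg_le p hp0 hp1 _ _ fun j => (tree_bound μ hμ0 hμ1 e.symm L η hη0 hη (T j)).trans ?_
    gcongr
    exact_mod_cast hT j
  have h4 : ∀ b : Cube n, 3 / 10 ≤ ∑ Λ : Cube n → Lat n k s, (∏ i, latWt μ (Λ i)) *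
      (ind (2 / 3 ≤ decProb θ (fun jj => Phi ((Λ b).2 jj)) (Λ b).1.1) / 3) := by
    intro b
    rw [resample (fun _ => latWt μ) (fun _ => latWt μ) b (fun _ _ => rfl) (latWt_sum μ hμ1)]
    simp only [Function.update_self, ← Finset.sum_mul, hw1, one_mul, ← mul_div_assoc,
      ← Finset.sum_div]
    linarith [good_prob (s := s) μ hμ0 hμ1 θ g hg hs hs0 h1 h0]
  have h5 := (Finset.card_nsmul_le_sum _ _ _ fun b _ => h4 b).trans h3
  simp only [Finset.card_univ, card_cube, nsmul_eq_mul] at h5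
  push_cast at h5
  have hN : (0 : ℝ) < 2 ^ n := by positivity
  have h6 : 2 ^ n / 10 ≤ (q : ℝ) / (L + 1) := by nlinarith
  rw [div_le_div_iff₀ (by norm_num) (by positivity)] at h6
  linarith

end

end Crest.Agent.R350
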