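import Crest.Agent.R350.Cost

/-!
States depending on the input: preparable states (`PState`), acceptance probabilities (`Acc`),
sequential composition and amplitude amplification, all in the cost calculus.
-/

set_option autoImplicit false

open Finset

namespace Crest.Agent.R350

variable {ι : Type} [Fintype ι]

/-- A vector-valued function of the input whose increments have cost `W`. -/
def PState {Ω : Type} [Fintype Ω] (ψ : (ι → Bool) → Ω → ℝ) (W : ℝ) : Prop :=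
  ∀ φ : (ι → Bool) → Ω → ℝ,
    Cost (fun x y => ∑ ω, (ψ x ω - ψ y ω) * φ y ω) (fun _ => W) (fun y => W * ∑ ω, φ y ω ^ 2)

/-- The sign `(-1)^b`. -/
def sg (b : Bool) : ℤ := if b then -1 else 1

lemma sg_sq (b : Bool) : ((sg b : ℤ) : ℝ) ^ 2 = 1 := by cases b <;> simp [sg]
lemma sg_mul_self (b : Bool) : sg b * sg b = 1 := by cases b <;> simp [sg]
lemma abs_sg (b : Bool) : |sg b| = 1 := by cases b <;> simp [sg]
lemma abs_sg_real (b : Bool) : |((sg b : ℤ) : ℝ)| = 1 := by cases b <;> simp [sg]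

lemma sum_prod_sq {J Ω : Type} [Fintype J] [DecidableEq J] [Fintype Ω] (χ : J → Ω → ℝ) :
    ∑ ω : J → Ω, (∏ j, χ j (ω j)) ^ 2 = ∏ j, ∑ ω, χ j ω ^ 2 := by
  simp only [← Finset.prod_pow]
  rw [Finset.prod_univ_sum, Fintype.piFinset_univ]

namespace PState

variable {Ω Ω' : Type} [Fintype Ω] [Fintype Ω'] {ψ : (ι → Bool) → Ω → ℝ} {W W' : ℝ}

lemma nonneg (h : PState ψ W) : 0 ≤ W := (h fun _ _ => 0).nonneg_left fun _ => false

lemma mono (h : PState ψ W) (hW : W ≤ W') : PState ψ W' := fun φ =>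
  (h φ).of_le (fun _ _ => rfl) (fun _ => hW)
    (fun _ => mul_le_mul_of_nonneg_right hW (by positivity))

lemma const (c : Ω → ℝ) : PState (ι := ι) (fun _ => c) 0 := fun _ =>
  Cost.zero.of_le (fun _ _ => by simp) (fun _ => le_rfl) (fun _ => by simp)

lemma affine (h : PState ψ W) (A : Ω' → Ω → ℝ) (c : Ω' → ℝ)
    (hA : ∀ φ : Ω' → ℝ, ∑ ω, (∑ ω', A ω' ω * φ ω') ^ 2 ≤ ∑ ω', φ ω' ^ 2) :
    PState (fun x ω' => ∑ ω, A ω' ω * ψ x ω + c ω') W := fun φ => by
  refine (h fun y ω => ∑ ω', A ω' ω * φ y ω').of_le (fun x y => ?_) (fun _ => le_rfl)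
    (fun y => mul_le_mul_of_nonneg_left (hA _) h.nonneg)
  simp only [Finset.mul_sum]
  rw [Finset.sum_comm]
  refine Finset.sum_congr rfl fun ω' _ => ?_
  rw [add_sub_add_right_eq_sub, ← Finset.sum_sub_distrib, Finset.sum_mul]
  exact Finset.sum_congr rfl fun ω _ => by ring

lemma equiv (h : PState ψ W) (e : Ω' ≃ Ω) : PState (fun x ω' => ψ x (e ω')) W := fun φ => by
  refine (h fun y ω => φ y (e.symm ω)).of_le (fun x y => ?_) (fun _ => le_rfl) (fun y => ?_)
  · rw [← e.sum_comp]; simp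
  · rw [← e.sum_comp]; simp

lemma phase (h : PState ψ W) (hn : ∀ x, ∑ ω, ψ x ω ^ 2 ≤ 1) (q : Ω → ι) :
    PState (fun x ω => (sg (x (q ω)) : ℝ) * ψ x ω) (W + 4) := fun φ => by
  have h1 := h fun y ω => (sg (y (q ω)) : ℝ) * φ y ω
  have h2 := Cost.sum Finset.univ _ _ _ fun ω _ =>
    (Cost.query (q ω)).mul (fun x => 2 * (sg (x (q ω)) : ℝ) * ψ x ω) (fun y => φ y ω)
  refine (h1.add h2).of_le (fun x y => ?_) (fun x => ?_) (fun y => ?_)
  · rw [← Finset.sum_add_distrib]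
    refine Finset.sum_congr rfl fun ω _ => ?_
    beta_reduce
    cases hx : x (q ω) <;> cases hy : y (q ω) <;> simp [neq, sg] <;> ring
  · simp only [mul_pow, sg_sq, mul_one, ← Finset.mul_sum]
    linarith [hn x]
  · simp only [mul_pow, sg_sq, mul_one, one_mul]
    have : 0 ≤ ∑ ω, φ y ω ^ 2 := by positivity
    nlinarith

lemma bind (h : PState ψ W) (hn : ∀ x, ∑ ω, ψ x ω ^ 2 ≤ 1) (χ : Ω → (ι → Bool) → Ω' → ℝ)
    (hχ : ∀ l, PState (χ l) W') (hχn : ∀ l x, ∑ ω', χ l x ω' ^ 2 ≤ 1) (hW' : 0 ≤ W') :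
    PState (fun x (p : Ω × Ω') => ψ x p.1 * χ p.1 x p.2) (W + W') := fun φ => by
  have h1 := h fun y l => ∑ ω', χ l y ω' * φ y (l, ω')
  have h2 := Cost.sum Finset.univ _ _ _ fun l _ =>
    (hχ l fun y ω' => φ y (l, ω')).mul (fun x => ψ x l) (fun _ => 1)
  refine (h1.add h2).of_le (fun x y => ?_) (fun x => ?_) (fun y => ?_)
  · rw [← Finset.sum_add_distrib, Fintype.sum_prod_type]
    refine Finset.sum_congr rfl fun l _ => ?_
    simp only [Finset.mul_sum, ← Finset.sum_add_distrib]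
    exact Finset.sum_congr rfl fun ω' _ => by ring
  · rw [← Finset.sum_mul]
    nlinarith [hn x]
  · rw [Fintype.sum_prod_type, add_mul]
    refine add_le_add (mul_le_mul_of_nonneg_left (Finset.sum_le_sum fun l _ => ?_) h.nonneg) ?_
    · refine (Finset.sum_mul_sq_le_sq_mul_sq _ _ _).trans ?_
      have : 0 ≤ ∑ ω', φ y (l, ω') ^ 2 := by positivity
      nlinarith [hχn l y]
    · simp [Finset.mul_sum]

lemma pi {J : Type} [Fintype J] [DecidableEq J] (χ : J → (ι → Bool) → Ω → ℝ)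
    (hχ : ∀ j, PState (χ j) W) (hχn : ∀ j x, ∑ ω, χ j x ω ^ 2 ≤ 1) (hW : 0 ≤ W) :
    PState (fun x (ω : J → Ω) => ∏ j, χ j x (ω j)) (Fintype.card J * W) := by
  classical
  have key : ∀ (n : ℕ) (χ : Fin n → (ι → Bool) → Ω → ℝ) (_ : ∀ j, PState (χ j) W)
      (_ : ∀ j x, ∑ ω, χ j x ω ^ 2 ≤ 1),
      PState (fun x (ω : Fin n → Ω) => ∏ j, χ j x (ω j)) (n * W) := by
    intro n
    induction n with
    | zero => intro χ _ _; simpa using const (ι := ι) (fun _ : Fin 0 → Ω => (1 : ℝ))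
    | succ n ih =>
      intro χ hχ hχn
      have h0 : ∀ x, ∑ ω : Fin n → Ω, (∏ j : Fin n, χ j.succ x (ω j)) ^ 2 ≤ 1 := by
        intro x
        rw [sum_prod_sq (fun (j : Fin n) ω => χ j.succ x ω)]
        exact Finset.prod_le_one (fun j _ => by positivity) fun j _ => hχn _ _
      have hi : PState (fun x (ω : Fin n → Ω) => ∏ j : Fin n, χ j.succ x (ω j)) (n * W) :=
        ih (fun j => χ j.succ) (fun j => hχ j.succ) fun j => hχn j.succ
      have h1 := (hχ 0).bind (hχn 0) (fun _ x (ω : Fin n → Ω) => ∏ j : Fin n, χ j.succ x (ω j))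
        (fun _ => hi) (fun _ x => h0 x) (by positivity)
      have h2 := h1.equiv (Fin.consEquiv fun _ => Ω).symm
      refine PState.mono (W := W + n * W) ?_ (by push_cast; linarith)
      convert h2 using 3 with x ω
      rw [Fin.prod_univ_succ]
      rfl
  have e := Fintype.equivFin J
  have h1 := key _ (fun j => χ (e.symm j)) (fun j => hχ _) fun j => hχn _
  have h2 := h1.equiv (Equiv.arrowCongr e (Equiv.refl Ω))
  convert h2 using 3 with x ω
  rw [← e.symm.prod_comp]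
  simp

end PState

/-- `Acc q W`: some state of cost `W` is accepted with probability `q x` on input `x`. -/
def Acc (q : (ι → Bool) → ℝ) (W : ℝ) : Prop :=
  ∃ (Ω : Type) (_ : Fintype Ω) (τ : (ι → Bool) → Ω → ℝ) (out : Ω → Bool),
    (∀ x, ∑ ω, τ x ω ^ 2 = 1) ∧
    Cost (fun x y => 1 - ∑ ω, τ x ω * τ y ω) (fun _ => W) (fun _ => W) ∧
    ∀ x, q x = ∑ ω, if out ω then τ x ω ^ 2 else 0

namespace Acc

variable {q : (ι → Bool) → ℝ} {W W' : ℝ}

lemma mono (h : Acc q W) (hW : W ≤ W') : Acc q W' := by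
  obtain ⟨Ω, _, τ, out, h1, h2, h3⟩ := h
  exact ⟨Ω, inferInstance, τ, out, h1, h2.of_le (fun _ _ => rfl) (fun _ => hW) (fun _ => hW), h3⟩

lemma ofFun {P : (ι → Bool) → Prop} (h : FCost P W) : Acc (fun x => ind (P x)) W := by
  refine ⟨Bool, inferInstance, fun x b => if b then ind (P x) else ind (¬ P x), id, fun x => ?_,
    Cost.of_le h (fun x y => ?_) (fun _ => le_rfl) (fun _ => le_rfl), fun x => ?_⟩
  · simp [ind_sq, ind_not (P x)]
    by_cases hx : P x
    · simp [ind_pos hx]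
    · simp [ind_neg hx]
  · by_cases hx : P x <;> by_cases hy : P y
    · rw [neq_of_eq (propext (iff_of_true hx hy))]; simp [ind_not, ind_pos hx, ind_pos hy]
    · rw [neq_of_ne (fun h : P x = P y => hy (h ▸ hx))]; simp [ind_not, ind_pos hx, ind_neg hy]
    · rw [neq_of_ne (fun h : P x = P y => hx (h ▸ hy))]; simp [ind_not, ind_pos hy, ind_neg hx]
    · rw [neq_of_eq (propext (iff_of_false hx hy))]; simp [ind_not, ind_neg hx, ind_neg hy]
  · simp [ind_sq]

lemma bind {Ω : Type} [Fintype Ω] (τ : (ι → Bool) → Ω → ℝ) (hn : ∀ x, ∑ ω, τ x ω ^ 2 = 1)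
    (hτ : Cost (fun x y => 1 - ∑ ω, τ x ω * τ y ω) (fun _ => W) (fun _ => W))
    (q : Ω → (ι → Bool) → ℝ) (hq : ∀ ω, Acc (q ω) W') :
    Acc (fun x => ∑ ω, τ x ω ^ 2 * q ω x) (W + W') := by
  choose Ω' inst χ out h1 h2 h3 using hq
  refine ⟨Σ ω, Ω' ω, inferInstance, fun x p => τ x p.1 * χ p.1 x p.2, fun p => out p.1 p.2,
    fun x => ?_, ?_, fun x => ?_⟩
  · rw [Fintype.sum_sigma]
    simp only [mul_pow, ← Finset.mul_sum, h1, mul_one, hn]
  · have h4 := Cost.sum Finset.univ _ _ _ fun ω _ =>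
      (h2 ω).mul (fun x => τ x ω) (fun x => τ x ω)
    refine (hτ.add h4).of_le (fun x y => ?_) (fun x => ?_) (fun x => ?_)
    · rw [Fintype.sum_sigma]
      simp only [mul_sub, mul_one, Finset.sum_sub_distrib, Finset.mul_sum]
      have : ∀ ω, ∑ ω', τ x ω * χ ω x ω' * (τ y ω * χ ω y ω') =
          ∑ ω', τ x ω * τ y ω * (χ ω x ω' * χ ω y ω') :=
        fun ω => Finset.sum_congr rfl fun _ _ => by ring
      simp only [this]
      ring
    · rw [← Finset.sum_mul, hn]; simp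
    · rw [← Finset.sum_mul, hn]; simp
  · rw [Fintype.sum_sigma]
    refine Finset.sum_congr rfl fun ω _ => ?_
    rw [h3, Finset.mul_sum]
    refine Finset.sum_congr rfl fun ω' _ => ?_
    split_ifs <;> ring

/-- Uniform mixture. -/
lemma mix {U : Type} [Fintype U] [Nonempty U] (q : U → (ι → Bool) → ℝ) (hq : ∀ u, Acc (q u) W) :
    Acc (fun x => (∑ u, q u x) / Fintype.card U) W := by
  have hc : (0 : ℝ) < Fintype.card U := by exact_mod_cast Fintype.card_pos
  have h := bind (W := 0) (fun (_ : ι → Bool) (_ : U) => (Real.sqrt (Fintype.card U))⁻¹)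
    (fun x => by simp [Real.sq_sqrt hc.le, hc.ne'])
    (Cost.zero.of_le (fun x y => by
      simp only [← mul_inv, Real.mul_self_sqrt hc.le]; simp [hc.ne'])
      (fun _ => le_rfl) (fun _ => le_rfl)) q hq
  rw [zero_add] at h
  convert h using 2 with x
  rw [← Finset.mul_sum, inv_pow, Real.sq_sqrt hc.le, div_eq_inv_mul]

end Acc

section Amplify

variable {Ω : Type} [Fintype Ω]

/-- Total weight of the basis states satisfying `P`. -/
noncomputable def goodWt (ψ : Ω → ℝ) (P : Ω → Prop) : ℝ := ∑ ω, ind (P ω) * ψ ω ^ 2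

lemma goodWt_nonneg (ψ : Ω → ℝ) (P : Ω → Prop) : 0 ≤ goodWt ψ P :=
  Finset.sum_nonneg fun _ _ => mul_nonneg (ind_nonneg _) (sq_nonneg _)

/-- The amplified state at scale `σ`. -/
noncomputable def amp (σ : ℝ) (ψ : Ω → ℝ) (P : Ω → Prop) : Option Ω → ℝ
  | none => (σ ^ 2 - goodWt ψ P) / (σ ^ 2 + goodWt ψ P)
  | some ω => 2 * σ * (ind (P ω) * ψ ω) / (σ ^ 2 + goodWt ψ P)

lemma amp_inner {σ : ℝ} (hσ : 0 < σ) (ψ ψ' : Ω → ℝ) (P P' : Ω → Prop) :
    1 - ∑ o, amp σ ψ P o * amp σ ψ' P' o =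
      2 * σ ^ 2 / ((σ ^ 2 + goodWt ψ P) * (σ ^ 2 + goodWt ψ' P')) *
        (goodWt ψ P + goodWt ψ' P' - 2 * ∑ ω, (ind (P ω) * ψ ω) * (ind (P' ω) * ψ' ω)) := by
  have h1 : 0 < σ ^ 2 + goodWt ψ P := by have := goodWt_nonneg ψ P; positivity
  have h2 : 0 < σ ^ 2 + goodWt ψ' P' := by have := goodWt_nonneg ψ' P'; positivity
  rw [Fintype.sum_option]
  simp only [amp]
  have : ∑ ω, 2 * σ * (ind (P ω) * ψ ω) / (σ ^ 2 + goodWt ψ P) *
      (2 * σ * (ind (P' ω) * ψ' ω) / (σ ^ 2 + goodWt ψ' P')) =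
      4 * σ ^ 2 / ((σ ^ 2 + goodWt ψ P) * (σ ^ 2 + goodWt ψ' P')) *
        ∑ ω, (ind (P ω) * ψ ω) * (ind (P' ω) * ψ' ω) := by
    rw [Finset.mul_sum]
    refine Finset.sum_congr rfl fun ω _ => ?_
    field_simp
    ring
  rw [this]
  field_simp
  ring

lemma amp_norm {σ : ℝ} (hσ : 0 < σ) (ψ : Ω → ℝ) (P : Ω → Prop) :
    ∑ o, amp σ ψ P o ^ 2 = 1 := by
  have h := amp_inner hσ ψ ψ P P
  have h2 : ∑ ω, (ind (P ω) * ψ ω) * (ind (P ω) * ψ ω) = goodWt ψ P := by
    refine Finset.sum_congr rfl fun ω _ => ?_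
    rw [← sq, mul_pow, ind_sq]
  rw [h2] at h
  simp only [sq] at h ⊢
  linarith

lemma amp_cost {ψ : (ι → Bool) → Ω → ℝ} {W Wp σ : ℝ} (hψ : PState ψ W)
    (hn : ∀ x, ∑ ω, ψ x ω ^ 2 ≤ 1) (P : (ι → Bool) → Ω → Prop)
    (hP : ∀ ω, FCost (fun x => P x ω) Wp) (hWp : 0 ≤ Wp) (hσ : 0 < σ) :
    Cost (fun x y => 1 - ∑ o, amp σ (ψ x) (P x) o * amp σ (ψ y) (P y) o)
      (fun _ => 2 * (W + Wp) / σ) (fun _ => 2 * (W + Wp) / σ) := by
  have hW := hψ.nonneg
  set w : (ι → Bool) → ℝ := fun x => goodWt (ψ x) (P x) with hw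
  have hw0 : ∀ x, 0 ≤ w x := fun x => goodWt_nonneg _ _
  have hg : ∀ y, ∑ ω, (ind (P y ω) * ψ y ω) ^ 2 = w y := fun y =>
    Finset.sum_congr rfl fun ω _ => by rw [mul_pow, ind_sq]
  have h1 := (hψ fun y ω => ind (P y ω) * ψ y ω).neg
  have h2 := Cost.sum Finset.univ _ _ _ fun ω _ =>
    Cost.mul (hP ω) (fun x => ind (¬ P x ω) * ψ x ω) (fun y => ind (P y ω) * ψ y ω)
  have h3 : Cost (fun x y => w y - ∑ ω, (ind (P x ω) * ψ x ω) * (ind (P y ω) * ψ y ω))
      (fun _ => W + Wp) (fun y => (W + Wp) * w y) := by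
    refine (h1.add h2).of_le (fun x y => ?_) (fun x => ?_) (fun y => ?_)
    · simp only [hw, goodWt, ← Finset.sum_neg_distrib, ← Finset.sum_add_distrib,
        ← Finset.sum_sub_distrib]
      refine Finset.sum_congr rfl fun ω _ => ?_
      by_cases hx : P x ω <;> by_cases hy : P y ω
      · simp [ind_not, ind_pos hx, ind_pos hy]; ring
      · simp [ind_neg hy]
      · rw [neq_of_ne (fun h : P x ω = P y ω => hx (h ▸ hy))]
        simp [ind_not, ind_neg hx, ind_pos hy]; ring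
      · simp [ind_neg hy]
    · rw [← Finset.sum_mul]
      have : ∑ ω, (ind (¬ P x ω) * ψ x ω) ^ 2 ≤ ∑ ω, ψ x ω ^ 2 :=
        Finset.sum_le_sum fun ω _ => by
          rw [mul_pow, ind_sq]
          nlinarith [ind_le_one (¬ P x ω), sq_nonneg (ψ x ω)]
      nlinarith [hn x]
    · rw [← Finset.sum_mul, hg]; linarith
  have hD : ∀ x, 0 < σ ^ 2 + w x := fun x => by have := hw0 x; positivity
  have h4 := h3.mul (fun x => σ * Real.sqrt σ / (σ ^ 2 + w x))
    (fun y => 2 * σ / Real.sqrt σ / (σ ^ 2 + w y))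
  have hs : 0 < Real.sqrt σ := Real.sqrt_pos.2 hσ
  have h5 : Cost (fun x y => 2 * σ ^ 2 / ((σ ^ 2 + w x) * (σ ^ 2 + w y)) *
      (w y - ∑ ω, (ind (P x ω) * ψ x ω) * (ind (P y ω) * ψ y ω)))
      (fun _ => (W + Wp) / σ) (fun _ => (W + Wp) / σ) := by
    refine h4.of_le (fun x y => ?_) (fun x => ?_) (fun y => ?_)
    · have := hD x; have := hD y
      field_simp
    · rw [div_pow, mul_pow, Real.sq_sqrt hσ.le, div_eq_inv_mul (W + Wp)]
      refine mul_le_mul_of_nonneg_right ?_ (by positivity)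
      rw [div_le_iff₀ (by have := hD x; positivity), ← div_eq_inv_mul, le_div_iff₀ hσ]
      nlinarith [hw0 x, sq_nonneg σ, mul_nonneg (sq_nonneg σ) (hw0 x), sq_nonneg (w x)]
    · rw [div_pow, div_pow, Real.sq_sqrt hσ.le, mul_comm (W + Wp), ← mul_assoc,
        div_eq_inv_mul (W + Wp)]
      refine mul_le_mul_of_nonneg_right ?_ (by positivity)
      rw [div_mul_eq_mul_div, div_le_iff₀ (by have := hD y; positivity), ← div_eq_inv_mul,
        div_mul_eq_mul_div, div_le_div_iff_of_pos_right hσ]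
      nlinarith [sq_nonneg (σ ^ 2 - w y)]
  refine (h5.add h5.transpose).of_le (fun x y => ?_) (fun x => le_of_eq (by ring))
    (fun x => le_of_eq (by ring))
  rw [amp_inner hσ]
  have : ∑ ω, (ind (P y ω) * ψ y ω) * (ind (P x ω) * ψ x ω) =
      ∑ ω, (ind (P x ω) * ψ x ω) * (ind (P y ω) * ψ y ω) :=
    Finset.sum_congr rfl fun ω _ => mul_comm _ _
  rw [this, mul_comm (σ ^ 2 + w y)]
  ring

end Amplify

end Crest.Agent.R350
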